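import Mathlib

/-!
Given roots of unity with product one, a permutation and distinct roots of unity whose quotients
along the permutation are the given numbers.
-/

namespace Vale.Agent.P002

/-- A root of unity in the complex numbers. -/
def RU (z : ℂ) : Prop := ∃ N : ℕ, 0 < N ∧ z ^ N = 1

theorem RU.one : RU 1 := ⟨1, one_pos, one_pow _⟩

theorem RU.mul {a b : ℂ} (ha : RU a) (hb : RU b) : RU (a * b) := by
  obtain ⟨M, hM, eM⟩ := ha
  obtain ⟨N, hN, eN⟩ := hb
  refine ⟨M * N, Nat.mul_pos hM hN, ?_⟩
  rw [mul_pow, pow_mul, eM, one_pow, mul_comm M N, pow_mul, eN, one_pow, one_mul]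

theorem RU.inv {a : ℂ} (ha : RU a) : RU a⁻¹ := by
  obtain ⟨M, hM, eM⟩ := ha
  exact ⟨M, hM, by rw [inv_pow, eM, inv_one]⟩

theorem RU.ne_zero {a : ℂ} (ha : RU a) : a ≠ 0 := by
  obtain ⟨M, hM, eM⟩ := ha
  rintro rfl
  simp [zero_pow hM.ne'] at eM

theorem RU.isIntegral {a : ℂ} (ha : RU a) : IsIntegral ℤ a := by
  obtain ⟨M, hM, eM⟩ := ha
  exact .of_pow hM (eM ▸ isIntegral_one)

theorem RU.prod {ι : Type*} (s : Finset ι) {f : ι → ℂ} (h : ∀ i ∈ s, RU (f i)) :
    RU (∏ i ∈ s, f i) :=
  Finset.prod_induction f RU (fun _ _ => RU.mul) RU.one h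

theorem RU.list_prod : ∀ (l : List ℂ), (∀ x ∈ l, RU x) → RU l.prod
  | [], _ => RU.one
  | x :: l, h => by
    rw [List.prod_cons]
    exact (h x List.mem_cons_self).mul (RU.list_prod l fun y hy => h y (List.mem_cons_of_mem _ hy))

/-- There is a root of unity outside any finite set. -/
theorem exists_RU_notMem (S : Finset ℂ) : ∃ z, RU z ∧ z ∉ S := by
  let N := S.card + 1
  have hz := Complex.isPrimitiveRoot_exp N (Nat.succ_ne_zero _)
  have hc := hz.card_nthRootsFinset
  obtain ⟨z, hzN, hzS⟩ : ∃ z ∈ Polynomial.nthRootsFinset N (1 : ℂ), z ∉ S :=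
    Finset.exists_mem_notMem_of_card_lt_card (by omega)
  exact ⟨z, ⟨N, Nat.succ_pos _, (Polynomial.mem_nthRootsFinset (Nat.succ_pos _) _).1 hzN⟩, hzS⟩

variable {ι : Type*}

theorem exists_cycles [DecidableEq ι] (D : ι → ℂ) (hD : ∀ i, RU (D i)) (s : Finset ι)
    (h : ∏ i ∈ s, D i = 1) :
    ∃ (σ : Equiv.Perm ι) (E : ι → ℂ), (∀ i ∉ s, σ i = i) ∧ (∀ i ∈ s, σ i ∈ s) ∧
      (∀ i, RU (E i)) ∧ Set.InjOn E s ∧ ∀ i ∈ s, E (σ i) = D i * E i := by
  induction s using Finset.strongInduction with
  | H s ih =>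
    rcases s.eq_empty_or_nonempty with rfl | hs
    · exact ⟨1, fun _ => 1, fun _ _ => rfl, by simp, fun _ => RU.one, by simp, by simp⟩
    let Q := s.powerset.filter fun t => t.Nonempty ∧ ∏ i ∈ t, D i = 1
    obtain ⟨t, ht, hmin⟩ := Finset.exists_min_image Q Finset.card ⟨s, by simp [Q, hs, h]⟩
    simp only [Q, Finset.mem_filter, Finset.mem_powerset] at ht
    obtain ⟨hts, htne, htp⟩ := ht
    have hrest : ∏ i ∈ s \ t, D i = 1 := by
      have := Finset.prod_sdiff (f := D) hts
      rwa [h, htp, mul_one] at this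
    obtain ⟨σ₁, E₁, hout, hin, hRU, hinj, hrec⟩ :=
      ih (s \ t) (Finset.sdiff_ssubset hts htne) hrest
    let l := t.toList
    have hl : l.Nodup := t.nodup_toList
    let P : ι → ℂ := fun x => ((l.take (l.idxOf x)).map D).prod
    have hPRU : ∀ x, RU (P x) := fun x =>
      RU.list_prod _ fun y hy => by obtain ⟨z, -, rfl⟩ := List.mem_map.1 hy; exact hD z
    have hPne : ∀ {a b : ℕ}, a < b → b < l.length →
        ((l.take a).map D).prod ≠ ((l.take b).map D).prod := by
      intro a b hab hb e
      let u := (l.take b).drop a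
      have hu : u.Nodup := hl.sublist ((List.drop_sublist _ _).trans (List.take_sublist _ _))
      have hsplit : l.take b = l.take a ++ u := by
        conv_lhs => rw [← List.take_append_drop a (l.take b)]
        rw [List.take_take, min_eq_left hab.le]
      rw [hsplit, List.map_append, List.prod_append] at e
      have hne : ((l.take a).map D).prod ≠ 0 := (RU.list_prod _ fun y hy => by
        obtain ⟨z, -, rfl⟩ := List.mem_map.1 hy; exact hD z).ne_zero
      have hu1 : (u.map D).prod = 1 := mul_left_cancel₀ hne (by rw [mul_one]; exact e.symm)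
      have hlen : u.length = b - a := by simp [u, List.length_take, min_eq_left hb.le]
      have hcard := hmin u.toFinset (by
        simp only [Q, Finset.mem_filter, Finset.mem_powerset]
        refine ⟨fun x hx => hts (Finset.mem_toList.1 ?_), ?_, ?_⟩
        · exact List.mem_of_mem_take (List.mem_of_mem_drop (List.mem_toFinset.1 hx))
        · rw [List.toFinset_nonempty_iff, ← List.length_pos_iff_ne_nil, hlen]; omega
        · rw [List.prod_toFinset D hu, hu1])
      rw [List.toFinset_card_of_nodup hu, hlen] at hcard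
      have : l.length = t.card := t.length_toList
      omega
    have hPinj : Set.InjOn P t := by
      intro x hx y hy e
      have hx' : x ∈ l := Finset.mem_toList.2 hx
      have hy' : y ∈ l := Finset.mem_toList.2 hy
      rcases Nat.lt_trichotomy (l.idxOf x) (l.idxOf y) with h | h | h
      · exact absurd e (hPne h (List.idxOf_lt_length_of_mem hy'))
      · exact (List.idxOf_inj hx').1 h
      · exact absurd e.symm (hPne h (List.idxOf_lt_length_of_mem hx'))
    obtain ⟨c, hc, hcS⟩ := exists_RU_notMem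
      (((s \ t) ×ˢ t).image fun q => E₁ q.1 * (P q.2)⁻¹)
    have hcross : ∀ x ∈ t, ∀ y ∈ s \ t, c * P x ≠ E₁ y := by
      intro x hx y hy e
      refine hcS (Finset.mem_image.2 ⟨(y, x), Finset.mem_product.2 ⟨hy, hx⟩, ?_⟩)
      rw [← e, mul_assoc, mul_inv_cancel₀ (hPRU x).ne_zero, mul_one]
    have hτout : ∀ x ∉ t, l.formPerm x = x := fun x hx =>
      List.formPerm_apply_of_notMem fun h' => hx (Finset.mem_toList.1 h')
    have hτin : ∀ x ∈ t, l.formPerm x ∈ t := fun x hx =>
      Finset.mem_toList.1 (List.formPerm_apply_mem_of_mem (Finset.mem_toList.2 hx))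
    refine ⟨l.formPerm * σ₁, fun x => if x ∈ t then c * P x else E₁ x, ?_, ?_, ?_, ?_, ?_⟩
    · intro i hi
      rw [Equiv.Perm.mul_apply, hout i (fun h' => hi (Finset.mem_sdiff.1 h').1),
        hτout i fun h' => hi (hts h')]
    · intro i hi
      by_cases hit : i ∈ t
      · rw [Equiv.Perm.mul_apply, hout i (fun h' => (Finset.mem_sdiff.1 h').2 hit)]
        exact hts (hτin i hit)
      · obtain ⟨h1, h2⟩ := Finset.mem_sdiff.1 (hin i (Finset.mem_sdiff.2 ⟨hi, hit⟩))
        rwa [Equiv.Perm.mul_apply, hτout _ h2]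
    · intro i
      dsimp only
      split_ifs
      · exact hc.mul (hPRU i)
      · exact hRU i
    · intro x hx y hy e
      dsimp only at e
      by_cases hxt : x ∈ t <;> by_cases hyt : y ∈ t <;> simp only [hxt, hyt,
        if_true, if_false] at e
      · exact hPinj hxt hyt (mul_left_cancel₀ hc.ne_zero e)
      · exact absurd e (hcross x hxt y (Finset.mem_sdiff.2 ⟨hy, hyt⟩))
      · exact absurd e.symm (hcross y hyt x (Finset.mem_sdiff.2 ⟨hx, hxt⟩))
      · exact hinj (Finset.mem_sdiff.2 ⟨hx, hxt⟩) (Finset.mem_sdiff.2 ⟨hy, hyt⟩) e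
    · intro i hi
      dsimp only
      by_cases hit : i ∈ t
      · rw [Equiv.Perm.mul_apply, hout i (fun h' => (Finset.mem_sdiff.1 h').2 hit), if_pos hit,
          if_pos (hτin i hit), mul_left_comm]
        congr 1
        have hil : i ∈ l := Finset.mem_toList.2 hit
        obtain ⟨k, hk, rfl⟩ := List.getElem_of_mem hil
        rw [List.formPerm_apply_getElem l hl k hk]
        simp only [P, hl.idxOf_getElem]
        rcases Nat.lt_or_ge (k + 1) l.length with h' | h'
        · rw [Nat.mod_eq_of_lt h', ← List.take_append_getElem hk, List.map_append,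
            List.prod_append, mul_comm]
          simp
        · have hk1 : k + 1 = l.length := by omega
          rw [hk1, Nat.mod_self]
          have hfull : ((l.map D)).prod = 1 := by rw [Finset.prod_map_toList, htp]
          have e2 : l = l.take k ++ [l[k]] := by
            rw [List.take_append_getElem hk, hk1, List.take_length]
          simp only [List.take_zero, List.map_nil, List.prod_nil]
          conv_lhs at hfull => rw [e2]
          rw [List.map_append, List.prod_append] at hfull
          simpa [mul_comm] using hfull.symm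
      · have hmem := Finset.mem_sdiff.2 ⟨hi, hit⟩
        obtain ⟨h1, h2⟩ := Finset.mem_sdiff.1 (hin i hmem)
        rw [Equiv.Perm.mul_apply, hτout _ h2, if_neg h2, if_neg hit, hrec i hmem]

/-- Distinct roots of unity of product one with the given quotients along a permutation. -/
theorem exists_cycle_data {r : ℕ} (hr : 0 < r) (D : Fin r → ℂ) (hD : ∀ i, RU (D i))
    (h : ∏ i, D i = 1) :
    ∃ (σ : Equiv.Perm (Fin r)) (E : Fin r → ℂ), Function.Injective E ∧ (∀ i, RU (E i)) ∧
      ∏ i, E i = 1 ∧ ∀ i, E (σ i) = D i * E i := by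
  obtain ⟨σ, E, -, -, hRU, hinj, hrec⟩ := exists_cycles D hD Finset.univ h
  obtain ⟨w, hw⟩ := IsAlgClosed.exists_pow_nat_eq (∏ i, E i)⁻¹ hr
  have hwRU : RU w := by
    obtain ⟨N, hN, e⟩ := (RU.prod Finset.univ fun i _ => hRU i).inv
    exact ⟨r * N, Nat.mul_pos hr hN, by rw [pow_mul, hw, e]⟩
  refine ⟨σ, fun i => w * E i, fun i j e => ?_, fun i => hwRU.mul (hRU i), ?_, fun i => ?_⟩
  · exact hinj (Finset.mem_coe.2 (Finset.mem_univ i)) (Finset.mem_coe.2 (Finset.mem_univ j))
      (mul_left_cancel₀ hwRU.ne_zero e)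
  · rw [Finset.prod_mul_distrib, Finset.prod_const, Finset.card_univ, Fintype.card_fin, hw,
      inv_mul_cancel₀ (RU.prod Finset.univ fun i _ => hRU i).ne_zero]
  · change w * E (σ i) = D i * (w * E i)
    rw [hrec i (Finset.mem_univ i), mul_left_comm]

end Vale.Agent.P002
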