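import Vale.Agent.P002.Full.Tri

/-!
Every matrix is similar to a bidiagonal one whose superdiagonal consists of zeros and multiples of
any prescribed nonzero number by one.
-/

namespace Vale.Agent.P002

open Matrix Polynomial

variable {r : ℕ}

/-- An upper bidiagonal matrix. -/
def bidi (lam c : Fin r → ℂ) : Mat r ℂ :=
  Matrix.of fun a b => if a = b then lam b else if (a : ℕ) + 1 = b then c b else 0

theorem bidi_tri (lam c : Fin r → ℂ) : BlockTriangular (bidi lam c) id := by
  intro a b hab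
  have hab' : (b : ℕ) < a := hab
  simp only [bidi, Matrix.of_apply]
  rw [if_neg (fun e => by subst e; omega), if_neg (by omega)]

theorem bidi_apply_self (lam c : Fin r → ℂ) (i : Fin r) : bidi lam c i i = lam i := by
  simp [bidi]

theorem lam_isRoot {M S : Mat r ℂ} (hS : IsUnit S.det) {lam c : Fin r → ℂ}
    (h : M = S * bidi lam c * S⁻¹) (i : Fin r) : M.charpoly.IsRoot (lam i) := by
  rw [h, charpoly_conj hS, charpoly_of_isUpperTriangular _ (bidi_tri lam c), IsRoot.def, eval_prod]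
  exact Finset.prod_eq_zero (Finset.mem_univ i) (by simp [bidi_apply_self])

/-- A basis in which a matrix is lower bidiagonal with zeros and ones below the diagonal. -/
theorem exists_chain_basis (M : Mat r ℂ) :
    ∃ (v : Fin r → Fin r → ℂ) (lam d : Fin r → ℂ), LinearIndependent ℂ v ∧
      (∀ a, d a = 0 ∨ d a = 1) ∧
      ∀ a, M *ᵥ v a = lam a • v a +
        (if h : (a : ℕ) + 1 < r then d a • v ⟨(a : ℕ) + 1, h⟩ else 0) := by
  classical
  let f : Module.End ℂ (Fin r → ℂ) := Matrix.toLin' M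
  have htor : Module.IsTorsion ℂ[X] (Module.AEval' f) :=
    Module.AEval.isTorsion_of_finiteDimensional ℂ (Fin r → ℂ) f
  obtain ⟨ι, hι, p, hp, e, ⟨φ⟩⟩ :=
    Module.equiv_directSum_of_isTorsion (R := ℂ[X]) (M := Module.AEval' f) htor
  let σ : Fin (Fintype.card ι) ≃ ι := (Fintype.equivFin ι).symm
  have hroot : ∀ i, ∃ μ : ℂ, Ideal.span {p i ^ e i} = Ideal.span {(X - C μ) ^ e i} := by
    intro i
    obtain ⟨μ, hμ⟩ := IsAlgClosed.exists_root (p i) (degree_pos_of_irreducible (hp i)).ne'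
    refine ⟨μ, ?_⟩
    rw [← Ideal.span_singleton_pow, ← Ideal.span_singleton_pow]
    congr 1
    exact Ideal.span_singleton_eq_span_singleton.2
      ((irreducible_X_sub_C μ).associated_of_dvd (hp i) (dvd_iff_isRoot.2 hμ)).symm
  choose μ hμ using hroot
  let Q : ι → Type := fun i => ℂ[X] ⧸ Submodule.span ℂ[X] {p i ^ e i}
  let gen : ι → Module.AEval' f := fun i =>
    φ.symm (DirectSum.lof ℂ[X] ι Q i (Submodule.Quotient.mk 1))
  have hsmul : ∀ (i : ι) (q : ℂ[X]),
      φ.symm (DirectSum.lof ℂ[X] ι Q i (Submodule.Quotient.mk q)) = q • gen i := by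
    intro i q
    rw [show (Submodule.Quotient.mk q : Q i) = q • Submodule.Quotient.mk 1 by
      rw [← Submodule.Quotient.mk_smul, smul_eq_mul, mul_one], map_smul, map_smul]
  have hzero : ∀ i, (X - C (μ i)) ^ e i • gen i = 0 := by
    intro i
    have : (Submodule.Quotient.mk ((X - C (μ i)) ^ e i) : Q i) = 0 := by
      rw [Submodule.Quotient.mk_eq_zero]
      change _ ∈ Ideal.span {p i ^ e i}
      rw [hμ i]
      exact Ideal.mem_span_singleton_self _
    rw [← hsmul, this, map_zero, map_zero]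
  let n : Fin (Fintype.card ι) → ℕ := fun j => e (σ j)
  let w : ((j : Fin (Fintype.card ι)) × Fin (n j)) → Fin r → ℂ := fun q =>
    (Module.AEval'.of f).symm ((X - C (μ (σ q.1))) ^ (q.2 : ℕ) • gen (σ q.1))
  have hspan : ⊤ ≤ Submodule.span ℂ (Set.range w) := by
    let W : Submodule ℂ (Module.AEval' f) :=
      (Submodule.span ℂ (Set.range w)).map (Module.AEval'.of f).toLinearMap
    suffices hW : ∀ x, x ∈ W by
      intro x _
      obtain ⟨y, hy, e'⟩ := hW (Module.AEval'.of f x)
      rwa [← (Module.AEval'.of f).injective e']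
    have hterm : ∀ (i : ι) (q : ℂ[X]), q • gen i ∈ W := by
      intro i q
      obtain ⟨j, rfl⟩ := σ.surjective i
      rw [← sum_taylor_eq q (μ (σ j)), Polynomial.sum_def, Finset.sum_smul]
      refine W.sum_mem fun k _ => ?_
      rw [mul_smul, Module.AEval.C_smul]
      refine W.smul_mem _ ?_
      rcases Nat.lt_or_ge k (n j) with hk | hk
      · exact ⟨w ⟨j, ⟨k, hk⟩⟩, Submodule.subset_span ⟨_, rfl⟩, LinearEquiv.apply_symm_apply _ _⟩
      · obtain ⟨l, rfl⟩ := Nat.exists_eq_add_of_le hk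
        rw [pow_add, mul_comm, mul_smul, hzero, smul_zero]
        exact W.zero_mem
    intro x
    rw [← φ.symm_apply_apply x]
    generalize φ x = y
    induction y using DirectSum.induction_on with
    | zero => rw [map_zero]; exact W.zero_mem
    | of i z =>
      obtain ⟨q, rfl⟩ := Submodule.Quotient.mk_surjective _ z
      change φ.symm (DirectSum.lof ℂ[X] ι Q i (Submodule.Quotient.mk q)) ∈ W
      rw [hsmul]
      exact hterm i q
    | add a b ha hb => rw [map_add]; exact W.add_mem ha hb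
  have hdim : ∑ j, n j = r := by
    have h1 : ∑ j, n j = ∑ i, e i := σ.sum_comp e
    have hnd : ∀ i, (p i ^ e i).natDegree = e i := by
      intro i
      rw [natDegree_pow, natDegree_eq_of_degree_eq_some (n := 1)
        (IsAlgClosed.degree_eq_one_of_irreducible ℂ (hp i)), mul_one]
    have hfree : ∀ i, Module.finrank ℂ (Q i) = e i := fun i =>
      finrank_quotient_span_eq_natDegree.trans (hnd i)
    have : ∀ i, Module.Finite ℂ (Q i) := fun i => by
      have h0 : p i ^ e i ≠ 0 := pow_ne_zero _ (hp i).ne_zero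
      exact (AdjoinRoot.powerBasis h0).finite
    rw [h1, ← Finset.sum_congr rfl fun i _ => hfree i, ← Module.finrank_directSum,
      ← (φ.restrictScalars ℂ).finrank_eq, ← (Module.AEval'.of f).finrank_eq]
    simp
  let pos : ((j : Fin (Fintype.card ι)) × Fin (n j)) ≃ Fin r :=
    finSigmaFinEquiv.trans (finCongr hdim)
  have hli : LinearIndependent ℂ fun a => w (pos.symm a) := by
    refine linearIndependent_of_top_le_span_of_card_eq_finrank ?_ (by simp)
    rwa [show (fun a => w (pos.symm a)) = w ∘ pos.symm from rfl,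
      pos.symm.surjective.range_comp]
  refine ⟨fun a => w (pos.symm a), fun a => μ (σ (pos.symm a).1),
    fun a => if ((pos.symm a).2 : ℕ) + 1 < n (pos.symm a).1 then 1 else 0, hli,
    fun a => by dsimp only; split_ifs <;> simp, fun a => ?_⟩
  obtain ⟨⟨j, k⟩, rfl⟩ := pos.surjective a
  simp only [Equiv.symm_apply_apply]
  let u : Module.AEval' f := (X - C (μ (σ j))) ^ (k : ℕ) • gen (σ j)
  have hM : M *ᵥ w ⟨j, k⟩ = μ (σ j) • w ⟨j, k⟩ +
      (Module.AEval'.of f).symm ((X - C (μ (σ j))) ^ ((k : ℕ) + 1) • gen (σ j)) := by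
    rw [pow_succ', mul_smul]
    change M *ᵥ w ⟨j, k⟩ = μ (σ j) • w ⟨j, k⟩ + (Module.AEval'.of f).symm ((X - C (μ (σ j))) • u)
    have h2 : (X - C (μ (σ j))) • u = (X : ℂ[X]) • u - μ (σ j) • u := by
      rw [← Module.AEval.C_smul, eq_sub_iff_add_eq, ← add_smul, sub_add_cancel]
    rw [h2, map_sub, Module.AEval'.of_symm_X_smul,
      (Module.AEval'.of f).symm.map_smul (μ (σ j)) u, ← Matrix.toLin'_apply]
    exact (add_sub_cancel _ _).symm
  rw [hM]
  congr 1
  by_cases hk : (k : ℕ) + 1 < n j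
  · have hval : (pos ⟨j, ⟨(k : ℕ) + 1, hk⟩⟩ : ℕ) = (pos ⟨j, k⟩ : ℕ) + 1 := by
      simp [pos, finSigmaFinEquiv_apply, add_assoc]
    have hlt : (pos ⟨j, k⟩ : ℕ) + 1 < r := hval ▸ (pos ⟨j, ⟨(k : ℕ) + 1, hk⟩⟩).2
    rw [dif_pos hlt,
      show (⟨(pos ⟨j, k⟩ : ℕ) + 1, hlt⟩ : Fin r) = pos ⟨j, ⟨(k : ℕ) + 1, hk⟩⟩ from
        Fin.ext hval.symm, Equiv.symm_apply_apply, Equiv.symm_apply_apply]
    rw [if_pos hk, one_smul]
  · have : (k : ℕ) + 1 = n j := by omega
    rw [this]
    change (Module.AEval'.of f).symm ((X - C (μ (σ j))) ^ e (σ j) • gen (σ j)) = _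
    rw [hzero, map_zero]
    by_cases h' : (pos ⟨j, k⟩ : ℕ) + 1 < r
    · rw [dif_pos h', Equiv.symm_apply_apply]
      simp [this]
    · rw [dif_neg h']

theorem diagonal_conj_bidi (lam c : Fin r → ℂ) {N : ℂ} (hN : N ≠ 0) :
    diagonal (fun i : Fin r => (N ^ (i : ℕ))⁻¹) * bidi lam c *
      (diagonal fun i : Fin r => (N ^ (i : ℕ))⁻¹)⁻¹ = bidi lam fun i => N * c i := by
  rw [show (diagonal fun i : Fin r => (N ^ (i : ℕ))⁻¹)⁻¹ = diagonal fun i : Fin r => N ^ (i : ℕ)
    from Matrix.inv_eq_right_inv (by rw [diagonal_mul_diagonal]; simp [hN])]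
  ext a b
  rw [mul_diagonal, diagonal_mul]
  simp only [bidi, Matrix.of_apply]
  by_cases h1 : a = b
  · subst h1
    rw [if_pos rfl, if_pos rfl]
    field_simp
  rw [if_neg h1, if_neg h1]
  by_cases h2 : (a : ℕ) + 1 = b
  · rw [if_pos h2, if_pos h2, ← h2, pow_succ]
    field_simp
  · simp [h2]

/-- Similar to a bidiagonal matrix with the superdiagonal divisible by any nonzero number. -/
theorem exists_bidi (M : Mat r ℂ) :
    ∃ lam c : Fin r → ℂ, (∀ i, M.charpoly.IsRoot (lam i)) ∧ (∀ i, c i = 0 ∨ c i = 1) ∧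
      ∀ N : ℂ, N ≠ 0 → ∃ S : Mat r ℂ, IsUnit S.det ∧
        M = S * bidi lam (fun i => N * c i) * S⁻¹ := by
  obtain ⟨v, lam, d, hv, hd, heq⟩ := exists_chain_basis M
  let lam' : Fin r → ℂ := fun i => lam i.rev
  let c : Fin r → ℂ := fun i => d i.rev
  let S : Mat r ℂ := Matrix.of fun k i => v i.rev k
  have hS : IsUnit S.det := by
    rw [← Matrix.isUnit_iff_isUnit_det, ← Matrix.linearIndependent_cols_iff_isUnit]
    exact hv.comp _ Fin.rev_injective
  have hMS : M * S = S * bidi lam' c := by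
    ext k b
    have h1 : (M * S) k b = (M *ᵥ v b.rev) k := rfl
    rw [h1, heq, Matrix.mul_apply, Pi.add_apply, Pi.smul_apply, smul_eq_mul]
    have hb : ∀ x : Fin r, (x : ℕ) + 1 = b → S k x * bidi lam' c x b = c b * v x.rev k := by
      intro x hx
      simp only [bidi, Matrix.of_apply, if_neg (show x ≠ b from fun e => by subst e; omega),
        if_pos hx, S, mul_comm]
    by_cases h0 : (b : ℕ) = 0
    · rw [dif_neg (by simp [Fin.val_rev]; omega), Pi.zero_apply, add_zero,
        Finset.sum_eq_single b]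
      · simp [bidi, S, lam', mul_comm]
      · intro x _ hx
        simp [bidi, hx, h0]
      · simp
    · have hlt : (b.rev : ℕ) + 1 < r := by simp [Fin.val_rev]; omega
      let x : Fin r := ⟨(b : ℕ) - 1, by omega⟩
      have hx : (x : ℕ) + 1 = b := Nat.sub_add_cancel (Nat.pos_of_ne_zero h0)
      rw [dif_pos hlt, Finset.sum_eq_add b x (fun e => by rw [← e] at hx; omega)]
      · rw [hb x hx, bidi_apply_self, Pi.smul_apply, smul_eq_mul,
          show (⟨(b.rev : ℕ) + 1, hlt⟩ : Fin r) = x.rev by ext; simp [Fin.val_rev, x]; omega]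
        simp [S, lam', c, mul_comm]
      · intro y _ hy
        simp only [bidi, Matrix.of_apply, if_neg hy.1]
        rw [if_neg (fun e => hy.2 (Fin.ext (by omega))), mul_zero]
      · simp
      · simp
  have hM : M = S * bidi lam' c * S⁻¹ := by
    rw [← hMS, Matrix.mul_nonsing_inv_cancel_right _ _ hS]
  refine ⟨lam', c, fun i => lam_isRoot hS hM i, fun i => hd _, fun N hN => ?_⟩
  let G : Mat r ℂ := diagonal fun i : Fin r => (N ^ (i : ℕ))⁻¹
  have hG : IsUnit G.det := by
    rw [isUnit_iff_ne_zero, det_diagonal]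
    exact Finset.prod_ne_zero_iff.2 fun i _ => inv_ne_zero (pow_ne_zero _ hN)
  refine ⟨S * G⁻¹, by rw [det_mul]; exact hS.mul (Matrix.isUnit_nonsing_inv_det G hG), ?_⟩
  rw [← diagonal_conj_bidi lam' c hN, Matrix.mul_inv_rev, Matrix.nonsing_inv_nonsing_inv G hG]
  simp only [mul_assoc]
  rw [Matrix.nonsing_inv_mul_cancel_left _ _ hG, Matrix.nonsing_inv_mul_cancel_left _ _ hG,
    ← mul_assoc S, ← hM]

end Vale.Agent.P002
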