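import Vale.Agent.P002.Punct.Basic
import Vale.Agent.P002.Punct.BaseCycle
import Vale.Agent.P002.Punct.BaseForm
import Vale.Agent.P002.Cyc

/-!
An integral representation with prescribed quasi-unipotent classes which generates the matrix
algebra, for at least two handles.
-/

namespace Vale.Agent.P002

open Matrix

variable {r : ℕ}

/-- Integral upper triangular, with entries above the diagonal divisible by `N`. -/
def NTri (N : ℂ) (A : Mat r ℂ) : Prop :=
  BlockTriangular A id ∧ (∀ i, IsIntegral ℤ (A i i)) ∧ ∀ i k, i < k → IsIntegral ℤ (A i k / N)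

theorem NTri.entry {N : ℂ} (hN : N ≠ 0) (hNi : IsIntegral ℤ N) {A : Mat r ℂ} (hA : NTri N A)
    (i k : Fin r) : IsIntegral ℤ (A i k) := by
  rcases lt_trichotomy i k with h | rfl | h
  · rw [← div_mul_cancel₀ (A i k) hN]
    exact (hA.2.2 i k h).mul hNi
  · exact hA.2.1 i
  · rw [hA.1 h]
    exact isIntegral_zero

theorem NTri.mul {N : ℂ} (hN : N ≠ 0) (hNi : IsIntegral ℤ N) {A B : Mat r ℂ} (hA : NTri N A)
    (hB : NTri N B) : NTri N (A * B) := by
  refine ⟨hA.1.mul hB.1, fun i => ?_, fun i k hik => ?_⟩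
  · rw [tri_mul_apply Function.injective_id hA.1 hB.1]
    exact (hA.2.1 i).mul (hB.2.1 i)
  · rw [Matrix.mul_apply, Finset.sum_div]
    refine IsIntegral.sum _ fun l _ => ?_
    rcases lt_trichotomy i l with h | rfl | h
    · rw [mul_div_right_comm]
      exact (hA.2.2 i l h).mul (hB.entry hN hNi l k)
    · rw [mul_div_assoc]
      exact (hA.2.1 i).mul (hB.2.2 i k hik)
    · rw [hA.1 h, zero_mul, zero_div]
      exact isIntegral_zero

theorem NTri.one (N : ℂ) : NTri N (1 : Mat r ℂ) :=
  ⟨blockTriangular_one, fun i => by rw [one_apply_eq]; exact isIntegral_one,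
    fun i k h => by rw [one_apply_ne h.ne, zero_div]; exact isIntegral_zero⟩

theorem NTri.list_prod {N : ℂ} (hN : N ≠ 0) (hNi : IsIntegral ℤ N) :
    ∀ {s : ℕ} (A : Fin s → Mat r ℂ), (∀ j, NTri N (A j)) →
      NTri N (List.ofFn A).prod ∧ ∀ i, (List.ofFn A).prod i i = ∏ j, A j i i
  | 0, A, _ => ⟨by simpa using NTri.one N, fun i => by simp⟩
  | s + 1, A, hA => by
    obtain ⟨h1, h2⟩ := NTri.list_prod hN hNi (fun j => A j.succ) fun j => hA j.succ
    rw [List.ofFn_succ, List.prod_cons]
    refine ⟨(hA 0).mul hN hNi h1, fun i => ?_⟩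
    rw [tri_mul_apply Function.injective_id (hA 0).1 h1.1, h2, Fin.prod_univ_succ]

/-- A triangular matrix is diagonalised by an integral unipotent one if the entries above the
diagonal are divisible by all differences of diagonal entries. -/
theorem exists_unipotent_diag : ∀ {n : ℕ} (U : Mat n ℂ) (u : Fin n → ℂ) (N : ℂ),
    BlockTriangular U id → (∀ i, U i i = u i) →
    (∀ i k, i < k → IsIntegral ℤ (U i k / N)) →
    (∀ i k, i ≠ k → IsIntegral ℤ (N / (u k - u i))) → (∀ i k, i ≠ k → u k - u i ≠ 0) → N ≠ 0 →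
    ∃ V : Mat n ℂ, UpU V ∧ (∀ i k, IsIntegral ℤ (V i k)) ∧ U * V = V * diagonal u := by
  intro n
  induction n with
  | zero => exact fun U u N _ _ _ _ _ _ =>
      ⟨1, ⟨blockTriangular_one, finZeroElim⟩, finZeroElim, Subsingleton.elim _ _⟩
  | succ n ih =>
    intro U u N hU hd hdiv hsep hdist hN
    let U' : Mat n ℂ := U.submatrix Fin.succ Fin.succ
    let row : Fin n → ℂ := fun k => U 0 k.succ
    have hUe : U = blk (u 0) row 0 U' := by
      conv_lhs => rw [eq_blk U]
      rw [hd 0]
      congr 1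
      funext i
      exact hU (Fin.succ_pos i)
    obtain ⟨V', hV', hVi, hUV⟩ := ih U' (fun i => u i.succ) N
      (fun i j h => hU (Fin.succ_lt_succ_iff.2 h)) (fun i => hd i.succ)
      (fun i k h => hdiv _ _ (Fin.succ_lt_succ_iff.2 h))
      (fun i k h => hsep _ _ fun e => h (Fin.succ_inj.1 e))
      (fun i k h => hdist _ _ fun e => h (Fin.succ_inj.1 e)) hN
    have hne : ∀ k : Fin n, u k.succ - u 0 ≠ 0 := by
      intro k e
      exact hdist _ _ (Fin.succ_ne_zero k).symm e
    let x : Fin n → ℂ := fun k => (row ᵥ* V') k / (u k.succ - u 0)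
    refine ⟨blk 1 x 0 V', ⟨blk_upper hV'.1, ?_⟩, ?_, ?_⟩
    · intro i
      refine Fin.cases ?_ (fun i => ?_) i
      · simp
      · simpa using hV'.2 i
    · intro i k
      refine Fin.cases ?_ (fun i => ?_) i <;> refine Fin.cases ?_ (fun k => ?_) k <;>
        simp only [blk_zero_zero, blk_zero_succ, blk_succ_zero, blk_succ_succ, Pi.zero_apply]
      · exact isIntegral_one
      · simp only [x, Matrix.vecMul, dotProduct, Finset.sum_div]
        refine IsIntegral.sum _ fun l _ => ?_
        have e : row l * V' l k / (u k.succ - u 0) =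
            row l / N * (N / (u k.succ - u 0)) * V' l k := by
          field_simp
        rw [e]
        exact ((hdiv _ _ (Fin.succ_pos l)).mul (hsep _ _ (Fin.succ_ne_zero k).symm)).mul (hVi l k)
      · exact isIntegral_zero
      · exact hVi i k
    · rw [hUe, show diagonal u = blk (u 0) 0 0 (diagonal fun i => u i.succ) by
        ext i j
        refine Fin.cases ?_ (fun i => ?_) i <;> refine Fin.cases ?_ (fun j => ?_) j <;>
          simp [diagonal_apply, (Fin.succ_ne_zero _).symm, Fin.succ_inj], blk_mul_blk, blk_mul_blk]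
      congr 1
      · simp
      · funext k
        simp only [x, Pi.add_apply, Pi.smul_apply, Pi.zero_apply, smul_eq_mul, vecMul_diagonal]
        field_simp [hne k]
        ring
      · simp
      · rw [hUV]
        ext i j
        simp [vecMulVec]

theorem adjoin_diag_full {m : ℕ} {ι : Type*} (h : ι → Mat (m + 2) ℂ) (e : Fin (m + 2) → ℂ)
    (he : Function.Injective e) (i₀ i₁ : ι) (h₀ : h i₀ = diagonal e)
    (h₁ : ∀ a b, h i₁ a b ≠ 0) : IrredF h := by
  unfold IrredF
  set X := Algebra.adjoin ℂ (Set.range h)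
  have hD : diagonal e ∈ X := Algebra.subset_adjoin ⟨i₀, h₀⟩
  have hA : h i₁ ∈ X := Algebra.subset_adjoin ⟨i₁, rfl⟩
  have hE : ∀ b, single b b (1 : ℂ) ∈ X := mem_of_powers (Subalgebra.toSubmodule X) e he
    (fun b => single b b (1 : ℂ)) fun k => by
      have : ∑ b, e b ^ k • single b b (1 : ℂ) = diagonal e ^ k := by
        simp only [diagonal_pow, smul_single, smul_eq_mul, mul_one]
        exact sum_single_eq_diagonal _
      rw [this]
      exact pow_mem hD k
  refine Algebra.eq_top_iff.2 fun M => ?_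
  rw [matrix_eq_sum_single M]
  refine sum_mem fun a _ => sum_mem fun b _ => ?_
  have e' : single a b (M a b) = (M a b * (h i₁ a b)⁻¹) •
      (single a a (1 : ℂ) * h i₁ * single b b (1 : ℂ)) := by
    rw [Matrix.single_mul_mul_single, smul_single, smul_eq_mul, one_mul, mul_one, mul_assoc,
      inv_mul_cancel₀ (h₁ a b), mul_one]
  rw [e']
  exact Subalgebra.smul_mem _ (mul_mem (mul_mem (hE a) hA) (hE b)) _

theorem exists_full_matrix (m : ℕ) : ∃ A : Mat (m + 2) ℂ, A.det = 1 ∧
    (∀ a b, IsIntegral ℤ (A a b)) ∧ ∀ a b, A a b ≠ 0 := by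
  let L : Mat (m + 2) ℂ := Matrix.of fun a b => if b ≤ a then 1 else 0
  have hL : BlockTriangular Lᵀ id := by
    intro a b h
    simp only [L, Matrix.transpose_apply, Matrix.of_apply]
    exact if_neg (not_le.2 h)
  have hdet : L.det = 1 := by
    rw [← det_transpose, det_of_isUpperTriangular hL]
    simp [L]
  have hLi : ∀ a b, IsIntegral ℤ (L a b) := fun a b => by
    simp only [L, Matrix.of_apply]
    split_ifs
    · exact isIntegral_one
    · exact isIntegral_zero
  refine ⟨L * Lᵀ, by rw [det_mul, det_transpose, hdet, one_mul], fun a b => ?_, fun a b => ?_⟩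
  · rw [Matrix.mul_apply]
    exact IsIntegral.sum _ fun l _ => (hLi a l).mul (hLi b l)
  · simp only [Matrix.mul_apply, L, Matrix.of_apply, Matrix.transpose_apply, mul_ite, mul_one,
      mul_zero, ← ite_and, Finset.sum_boole]
    exact Nat.cast_ne_zero.2 (Finset.card_ne_zero.2 ⟨0, by simp⟩)

/-- Representatives of the classes and one handle with a diagonal matrix of distinct eigenvalues
undoing their product, all integral. -/
theorem exists_class_core {s m : ℕ} (K : Fin s → Mat (m + 2) ℂ) (hK : ∀ j, (K j).det = 1)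
    (hq : ∀ j, QUni (K j)) :
    ∃ (T : Fin s → Mat (m + 2) ℂ) (e : Fin (m + 2) → ℂ) (b : Mat (m + 2) ℂ),
      (∀ j, ∃ S : Mat (m + 2) ℂ, IsUnit S.det ∧ K j = S * T j * S⁻¹) ∧
      Function.Injective e ∧ (diagonal e).det = 1 ∧ b.det = 1 ∧
      diagonal e * b * (diagonal e)⁻¹ * b⁻¹ * (List.ofFn T).prod = 1 ∧
      (∀ i, IsIntegral ℤ (e i)) ∧ (∀ i k, IsIntegral ℤ (b i k)) ∧
      ∀ j i k, IsIntegral ℤ (T j i k) := by
  choose lam c hroot hc hsim using fun j => exists_bidi (K j)
  have hlam : ∀ j i, RU (lam j i) := fun j i => hq j _ (hroot j i)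
  let D : Fin (m + 2) → ℂ := fun i => ∏ j, lam j i
  have hD : ∏ i, D i = 1 := by
    rw [Finset.prod_comm]
    refine Finset.prod_eq_one fun j _ => ?_
    obtain ⟨S, hS, e⟩ := hsim j 1 one_ne_zero
    have := hK j
    rw [e, det_conj_of hS, det_of_isUpperTriangular (bidi_tri _ _)] at this
    simpa [bidi_apply_self] using this
  obtain ⟨σ, E, hEinj, hE, hEprod, hrec⟩ :=
    exists_cycle_data (Nat.succ_pos _) D (fun i => RU.prod _ fun j _ => hlam j i) hD
  let u : Fin (m + 2) → ℂ := fun i => E (σ i)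
  let N : ℂ := ∏ q ∈ Finset.univ.filter (fun q : Fin (m + 2) × Fin (m + 2) => q.1 ≠ q.2),
    (u q.2 - u q.1)
  have hdiff : ∀ i k, i ≠ k → u k - u i ≠ 0 := fun i k h e =>
    h (σ.injective (hEinj (sub_eq_zero.1 e))).symm
  have hui : ∀ i k, IsIntegral ℤ (u k - u i) := fun i k =>
    (hE _).isIntegral.sub (hE _).isIntegral
  have hN : N ≠ 0 := Finset.prod_ne_zero_iff.2 fun q hq => hdiff _ _ (Finset.mem_filter.1 hq).2
  have hNi : IsIntegral ℤ N := IsIntegral.prod _ fun q _ => hui _ _
  have hsep : ∀ i k, i ≠ k → IsIntegral ℤ (N / (u k - u i)) := fun i k h => by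
    have hmem : (i, k) ∈ Finset.univ.filter
        (fun q : Fin (m + 2) × Fin (m + 2) => q.1 ≠ q.2) := by simp [h]
    rw [show N = _ from (Finset.mul_prod_erase _ _ hmem).symm, mul_div_cancel_left₀ _ (hdiff i k h)]
    exact IsIntegral.prod _ fun q _ => hui _ _
  choose S hS hKS using fun j => hsim j N hN
  let T : Fin s → Mat (m + 2) ℂ := fun j => bidi (lam j) fun i => N * c j i
  have hci : ∀ j i, IsIntegral ℤ (c j i) := fun j i => by
    rcases hc j i with e | e <;> rw [e]
    · exact isIntegral_zero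
    · exact isIntegral_one
  have hT : ∀ j, NTri N (T j) := fun j => by
    refine ⟨bidi_tri _ _, fun i => by simp only [T, bidi_apply_self]; exact (hlam j i).isIntegral,
      fun i k h => ?_⟩
    simp only [T, bidi, Matrix.of_apply, if_neg h.ne]
    split_ifs
    · rw [mul_div_cancel_left₀ _ hN]; exact hci j k
    · rw [zero_div]; exact isIntegral_zero
  obtain ⟨hP, hPd⟩ := NTri.list_prod hN hNi T hT
  let U : Mat (m + 2) ℂ := (List.ofFn T).prod * diagonal E
  have hUd : ∀ i, U i i = u i := fun i => by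
    simp only [U, u, mul_diagonal, hPd, hrec, D, T, bidi_apply_self]
  obtain ⟨V, hV, hVi, hUV⟩ := exists_unipotent_diag U u N (hP.1.mul (blockTriangular_diagonal E))
    hUd (fun i k h => by
      simp only [U, mul_diagonal, mul_div_right_comm]
      exact (hP.2.2 i k h).mul (hE k).isIntegral) hsep hdiff hN
  let sv : Fin (m + 2) → ℂ := Function.update 1 0 ((Equiv.Perm.sign σ : ℤ) : ℂ)
  let P : Mat (m + 2) ℂ := diagonal sv * σ.permMatrix ℂ
  have hPa : ∀ i k, P i k = if σ i = k then sv i else 0 := fun i k => by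
    simp [P, diagonal_mul, PEquiv.toMatrix_apply]
  have hPE : P * diagonal E = diagonal u * P := by
    ext i k
    rw [mul_diagonal, diagonal_mul, hPa]
    simp only [u]
    by_cases hik : σ i = k
    · subst hik; ring
    · simp [hik]
  have hPdet : P.det = 1 := by
    rw [det_mul, det_diagonal, det_permutation, Fin.prod_univ_succ]
    simp [sv, Fin.succ_ne_zero, ← Int.cast_mul, ← Units.val_mul]
  have hsvi : ∀ i, IsIntegral ℤ (sv i) := fun i => by
    by_cases hi : i = 0
    · subst hi
      simp only [sv, Function.update_self]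
      exact isIntegral_algebraMap (R := ℤ) (x := (Equiv.Perm.sign σ : ℤ))
    · simp only [sv, Function.update_of_ne hi, Pi.one_apply]
      exact isIntegral_one
  have hPi : ∀ i k, IsIntegral ℤ (P i k) := fun i k => by
    rw [hPa]
    split_ifs
    · exact hsvi i
    · exact isIntegral_zero
  have hbi : ∀ i k, IsIntegral ℤ ((V * P) i k) := fun i k => by
    rw [Matrix.mul_apply]
    exact IsIntegral.sum _ fun l _ => (hVi i l).mul (hPi l k)
  have hbdet : (V * P).det = 1 := by rw [det_mul, hV.det, hPdet, one_mul]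
  have hEdet : (diagonal E).det = 1 := by rw [det_diagonal, hEprod]
  have hEu : IsUnit (diagonal E).det := by rw [hEdet]; exact isUnit_one
  have hbu : IsUnit (V * P).det := by rw [hbdet]; exact isUnit_one
  have key : (List.ofFn T).prod * (diagonal E * (V * P)) = (V * P) * diagonal E := by
    rw [← mul_assoc (List.ofFn T).prod, ← mul_assoc _ V, mul_assoc V P, hPE, ← mul_assoc V, ← hUV]
  refine ⟨T, E, V * P, fun j => ⟨S j, hS j, hKS j⟩, hEinj, hEdet, hbdet, ?_,
    fun i => (hE i).isIntegral, hbi, fun j => (hT j).entry hN hNi⟩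
  have e1 : (List.ofFn T).prod * (diagonal E * (V * P) * (diagonal E)⁻¹ * (V * P)⁻¹) = 1 := by
    rw [← mul_assoc, ← mul_assoc, key, Matrix.mul_nonsing_inv_cancel_right _ _ hEu,
      Matrix.mul_nonsing_inv _ hbu]
  exact mul_eq_one_comm.1 e1

theorem exists_integral_base (g : ℕ) {s m : ℕ} (K : Fin s → Mat (m + 2) ℂ)
    (hK : ∀ j, (K j).det = 1) (hq : ∀ j, QUni (K j)) :
    ∃ L : IntermediateField ℚ ℂ, FiniteDimensional ℚ L ∧
      ∃ H : PTup (g + 2) s (m + 2), RepK K H ∧ IntP L H ∧ IrredF (famP H) := by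
  obtain ⟨T, e, b, hsim, he, hed, hbd, hrel, hei, hbi, hTi⟩ := exists_class_core K hK hq
  obtain ⟨A, hAd, hAi, hA0⟩ := exists_full_matrix m
  let one : Fin g → Mat (m + 2) ℂ := fun _ => 1
  let H : PTup (g + 2) s (m + 2) :=
    ((Fin.cons (diagonal e) (Fin.cons A one), Fin.cons b (fun _ => 1)), T)
  have hint : ∀ v, IsIntegral ℤ (coordsP H v) := by
    have h1 : ∀ i k, IsIntegral ℤ ((1 : Mat (m + 2) ℂ) i k) := fun i k => by
      rw [Matrix.one_apply]; split_ifs
      · exact isIntegral_one
      · exact isIntegral_zero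
    have hdi : ∀ i k, IsIntegral ℤ (diagonal e i k) := fun i k => by
      rw [diagonal_apply]; split_ifs
      · exact hei i
      · exact isIntegral_zero
    rintro ((⟨i, a, c⟩ | ⟨i, a, c⟩) | ⟨j, a, c⟩)
    · change IsIntegral ℤ (H.1.1 i a c)
      refine Fin.cases (by simpa [H] using hdi a c) (fun i => ?_) i
      refine Fin.cases (by simpa [H] using hAi a c) (fun i => ?_) i
      simpa [H, one] using h1 a c
    · change IsIntegral ℤ (H.1.2 i a c)
      refine Fin.cases (by simpa [H] using hbi a c) (fun i => ?_) i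
      simpa [H] using h1 a c
    · exact hTi j a c
  refine ⟨IntermediateField.adjoin ℚ (Set.range (coordsP H)), ?_, H, ⟨⟨?_, ?_⟩, ?_, ?_⟩, ?_, ?_⟩
  · have := (Set.finite_range (coordsP H)).to_subtype
    exact IntermediateField.finiteDimensional_adjoin fun z hz => by
      obtain ⟨v, rfl⟩ := hz
      exact (hint v).tower_top
  · intro i
    refine Fin.cases (by simpa [H] using hed) (fun i => ?_) i
    refine Fin.cases (by simpa [H] using hAd) (fun i => ?_) i
    simp [H, one]
  · intro i
    refine Fin.cases (by simpa [H] using hbd) (fun i => ?_) i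
    simp [H]
  · intro j
    obtain ⟨S, hS, h⟩ := hsim j
    refine ⟨S⁻¹, Matrix.isUnit_nonsing_inv_det S hS, ?_⟩
    rw [h, Matrix.nonsing_inv_nonsing_inv S hS]
    simp only [mul_assoc, Matrix.nonsing_inv_mul S hS, mul_one]
    rw [Matrix.nonsing_inv_mul_cancel_left _ _ hS]
  · have htail : prodC (tailT (tailT H.1)) = 1 := by
      simp [prodC, rel, tailT, H, one, Fin.tail]
    rw [prodP, prodC_succ, prodC_succ, htail]
    change diagonal e * b * (diagonal e)⁻¹ * b⁻¹ * (A * 1 * A⁻¹ * (1 : Mat (m + 2) ℂ)⁻¹ * 1) *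
      (List.ofFn T).prod = 1
    rw [inv_one, mul_one, mul_one, mul_one, Matrix.mul_nonsing_inv A (by simp [hAd]), mul_one]
    exact hrel
  · exact fun v => ⟨IntermediateField.subset_adjoin ℚ _ ⟨v, rfl⟩, hint v⟩
  · refine adjoin_diag_full (famP H) e he (Sum.inl (Sum.inl 0)) (Sum.inl (Sum.inl 1)) ?_ ?_
    · change H.1.1 0 = diagonal e
      simp [H]
    · intro a c
      change H.1.1 1 a c ≠ 0
      exact hA0 a c

end Vale.Agent.P002
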