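import Vale.Agent.P002.Punct.Lin

/-!
Near a representation with scalar commutant the representations with prescribed classes form a
manifold; where one block of handles is free the other handles are free.
-/

namespace Vale.Agent.P002

open Matrix Module Filter Topology
open scoped Matrix.Norms.Operator

variable {n g s r : ℕ} {K : Fin s → Mat r ℂ}

/-- The traceless part of the equation. -/
noncomputable def relEqP (K : Fin s → Mat r ℂ) (x : PTup n s r) : slM r :=
  (slP r).toContinuousLinearMap (prodP (theta K x))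

theorem contDiffAt_prodP_theta {x : PTup n s r} (hx : GoodP x) :
    ContDiffAt ℂ 1 (fun y : PTup n s r => prodP (theta K y)) x :=
  ((contDiffAt_prodC hx.1).comp x contDiffAt_fst).mul
    (ContDiffAt.comp (g := prodK K) x (contDiffAt_prodK hx.2) contDiffAt_snd)

theorem hasStrictFDerivAt_relEqP (hK : ∀ j, (K j).det = 1) {x : PTup n s r} (hx : PRepH K x) :
    ∃ D : PTup n s r →L[ℂ] slM r, HasStrictFDerivAt (relEqP K) D x ∧
      ∀ v, (D v : Mat r ℂ) = linP K x v := by
  refine ⟨(slP r).toContinuousLinearMap.comp (fderiv ℂ (fun y => prodP (theta K y)) x),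
    (slP r).toContinuousLinearMap.hasStrictFDerivAt.comp x
      ((contDiffAt_prodP_theta hx.1).hasStrictFDerivAt one_ne_zero), fun v => ?_⟩
  have hline : HasDerivAt (fun t : ℂ => x + t • v) v 0 := by
    have h := ((hasDerivAt_id (0 : ℂ)).smul_const v).const_add x
    rwa [one_smul] at h
  have h : HasFDerivAt (fun y => prodP (theta K y))
      (fderiv ℂ (fun y => prodP (theta K y)) x) (x + (0 : ℂ) • v) := by
    rw [zero_smul, add_zero]
    exact ((contDiffAt_prodP_theta hx.1).differentiableAt one_ne_zero).hasFDerivAt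
  have h1 : HasDerivAt (fun t : ℂ => prodP (theta K (x + t • v)))
      (fderiv ℂ (fun y => prodP (theta K y)) x v) 0 := (h.comp_hasDerivAt 0 hline :)
  have h2 : HasDerivAt (fun t : ℂ => prodP (theta K (x + t • v)))
      (fderiv ℂ prodC x.1 v.1 * prodK K x.2 + prodC x.1 * fderiv ℂ (prodK K) x.2 v.2) 0 := by
    have := (hasDerivAt_prodC_line hx.1.1 v.1).mul (hasDerivAt_prodK_line (K := K) hx.1.2 v.2)
    rw [zero_smul, zero_smul, add_zero, add_zero] at this
    exact this
  have e : fderiv ℂ (fun y => prodP (theta K y)) x v = linP K x v := by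
    rw [h1.unique h2, linP_apply, lin_apply, linB_apply]
    have hB : prodK K x.2 = (prodC x.1)⁻¹ := by
      refine (Matrix.inv_eq_right_inv ?_).symm
      rw [← prodP_theta]
      exact hx.2
    rw [hB, Matrix.nonsing_inv_nonsing_inv _ (isUnit_det_prodC hx.1.1)]
    simp only [mul_assoc]
    rw [Matrix.mul_nonsing_inv _ (isUnit_det_prodC hx.1.1), mul_one]
  change (slP r (fderiv ℂ (fun y => prodP (theta K y)) x v) : Mat r ℂ) = _
  rw [e, slP_of_mem (trace_linP hK hx.1 v)]

/-- Near a representation the equation `relEqP = 0` cuts out the representations. -/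
theorem eventually_pRepH (hr : r ≠ 0) (hK : ∀ j, (K j).det = 1) {x : PTup n s r}
    (hx : PRepH K x) : ∀ᶠ y in 𝓝 x, relEqP K y = 0 → PRepH K y := by
  have hgood : ∀ᶠ y in 𝓝 x, GoodP y := by
    have h1 : ∀ i, Continuous fun y : PTup n s r => (y.1.1 i).det :=
      fun i => ((continuous_apply i).comp (continuous_fst.comp continuous_fst)).matrix_det
    have h2 : ∀ i, Continuous fun y : PTup n s r => (y.1.2 i).det :=
      fun i => ((continuous_apply i).comp (continuous_snd.comp continuous_fst)).matrix_det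
    have h3 : ∀ i, Continuous fun y : PTup n s r => (y.2 i).det :=
      fun i => ((continuous_apply i).comp continuous_snd).matrix_det
    exact ((eventually_all.2 fun i => (h1 i).continuousAt.eventually_ne (hx.1.1.1 i)).and
      (eventually_all.2 fun i => (h2 i).continuousAt.eventually_ne (hx.1.1.2 i))).and
      (eventually_all.2 fun i => (h3 i).continuousAt.eventually_ne (hx.1.2 i))
  let c : PTup n s r → ℂ := fun y =>
    (Matrix.traceLinearMap (Fin r) ℂ ℂ).toContinuousLinearMap (prodP (theta K y)) / (r : ℂ)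
  have hc : ContinuousAt c x :=
    ((Matrix.traceLinearMap (Fin r) ℂ ℂ).toContinuousLinearMap.continuous.continuousAt.comp
      (contDiffAt_prodP_theta hx.1).continuousAt).div_const _
  have hcx : c x = 1 := by simp [c, hx.2, trace_one, hr]
  have hsum : ∀ᶠ y in 𝓝 x, ∑ i ∈ Finset.range r, c y ^ i ≠ 0 := by
    refine ContinuousAt.eventually_ne ?_ (by simp [hcx, hr])
    exact tendsto_finsetSum _ fun i _ => (hc.pow i)
  filter_upwards [hgood, hsum] with y hg hs h0
  refine ⟨hg, ?_⟩
  have hy : prodP (theta K y) = c y • 1 := slP_eq_zero h0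
  have hd : (prodP (theta K y)).det = 1 := by
    rw [prodP_theta, det_mul, det_prodC hg.1, det_prodK hK hg.2, one_mul]
  rw [hy, det_smul, det_one, mul_one, Fintype.card_fin] at hd
  have h1 := geom_sum_mul (c y) r
  rw [hd, sub_self, mul_eq_zero] at h1
  rw [hy, sub_eq_zero.1 (h1.resolve_left hs), one_smul]

theorem relEqP_eq_zero (hr : r ≠ 0) {x : PTup n s r} (hx : PRepH K x) : relEqP K x = 0 := by
  change (slP r).toContinuousLinearMap (prodP (theta K x)) = 0
  rw [hx.2]
  exact slP_one hr

/-- At a Schur point every solution of the linearised equation is a velocity. -/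
theorem exists_curveP (hr : r ≠ 0) (hK : ∀ j, (K j).det = 1) {x : PTup n s r} (hx : PRepH K x)
    (hs : SchurP (theta K x)) {v : PTup n s r} (hv : linP K x v = 0) :
    ∃ γ : ℂ → PTup n s r, γ 0 = x ∧ (∀ᶠ t in 𝓝 0, PRepH K (γ t)) ∧ HasDerivAt γ v 0 := by
  obtain ⟨D, hD, hDv⟩ := hasStrictFDerivAt_relEqP hK hx
  have hsur : LinearMap.range D.toLinearMap = ⊤ := LinearMap.range_eq_top.2 fun Z => by
    have hm : Z.1 ∈ LinearMap.range (linP K x) := by
      rw [range_linP_eq hr hK hx.1 hs]
      exact Z.2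
    obtain ⟨w, hw⟩ := hm
    exact ⟨w, Subtype.ext ((hDv w).trans hw)⟩
  have hvk : v ∈ D.ker := LinearMap.mem_ker.2 (Subtype.ext ((hDv v).trans hv))
  let φ := hD.implicitFunction (relEqP K) D hsur (relEqP K x)
  let γ : ℂ → PTup n s r := fun t => φ (t • (⟨v, hvk⟩ : D.ker))
  have hγ0 : γ 0 = x := by
    simp only [γ, φ, zero_smul]
    exact hD.implicitFunction_apply_image hsur
  have hγd : HasDerivAt γ v 0 := by
    have h1 := (hD.to_implicitFunction hsur).hasFDerivAt
    have h2 : HasDerivAt (fun t : ℂ => t • (⟨v, hvk⟩ : D.ker)) ⟨v, hvk⟩ 0 := by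
      have h := (hasDerivAt_id (0 : ℂ)).smul_const (⟨v, hvk⟩ : D.ker)
      rwa [one_smul] at h
    exact h1.comp_hasDerivAt_of_eq 0 h2 (zero_smul ℂ _).symm
  refine ⟨γ, hγ0, ?_, hγd⟩
  have hev := hD.map_implicitFunction_eq hsur
  have htend : Tendsto (fun t : ℂ => (relEqP K x, t • (⟨v, hvk⟩ : D.ker))) (𝓝 0)
      (𝓝 (relEqP K x, 0)) := by
    refine (Continuous.tendsto' ?_ _ _ (by rw [zero_smul]))
    exact continuous_const.prodMk (continuous_id.smul continuous_const)
  have htγ : Tendsto γ (𝓝 0) (𝓝 x) := by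
    have h := hγd.continuousAt.tendsto
    rwa [hγ0] at h
  filter_upwards [htend.eventually hev, htγ.eventually (eventually_pRepH hr hK hx)] with t h1 h2
  exact h2 (h1.trans (relEqP_eq_zero hr hx))

/-- If the traceless equation together with a projection is a submersion, the projection of the
representations is open. -/
theorem eventually_exists_pRepH {F : Type*} [NormedAddCommGroup F] [NormedSpace ℂ F]
    [FiniteDimensional ℂ F] (hr : r ≠ 0) (hK : ∀ j, (K j).det = 1) (q : PTup n s r →L[ℂ] F)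
    {x : PTup n s r} (hx : PRepH K x)
    (hsur : ∀ (Z : Mat r ℂ) (w : F), Z.trace = 0 → ∃ v, linP K x v = Z ∧ q v = w)
    {U : Set (PTup n s r)} (hU : U ∈ 𝓝 x) :
    ∀ᶠ w in 𝓝 (q x), ∃ y ∈ U, PRepH K y ∧ q y = w := by
  obtain ⟨D, hD, hDv⟩ := hasStrictFDerivAt_relEqP hK hx
  have hG := hD.prodMk q.hasStrictFDerivAt
  have hs : LinearMap.range (D.prod q).toLinearMap = ⊤ := LinearMap.range_eq_top.2 fun p => by
    obtain ⟨v, hv, hqv⟩ := hsur p.1.1 p.2 p.1.2
    exact ⟨v, Prod.ext (Subtype.ext ((hDv v).trans hv)) hqv⟩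
  have hmap := hG.map_nhds_eq_of_surj hs
  have him := image_mem_map (m := fun y => (relEqP K y, q y))
    (inter_mem hU (eventually_pRepH hr hK hx))
  have him' := hmap.ge him
  rw [relEqP_eq_zero hr hx] at him'
  have htend : Tendsto (fun w : F => ((0 : slM r), w)) (𝓝 (q x)) (𝓝 (0, q x)) :=
    (continuous_const.prodMk continuous_id).tendsto _
  filter_upwards [htend.eventually_mem him'] with w hw
  obtain ⟨y, ⟨hyU, hyP⟩, he⟩ := hw
  exact ⟨y, hyU, hyP (congrArg Prod.fst he), congrArg Prod.snd he⟩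

/-- The projection to the first handle. -/
noncomputable def pairP (g s r : ℕ) : PTup (g + 1) s r →L[ℂ] Tup 1 (Mat r ℂ) :=
  (pairL g r).comp (ContinuousLinearMap.fst ℂ _ _)

/-- The projection to the other handles. -/
noncomputable def otherP (g s r : ℕ) : PTup (g + 1) s r →L[ℂ] Tup g (Mat r ℂ) :=
  (tailL g r).comp (ContinuousLinearMap.fst ℂ _ _)

theorem pairP_apply (x : PTup (g + 1) s r) : pairP g s r x = pairT x.1 := rfl

theorem otherP_apply (x : PTup (g + 1) s r) : otherP g s r x = tailT x.1 := rfl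

theorem linP_handles (x : PTup n s r) (u : Tup n (Mat r ℂ)) : linP K x (u, 0) = lin x.1 u := by
  rw [linP_apply, map_zero, mul_zero, zero_mul, add_zero]

/-- If the first handle has scalar commutant, the other handles can be prescribed. -/
theorem eventually_otherP (hr : r ≠ 0) (hK : ∀ j, (K j).det = 1) {x : PTup (g + 1) s r}
    (hx : PRepH K x) (hp : SchurF (fam (pairT x.1))) {U : Set (PTup (g + 1) s r)}
    (hU : U ∈ 𝓝 x) : ∀ᶠ w in 𝓝 (tailT x.1), ∃ y ∈ U, PRepH K y ∧ tailT y.1 = w := by
  have h := eventually_exists_pRepH hr hK (otherP g s r) hx (fun Z w hZ => ?_) hU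
  · exact h
  set C := prodC (pairT x.1)
  have hmem : Z - C * lin (tailT x.1) w * C⁻¹ ∈ LinearMap.range (lin (pairT x.1)) := by
    rw [range_lin_eq hr hx.1.1.pairT hp, mem_slM, trace_sub, hZ, trace_mul_cycle,
      Matrix.nonsing_inv_mul _ (isUnit_det_prodC hx.1.1.pairT), one_mul, trace_lin hx.1.1.tailT,
      sub_zero]
  obtain ⟨p, hp'⟩ := hmem
  refine ⟨(joinT p w, 0), ?_, ?_⟩
  · rw [linP_handles, lin_split hx.1.1, pairT_joinT, tailT_joinT, hp', sub_add_cancel]
  · exact tailT_joinT p w

/-- If the other handles have scalar commutant, the first can be prescribed. -/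
theorem eventually_pairP (hr : r ≠ 0) (hK : ∀ j, (K j).det = 1) {x : PTup (g + 1) s r}
    (hx : PRepH K x) (hp : SchurF (fam (tailT x.1))) {U : Set (PTup (g + 1) s r)}
    (hU : U ∈ 𝓝 x) : ∀ᶠ w in 𝓝 (pairT x.1), ∃ y ∈ U, PRepH K y ∧ pairT y.1 = w := by
  have h := eventually_exists_pRepH hr hK (pairP g s r) hx (fun Z w hZ => ?_) hU
  · exact h
  set C := prodC (pairT x.1)
  have hCu : IsUnit C.det := isUnit_det_prodC hx.1.1.pairT
  have hmem : C⁻¹ * (Z - lin (pairT x.1) w) * C ∈ LinearMap.range (lin (tailT x.1)) := by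
    rw [range_lin_eq hr hx.1.1.tailT hp, mem_slM, trace_mul_cycle, Matrix.mul_nonsing_inv _ hCu,
      one_mul, trace_sub, hZ, trace_lin hx.1.1.pairT, sub_zero]
  obtain ⟨p, hp'⟩ := hmem
  refine ⟨(joinT w p, 0), ?_, ?_⟩
  · rw [linP_handles, lin_split hx.1.1, pairT_joinT, tailT_joinT, hp']
    rw [← mul_assoc, ← mul_assoc, Matrix.mul_nonsing_inv _ hCu, one_mul,
      Matrix.mul_nonsing_inv_cancel_right _ _ hCu, add_sub_cancel]
  · exact pairT_joinT w p

end Vale.Agent.P002
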