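import Vale.Agent.P002.Full.Dich
import Vale.Agent.P002.Punct.Open

/-!
Near every Schur representation with prescribed classes there is one whose first handle is in
normal form.
-/

namespace Vale.Agent.P002

open Matrix Module Filter Topology
open scoped Matrix.Norms.Operator

variable {g s r : ℕ} {K : Fin s → Mat r ℂ}

theorem eventually_schurP {n : ℕ} (hr : r ≠ 0) {x : PTup n s r} (hx : GoodP x)
    (hs : SchurP (theta K x)) : ∀ᶠ y in 𝓝 x, SchurP (theta K y) := by
  have hc : ContinuousAt (fun y : PTup n s r => famP (theta K y)) x := by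
    refine continuousAt_pi.2 ?_
    rintro ((i | i) | j)
    · exact ((continuous_apply i).comp (continuous_fst.comp continuous_fst)).continuousAt
    · exact ((continuous_apply i).comp (continuous_snd.comp continuous_fst)).continuousAt
    · have h1 : ContinuousAt (fun y : PTup n s r => y.2 j) x :=
        ((continuous_apply j).comp continuous_snd).continuousAt
      exact (h1.mul continuousAt_const).mul
        (ContinuousAt.comp (g := fun a : Mat r ℂ => a⁻¹) (contDiffAt_inv (hx.2 j)).continuousAt h1)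
  have h : ContinuousAt (fun y => adMap (famP (theta K y))) x :=
    (adMap (ι := (Fin n ⊕ Fin n) ⊕ Fin s) (r := r)).continuous.continuousAt.comp hc
  refine (eventually_finrank_ker_le h).mono fun y hy => ?_
  exact (schurF_iff_finrank hr _).2 (hy.trans ((schurF_iff_finrank hr _).1 hs))

theorem eventually_dAP_le {n m : ℕ} (q : PTup n s r →L[ℂ] Tup m (Mat r ℂ)) (x : PTup n s r) :
    ∀ᶠ y in 𝓝 x, dA (q y) ≤ dA (q x) := by
  have h : ContinuousAt (fun y => adMap (famC m r (q y))) x :=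
    ((adMap (ι := Fin m ⊕ Fin m) (r := r)).continuous.comp
      ((famC m r).continuous.comp q.continuous)).continuousAt
  refine (eventually_finrank_ker_le h).mono fun y hy => ?_
  rw [famC_apply, famC_apply] at hy
  exact hy

/-- The first handle and the other handles cannot both keep a non-scalar commutant. -/
theorem exists_block_schurP (hr : r ≠ 0) (hK : ∀ j, (K j).det = 1) {x : PTup (g + 2) s r}
    (hx : PRepH K x) (hs : SchurP (theta K x)) {U : Set (PTup (g + 2) s r)} (hU : U ∈ 𝓝 x) :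
    ∃ y ∈ U, PRepH K y ∧ (SchurF (fam (pairT y.1)) ∨ SchurF (fam (tailT y.1))) := by
  classical
  by_contra hcon
  push Not at hcon
  obtain ⟨U1, hU1, hU1o, hxU1⟩ :=
    eventually_nhds_iff.1 ((eventually_schurP hr hx.1 hs).and hU)
  have hP : ∃ d, ∃ y ∈ U1, PRepH K y ∧ dA (pairT y.1) = d := ⟨_, x, hxU1, hx, rfl⟩
  obtain ⟨y1, hy1U, hy1, hd1⟩ := Nat.find_spec hP
  obtain ⟨U2, hU2, hU2o, hy2U⟩ := eventually_nhds_iff.1
    ((eventually_dAP_le (pairP (g + 1) s r) y1).and (hU1o.mem_nhds hy1U))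
  have hH : ∃ d, ∃ y ∈ U2, PRepH K y ∧ dA (tailT y.1) = d := ⟨_, y1, hy2U, hy1, rfl⟩
  obtain ⟨y2, hy2m, hy2, hd2⟩ := Nat.find_spec hH
  obtain ⟨U3, hU3, hU3o, hy3U⟩ := eventually_nhds_iff.1
    ((eventually_dAP_le (otherP (g + 1) s r) y2).and (hU2o.mem_nhds hy2m))
  set dP := Nat.find hP
  set dH := Nat.find hH
  set Z : Set (PTup (g + 2) s r) := {y | y ∈ U3 ∧ PRepH K y} with hZdef
  have hmem : ∀ y ∈ Z, y ∈ U2 ∧ y ∈ U1 ∧ y ∈ U ∧ SchurP (theta K y) := fun y hy => by
    have h2 := (hU3 y hy.1).2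
    have h1 := (hU2 y h2).2
    exact ⟨h2, h1, (hU1 y h1).2, (hU1 y h1).1⟩
  have hZp : ∀ y ∈ Z, dA (pairT y.1) = dP := fun y hy => by
    obtain ⟨h2, h1, -, -⟩ := hmem y hy
    have hle := (hU2 y h2).1
    rw [pairP_apply, pairP_apply, hd1] at hle
    exact le_antisymm hle (Nat.find_min' hP ⟨y, h1, hy.2, rfl⟩)
  have hZh : ∀ y ∈ Z, dA (tailT y.1) = dH := fun y hy => by
    obtain ⟨h2, -, -, -⟩ := hmem y hy
    have hle := (hU3 y hy.1).1
    rw [otherP_apply, otherP_apply, hd2] at hle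
    exact le_antisymm hle (Nat.find_min' hH ⟨y, h2, hy.2, rfl⟩)
  obtain ⟨y0, hy0⟩ : Z.Nonempty := ⟨y2, hy3U, hy2⟩
  obtain ⟨hpn, htn⟩ := hcon y0 (hmem y0 hy0).2.2.1 hy0.2
  have hdP : 2 ≤ dP := by
    rw [← hZp y0 hy0]
    have := mt (schurF_iff_finrank hr _).2 hpn
    simp only [dA] at *
    omega
  have hdH : 2 ≤ dH := by
    rw [← hZh y0 hy0]
    have := mt (schurF_iff_finrank hr _).2 htn
    simp only [dA] at *
    omega
  have hcurve : ∀ y ∈ Z, ∀ v, linP K y v = 0 → ∃ γ : ℂ → PTup (g + 2) s r,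
      γ 0 = y ∧ (∀ᶠ t in 𝓝 0, γ t ∈ Z) ∧ HasDerivAt γ v 0 := fun y hy v hv => by
    obtain ⟨γ, h0, hP', hd⟩ := exists_curveP hr hK hy.2 (hmem y hy).2.2.2 hv
    refine ⟨γ, h0, ?_, hd⟩
    have ht : ∀ᶠ t in 𝓝 0, γ t ∈ U3 :=
      hd.continuousAt.eventually_mem (by rw [h0]; exact hU3o.mem_nhds hy.1)
    exact ht.and hP'
  have h1 : dH + 1 ≤ dP := by
    refine dA_le_of_block hr (Nat.le_add_left 1 g) (otherP (g + 1) s r) ⟨y0, hy0⟩ hdH hZh
      fun y hy => ?_
    have hg := hy.2.1.1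
    set C := prodC (pairT y.1)
    have hC : IsUnit C.det := isUnit_det_prodC hg.pairT
    refine ⟨((LinearMap.mulRight ℂ C⁻¹).comp (LinearMap.mulLeft ℂ C)).comp (lin (tailT y.1)),
      LinearMap.range (lin (pairT y.1)), ?_, range_lin_le hg.pairT, ?_, fun w hw => ?_⟩
    · rintro _ ⟨w, rfl⟩
      change (C * lin (tailT y.1) w * C⁻¹).trace = 0
      rw [trace_mul_cycle, Matrix.nonsing_inv_mul _ hC, one_mul, trace_lin hg.tailT]
    · rw [← hZp y hy]
      exact le_finrank_range_lin hg.pairT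
    · obtain ⟨p, hp⟩ := hw
      change lin (pairT y.1) p = C * lin (tailT y.1) w * C⁻¹ at hp
      obtain ⟨γ, hγ0, hγZ, hγ⟩ := hcurve y hy (joinT (-p) w, 0) (by
        rw [linP_handles, lin_split hg, pairT_joinT, tailT_joinT, map_neg, hp, neg_add_cancel])
      exact ⟨γ, _, hγ0, hγZ, hγ, tailT_joinT _ _⟩
  have h2 : dP + 1 ≤ dH := by
    refine dA_le_of_block hr le_rfl (pairP (g + 1) s r) ⟨y0, hy0⟩ hdP hZp fun y hy => ?_
    have hg := hy.2.1.1
    set C := prodC (pairT y.1)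
    have hC : IsUnit C.det := isUnit_det_prodC hg.pairT
    refine ⟨((LinearMap.mulRight ℂ C).comp (LinearMap.mulLeft ℂ C⁻¹)).comp (lin (pairT y.1)),
      LinearMap.range (lin (tailT y.1)), ?_, range_lin_le hg.tailT, ?_, fun w hw => ?_⟩
    · rintro _ ⟨w, rfl⟩
      change (C⁻¹ * lin (pairT y.1) w * C).trace = 0
      rw [trace_mul_cycle, Matrix.mul_nonsing_inv _ hC, one_mul, trace_lin hg.pairT]
    · rw [← hZh y hy]
      exact le_finrank_range_lin hg.tailT
    · obtain ⟨p, hp⟩ := hw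
      change lin (tailT y.1) p = C⁻¹ * lin (pairT y.1) w * C at hp
      obtain ⟨γ, hγ0, hγZ, hγ⟩ := hcurve y hy (joinT w (-p), 0) (by
        rw [linP_handles, lin_split hg, pairT_joinT, tailT_joinT, map_neg, hp, mul_neg, neg_mul,
          ← mul_assoc, ← mul_assoc, Matrix.mul_nonsing_inv _ hC, one_mul,
          Matrix.mul_nonsing_inv_cancel_right _ _ hC, add_neg_cancel])
      exact ⟨γ, _, hγ0, hγZ, hγ, pairT_joinT _ _⟩
  omega

/-- Near every Schur representation with prescribed classes there is one whose first handle is in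
normal form. -/
theorem exists_repH_ostar {g s r : ℕ} (hr : r ≠ 0) {K : Fin s → Mat r ℂ}
    (hK : ∀ j, (K j).det = 1) {x : PTup (g + 2) s r} (hx : RepH K x)
    (hs : SchurP (theta K x)) {U : Set (PTup (g + 2) s r)} (hU : U ∈ 𝓝 x) :
    ∃ y ∈ U, RepH K y ∧ OStar (y.1.1 0) (y.1.2 0) := by
  have hc : ContinuousAt (fun y : PTup (g + 2) s r => (normT y.1, y.2)) x :=
    ContinuousAt.prodMk
      (ContinuousAt.prodMk
        (continuousAt_pi.2 fun i => ContinuousAt.comp (g := scal) (continuousAt_scal (hx.1.1 i))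
          ((continuous_apply i).comp (continuous_fst.comp continuous_fst)).continuousAt)
        (continuousAt_pi.2 fun i => ContinuousAt.comp (g := scal) (continuousAt_scal (hx.1.2 i))
          ((continuous_apply i).comp (continuous_snd.comp continuous_fst)).continuousAt))
      continuous_snd.continuousAt
  have hx0 : (normT x.1, x.2) = x :=
    Prod.ext (Prod.ext (funext fun i => scal_of_det (hx.1.1 i))
      (funext fun i => scal_of_det (hx.1.2 i))) rfl
  obtain ⟨V, hVU, hVo, hxV⟩ := mem_nhds_iff.1 (hc.preimage_mem_nhds (by rw [hx0]; exact hU))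
  suffices h : ∃ y ∈ V, PRepH K y ∧ OStar (y.1.1 0) (y.1.2 0) by
    obtain ⟨y, hy, hyP, hyO⟩ := h
    refine ⟨(normT y.1, y.2), hVU hy, ⟨⟨fun i => det_scal hr (hyP.1.1.1 i),
      fun i => det_scal hr (hyP.1.1.2 i)⟩, hyP.1.2, ?_⟩,
      hyO.smul (Complex.exp_ne_zero _) (Complex.exp_ne_zero _)⟩
    have h := hyP.2
    rw [prodP_theta] at h ⊢
    rw [prodC_normT hyP.1.1]
    exact h
  obtain ⟨y, hy, hyP, hor⟩ :=
    exists_block_schurP hr hK (pRepH_of_repH hx) hs (hVo.mem_nhds hxV)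
  -- reach a point where the other handles have scalar commutant
  obtain ⟨y', hy', hyP', htail⟩ : ∃ y' ∈ V, PRepH K y' ∧ SchurF (fam (tailT y'.1)) := by
    rcases hor with hp | ht
    · obtain ⟨w, ⟨y', h1, h2, h3⟩, hwO⟩ :=
        exists_ostar_tup hyP.1.1.tailT (eventually_otherP hr hK hyP hp (hVo.mem_nhds hy))
      refine ⟨y', h1, h2, ?_⟩
      rw [h3]
      exact schurF_pair_or_tail (Or.inl (schurF_pairT_of_ostar hwO))
    · exact ⟨y, hy, hyP, ht⟩
  obtain ⟨w, ⟨y'', h1, h2, h3⟩, hwO⟩ :=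
    exists_ostar_tup hyP'.1.1.pairT (eventually_pairP hr hK hyP' htail (hVo.mem_nhds hy'))
  refine ⟨y'', h1, h2, ?_⟩
  rw [← h3] at hwO
  exact hwO

end Vale.Agent.P002
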