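import Vale.Agent.P002.Punct.Flows

/-!
An open piece of the representations with prescribed classes lies in the closure of the integral
ones, once the other handles and the punctures carry an integral irreducible representation.
-/

namespace Vale.Agent.P002

open Matrix Filter Topology Complex
open scoped Matrix.Norms.Operator

variable {k s r : ℕ} {K : Fin s → Mat r ℂ} {L : IntermediateField ℚ ℂ}

/-- The equations: determinants and the relation. -/
noncomputable def eqsP (K : Fin s → Mat r ℂ) {n : ℕ} (y : PTup n s r) :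
    (Fin n → ℂ) × (Fin n → ℂ) × Mat r ℂ :=
  (fun i => (y.1.1 i).det, fun i => (y.1.2 i).det, prodP (theta K y))

theorem contDiffAt_eqsP {n : ℕ} {y : PTup n s r} (hy : GoodP y) :
    ContDiffAt ℂ 1 (eqsP K) y :=
  (contDiffAt_pi.2 fun i => (contDiff_det.comp ((contDiff_apply ℂ (Mat r ℂ) i).comp
      contDiff_fst.fst)).contDiffAt).prodMk
    ((contDiffAt_pi.2 fun i => (contDiff_det.comp ((contDiff_apply ℂ (Mat r ℂ) i).comp
      contDiff_fst.snd)).contDiffAt).prodMk (contDiffAt_prodP_theta hy))

/-- The second matrix of the first handle, the other handles and the conjugators. -/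
def projP : PTup (k + 1) s r →ₗ[ℂ] Mat r ℂ × PTup k s r where
  toFun e := (e.1.2 0, tailP e)
  map_add' _ _ := rfl
  map_smul' _ _ := rfl

theorem eq_of_projP {a b : PTup (k + 1) s r} (h : projP a = projP b)
    (h0 : a.1.1 0 = b.1.1 0) : a = b := by
  have h1 : a.1.2 0 = b.1.2 0 := congrArg Prod.fst h
  have h2 : tailP a = tailP b := congrArg Prod.snd h
  refine Prod.ext (Prod.ext (funext fun i => ?_) (funext fun i => ?_))
    (show (tailP a).2 = (tailP b).2 by rw [h2])
  · refine Fin.cases h0 (fun i => ?_) i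
    exact congrArg (fun y : PTup k s r => y.1.1 i) h2
  · refine Fin.cases h1 (fun i => ?_) i
    exact congrArg (fun y : PTup k s r => y.1.2 i) h2

theorem hasDerivAt_stpW_consA (hK : ∀ j, (K j).det = 1) {H : PTup k s r} (hH : GoodH H)
    (w : List (GIdx k s)) :
    ∃ z, HasDerivAt (fun t : ℂ => stpW K w t (consA 1 H)) z 0 ∧
      projP z = ((uW K H w * pw (uW K H w) 1 * (uW K H w)⁻¹, dW K H w (pw (uW K H w) 1)) :
        Mat r ℂ × PTup k s r) := by
  set U := uW K H w
  set v : PTup (k + 1) s r := ((0, Pi.single 0 (pw U 1)), 0) with hv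
  have hc : HasDerivAt (fun t : ℂ => flowP t (consA U H)) v 0 := by
    refine (HasDerivAt.prodMk (hasDerivAt_const _ _) (hasDerivAt_pi.2 fun i => ?_)).prodMk
      (hasDerivAt_const _ _)
    by_cases hi : i = 0
    · subst hi
      simp only [Function.update_self, consA, Fin.cons_zero, one_mul, Pi.single_eq_same]
      exact hasDerivAt_exp_smul (pw U 1)
    · simp only [Function.update_of_ne hi, Pi.single_eq_of_ne hi]
      exact hasDerivAt_const _ _
  obtain ⟨z, hz, hzb, hzt⟩ := hasDerivAt_psiW hK hH w (det_uW hK hH w) hc (by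
    simp [flowP, U])
  refine ⟨z, ?_, Prod.ext ?_ ?_⟩
  · refine HasDerivAt.congr_of_eventuallyEq hz (Eventually.of_forall fun t => ?_)
    simp [stpW, phiW_consA hK hH, U]
  · change z.1.2 0 = _
    rw [hzb]
    simp [hv, U]
  · change tailP z = _
    rw [hzt]
    have e : tailP v = 0 := by
      refine Prod.ext (Prod.ext rfl (funext fun i => ?_)) rfl
      simp [hv, tailP, tailT, Fin.tail]
    rw [e, zero_add]
    simp [hv]

theorem irredF_consA {H : PTup k s r} (A : Mat r ℂ) (h : IrredF (famP H)) :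
    IrredF (famP (consA A H)) := by
  refine eq_top_iff.2 (h.symm.le.trans (Algebra.adjoin_mono ?_))
  rintro _ ⟨(i | i) | j, rfl⟩
  · exact ⟨Sum.inl (Sum.inl i.succ), by simp [famP, fam, consA]⟩
  · exact ⟨Sum.inl (Sum.inr i.succ), by simp [famP, fam, consA]⟩
  · exact ⟨Sum.inr j, by simp [famP, consA]⟩

theorem exists_open_piece_aux (hr : r ≠ 0) (hK : ∀ j, (K j).det = 1) {H : PTup k s r}
    (hH : RepH K H) (hHi : IntP L (theta K H)) (hirr : IrredF (famP (theta K H))) :
    ∃ x : PTup (k + 1) s r, RepH K x ∧ IrredF (famP (theta K x)) ∧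
      ∀ᶠ y in 𝓝 x, RepH K y → theta K y ∈ ZsetP K L (k + 1) := by
  have hg : GoodH H := ⟨hH.1, hH.2.1⟩
  set vel : List (GIdx k s) → Mat r ℂ × PTup k s r := fun w =>
    (uW K H w * pw (uW K H w) 1 * (uW K H w)⁻¹, dW K H w (pw (uW K H w) 1)) with hvel
  obtain ⟨b, hb, hbs, hbl⟩ := exists_linearIndependent ℂ (Set.range vel)
  have hbf : b.Finite := hbl.setFinite
  let e : Fin hbf.toFinset.card ≃ hbf.toFinset := hbf.toFinset.equivFin.symm
  have hmem : ∀ j, ∃ w, vel w = e j := fun j => hb (hbf.mem_toFinset.1 (e j).2)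
  choose ws hws using hmem
  set Ψ := psiP K H ws hbf.toFinset.card with hΨ
  set x0 : PTup (k + 1) s r := consA 1 H with hx0
  have hΨ0 : Ψ 0 = x0 := by
    rw [hΨ, show (0 : PrmP s r hbf.toFinset.card) = ((0, 0), 0) from rfl, psiP_line hK hr hg]
    simp [baseP, pw, hx0]
  have hθ : theta K x0 = consA 1 (theta K H) := rfl
  have hgood : GoodH x0 := goodH_consA det_one hg
  have hrep : RepH K x0 :=
    ⟨hgood.1, hgood.2, by rw [hθ]; exact (repK_consA (repK_theta hH) det_one).2.2⟩
  refine ⟨x0, hrep, by rw [hθ]; exact irredF_consA 1 hirr, ?_⟩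
  have hcd : ContDiff ℂ 1 Ψ := contDiff_psiP hK hr hg ws _
  have hgH : ∀ p, GoodH (Ψ p) := goodH_psiP hK hr hg ws _
  set D := fderiv ℂ Ψ 0 with hD
  have hline : ∀ v, HasDerivAt (fun t : ℂ => Ψ (t • v)) (D v) 0 := fun v => by
    have h1 : HasFDerivAt Ψ D ((0 : ℂ) • v) := by
      rw [zero_smul]; exact (hcd.differentiable one_ne_zero 0).hasFDerivAt
    have h2 := (hasDerivAt_id (0 : ℂ)).smul_const v
    rw [one_smul] at h2
    exact (h1.comp_hasDerivAt 0 h2 :)
  have hD1 : ∀ v, ((D v).1.1 0).trace = 0 := fun v => by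
    have h := trace_eq_zero_of_det ((hasDerivAt_coord (hline v)).1 0) fun t => (hgH _).1.1 0
    simpa [hΨ0, hx0, consA] using h
  -- velocities and scalings are derivatives of the composite
  have hT : ∀ z ∈ velSpan K H, ∃ v, projP (D v) = z := by
    intro z hz
    have hz' : z ∈ (LinearMap.range D.toLinearMap).map projP := by
      refine Submodule.span_le.2 ?_ hz
      rintro z (⟨w, rfl⟩ | ⟨c, rfl⟩)
      · refine (?_ : Submodule.span ℂ (Set.range vel) ≤ _) (Submodule.subset_span ⟨w, rfl⟩)
        rw [← hbs, Submodule.span_le]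
        intro y hy
        obtain ⟨j, hj⟩ : ∃ j, (e j : Mat r ℂ × PTup k s r) = y :=
          ⟨e.symm ⟨y, hbf.mem_toFinset.2 hy⟩, by simp⟩
        refine ⟨D ((0, 0), Pi.single j 1), LinearMap.mem_range_self _ _, ?_⟩
        obtain ⟨d, hd, hdp⟩ := hasDerivAt_stpW_consA hK hg (ws j)
        have heq : (fun t : ℂ =>
            Ψ (t • (((0, 0), Pi.single j 1) : PrmP s r hbf.toFinset.card))) =
            fun t => stpW K (ws j) t (consA 1 H) := funext fun t => by
          have : t • (((0, 0), Pi.single j 1) : PrmP s r hbf.toFinset.card) =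
              ((0, 0), Pi.single j t) := by
            simp [← Pi.single_smul']
          rw [this, hΨ, psiP_single hK hr hg ws j t, if_pos j.2]
        have h := hline (((0, 0), Pi.single j 1) : PrmP s r hbf.toFinset.card)
        rw [heq] at h
        rw [h.unique hd, hdp, ← hj, ← hws j]
      · refine ⟨D ((0, c), 0), LinearMap.mem_range_self _ _, ?_⟩
        have heq : (fun t : ℂ => Ψ (t • (((0, c), 0) : PrmP s r hbf.toFinset.card))) =
            fun t => consA 1 ((H.1, fun l => cexp (t * c l) • H.2 l) : PTup k s r) :=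
          funext fun t => by
            have : t • (((0, c), 0) : PrmP s r hbf.toFinset.card) = ((0, t • c), 0) := by simp
            rw [this, hΨ, psiP_line hK hr hg]
            simp [baseP, pw]
        have h := hline (((0, c), 0) : PrmP s r hbf.toFinset.card)
        rw [heq] at h
        have hd : HasDerivAt
            (fun t : ℂ => consA 1 ((H.1, fun l => cexp (t * c l) • H.2 l) : PTup k s r))
            ((0, fun l => c l • H.2 l) : PTup (k + 1) s r) 0 :=
          (hasDerivAt_const (0 : ℂ) (consA 1 H).1).prodMk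
            (hasDerivAt_pi.2 fun l => hasDerivAt_cexp_smul _ _)
        rw [h.unique hd]
        rfl
    obtain ⟨_, ⟨v, rfl⟩, hv⟩ := Submodule.mem_map.1 hz'
    exact ⟨v, hv⟩
  -- the equations see every direction outside the range
  have hgd := (contDiffAt_eqsP (K := K) hgood.good).differentiableAt one_ne_zero
  have hker : ∀ u, fderiv ℂ (eqsP K) x0 u = 0 → ∃ v, D v = u := by
    intro u hu
    have hl : HasDerivAt (fun t : ℂ => x0 + t • u) u 0 := by
      have h := ((hasDerivAt_id (0 : ℂ)).smul_const u).const_add x0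
      rwa [one_smul] at h
    have h0 : x0 + (0 : ℂ) • u = x0 := by simp
    have hE : HasDerivAt (fun t : ℂ => eqsP K (x0 + t • u)) 0 0 := by
      rw [← hu]
      have h : HasFDerivAt (eqsP K) (fderiv ℂ (eqsP K) x0) (x0 + (0 : ℂ) • u) := by
        rw [h0]; exact hgd.hasFDerivAt
      exact (h.comp_hasDerivAt 0 hl :)
    have hA : HasDerivAt (fun t : ℂ => fun i => ((x0 + t • u).1.1 i).det)
        (0 : Fin (k + 1) → ℂ) 0 := (hasFDerivAt_fst.comp_hasDerivAt 0 hE :)
    have hBC := (hasFDerivAt_snd.comp_hasDerivAt 0 hE :)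
    have hB : HasDerivAt (fun t : ℂ => fun i => ((x0 + t • u).1.2 i).det)
        (0 : Fin (k + 1) → ℂ) 0 := (hasFDerivAt_fst.comp_hasDerivAt 0 hBC :)
    have hC : HasDerivAt (fun t : ℂ => prodP (theta K (x0 + t • u))) (0 : Mat r ℂ) 0 :=
      (hasFDerivAt_snd.comp_hasDerivAt 0 hBC :)
    obtain ⟨hc1, hc2, -⟩ := hasDerivAt_coord hl
    have hta : ∀ i, ((x0.1.1 i)⁻¹ * u.1.1 i).trace = 0 := fun i => by
      have h := (hasDerivAt_det (hc1 i) (by rw [h0, hgood.1.1 i]; exact isUnit_one)).unique
        (hasDerivAt_pi.1 hA i)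
      simpa [h0, hgood.1.1 i] using h
    have htb : ∀ i, ((x0.1.2 i)⁻¹ * u.1.2 i).trace = 0 := fun i => by
      have h := (hasDerivAt_det (hc2 i) (by rw [h0, hgood.1.2 i]; exact isUnit_one)).unique
        (hasDerivAt_pi.1 hB i)
      simpa [h0, hgood.1.2 i] using h
    have hC' := (hasDerivAt_prodP_consA (K := K) (A := 1) (by simp) hg.good hH.2.2 hl
      (by rw [h0])).unique hC
    simp only [inv_one, one_mul, mul_one, sub_self, zero_add] at hC'
    have hmem : projP u ∈ velSpan K H :=
      mem_velSpan hr hK hg hirr (dEq K H) (dEq_dSlide hK hg hH.2.2) (dEq_scale hg.good)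
        (by simpa [hx0, consA] using htb 0) (fun i => by simpa [projP, hx0, consA, tailP, tailT, Fin.tail] using hta i.succ)
        (fun i => by simpa [projP, hx0, consA, tailP, tailT, Fin.tail] using htb i.succ) hC'
    obtain ⟨v, hv⟩ := hT _ hmem
    set α := u.1.1 0 - (D v).1.1 0 with hα
    have hαt : α.trace = 0 := by
      have h := hta 0
      simp [hx0, consA] at h
      simp [hα, trace_sub, h, hD1 v]
    have hd : D (((α, 0), 0) : PrmP s r hbf.toFinset.card) =
        ((Fin.cons α 0, 0), 0) := by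
      have heq : (fun t : ℂ => Ψ (t • (((α, 0), 0) : PrmP s r hbf.toFinset.card))) =
          fun t => consA (NormedSpace.exp (t • α)) H := funext fun t => by
        have : t • (((α, 0), 0) : PrmP s r hbf.toFinset.card) = ((t • α, 0), 0) := by simp
        rw [this, hΨ, psiP_line hK hr hg]
        simp [baseP, pw_one_of_trace (show (t • α).trace = 0 by simp [hαt])]
      have h := hline (((α, 0), 0) : PrmP s r hbf.toFinset.card)
      rw [heq] at h
      refine h.unique (((hasDerivAt_pi.2 fun i => ?_).prodMk (hasDerivAt_const _ _)).prodMk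
        (hasDerivAt_const _ _))
      refine Fin.cases ?_ (fun i => ?_) i
      · simp only [consA, Fin.cons_zero]
        exact hasDerivAt_exp_smul α
      · simp only [consA, Fin.cons_succ]
        exact hasDerivAt_const _ _
    refine ⟨v + ((α, 0), 0), eq_of_projP ?_ ?_⟩
    · rw [map_add, map_add, hv, hd]
      have : projP (((Fin.cons α 0, 0), 0) : PTup (k + 1) s r) = 0 := by
        refine Prod.ext rfl ?_
        refine Prod.ext (Prod.ext (funext fun i => ?_) rfl) rfl
        simp [projP, tailP, tailT]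
      rw [this, add_zero]
    · rw [map_add, hd]
      simp [hα]
  obtain ⟨U, hUo, hU0, hU⟩ := exists_open_level
    (hcd.contDiffAt.hasStrictFDerivAt one_ne_zero)
    (Dg := fderiv ℂ (eqsP K) x0) (g := eqsP K)
    (by rw [hΨ0]; exact (contDiffAt_eqsP hgood.good).hasStrictFDerivAt one_ne_zero)
    hcd.continuous hker (1, 1, 1) (ZH K L (k + 1))
    ((eventually_psiP_mem hK hr hg hH.2.2 hHi ws _).mono fun p hp => ⟨hp,
      Prod.ext (funext (hgH p).1.1) (Prod.ext (funext (hgH p).1.2)
        (prodP_theta_psiP hK hr hg hH.2.2 ws _ p))⟩)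
  rw [hΨ0] at hU0
  refine eventually_nhds_iff.2 ⟨U, fun y hy hrepy => ?_, hUo, hU0⟩
  exact (hU y hy (Prod.ext (funext hrepy.1.1) (Prod.ext (funext hrepy.1.2) hrepy.2.2))).2

theorem exists_open_piece {k s r : ℕ} (hr : r ≠ 0) {K : Fin s → Mat r ℂ}
    (hK : ∀ j, (K j).det = 1) {L : IntermediateField ℚ ℂ} {H : PTup (k + 1) s r}
    (hH : RepK K H) (hHi : IntP L H) (hirr : IrredF (famP H)) :
    ∃ x : PTup (k + 2) s r, RepH K x ∧ IrredF (famP (theta K x)) ∧
      ∀ᶠ y in 𝓝 x, RepH K y → theta K y ∈ ZsetP K L (k + 2) := by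
  obtain ⟨H', hH', rfl⟩ := exists_repH hH
  exact exists_open_piece_aux hr hK hH' hHi hirr

end Vale.Agent.P002
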