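import Vale.Agent.P002.Punct.RedBlocks

/-!
An invariant continuous function which vanishes on all Schur representations with prescribed
classes vanishes on all semisimple ones.
-/

namespace Vale.Agent.P002

open Matrix Filter Topology

namespace RedP

open Red

variable {s r A B : ℕ}

/-- Without intertwiners some extension is a Schur representation. -/
theorem exists_schur_extP {g : ℕ} (e : Fin A ⊕ Fin B ≃ Fin r) (hA : 0 < A) (hB : 0 < B)
    {x : PTup (g + 2) s A} {y : PTup (g + 2) s B} (hx : Good x.1) (hy : Good y.1)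
    (px : prodP x = 1) (py : prodP y = 1) (sx : SchurP x) (sy : SchurP y)
    (h₁ : ∀ T : Matrix (Fin B) (Fin A) ℂ, T * x.1.1 0 = y.1.1 0 * T → T = 0)
    (h₂ : ∀ T : Matrix (Fin A) (Fin B) ℂ, T * y.1.1 0 = x.1.1 0 * T → T = 0) :
    ∃ ξ u, prodP (extP e x ξ u y) = 1 ∧ SchurP (extP e x ξ u y) := by
  obtain ⟨L, hL⟩ := exists_linearP e hx hy
  let δ : Matrix (Fin A) (Fin B) ℂ →ₗ[ℂ] Tup (g + 2) (Matrix (Fin A) (Fin B) ℂ) :=
    { toFun := fun v =>
        (fun i => x.1.1 i * v - v * y.1.1 i, fun i => x.1.2 i * v - v * y.1.2 i)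
      map_add' := fun v w => by
        refine Prod.ext (funext fun i => ?_) (funext fun i => ?_) <;>
          simp [Matrix.mul_add, Matrix.add_mul] <;> abel
      map_smul' := fun c v => by
        refine Prod.ext (funext fun i => ?_) (funext fun i => ?_) <;> simp [smul_sub] }
  let δ' : (Matrix (Fin A) (Fin B) ℂ × (Fin s → Matrix (Fin A) (Fin B) ℂ)) →ₗ[ℂ]
      Tup (g + 2) (Matrix (Fin A) (Fin B) ℂ) × (Fin s → Matrix (Fin A) (Fin B) ℂ) :=
    δ.prodMap LinearMap.id
  have hnot : ¬ LinearMap.ker L ≤ LinearMap.range δ' := by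
    intro hle
    have h1 := L.finrank_range_add_finrank_ker
    have h2 := Submodule.finrank_le (LinearMap.range L)
    have h3 := Submodule.finrank_mono hle
    have h4 := δ'.finrank_range_le
    simp only [Module.finrank_prod, Module.finrank_pi_fintype, Finset.sum_const, Finset.card_univ,
      Fintype.card_fin, smul_eq_mul, Module.finrank_matrix, Module.finrank_self, mul_one]
      at h1 h2 h4
    have hpos : 0 < A * B := Nat.mul_pos hA hB
    rw [Nat.add_mul] at h1
    omega
  obtain ⟨p, hp, hp'⟩ := SetLike.not_le_iff_exists.1 hnot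
  refine ⟨p.1, p.2, ?_, ?_⟩
  · rw [hL, LinearMap.mem_ker.1 hp, px, py, blk_one]
  intro Y hY
  set Z := (Matrix.reindex e e).symm Y with hZ
  have hYe : Y = Matrix.reindex e e
      (fromBlocks Z.toBlocks₁₁ Z.toBlocks₁₂ Z.toBlocks₂₁ Z.toBlocks₂₂) := by
    rw [fromBlocks_toBlocks, hZ, Equiv.apply_symm_apply]
  generalize Z.toBlocks₁₁ = P at hYe
  generalize Z.toBlocks₁₂ = q at hYe
  generalize Z.toBlocks₂₁ = U at hYe
  generalize Z.toBlocks₂₂ = T at hYe
  have key : ∀ (a : Mat A ℂ) (w : Matrix (Fin A) (Fin B) ℂ) (b : Mat B ℂ),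
      Y * blk e a w b = blk e a w b * Y →
      P * a = a * P + w * U ∧ P * w + q * b = a * q + w * T ∧ U * a = b * U ∧
        U * w + T * b = b * T := by
    intro a w b h
    rw [hYe, blk] at h
    simp only [Matrix.reindex_apply, submatrix_mul_equiv, fromBlocks_multiply] at h
    have h' := (Matrix.reindex e e).injective (a₁ := fromBlocks _ _ _ _)
      (a₂ := fromBlocks _ _ _ _) (by simpa only [Matrix.reindex_apply] using h)
    rw [fromBlocks_inj] at h'
    simpa using h'
  have k1 := fun i => key _ _ _ (hY (Sum.inl (Sum.inl i)))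
  have k2 := fun i => key _ _ _ (hY (Sum.inl (Sum.inr i)))
  have k3 := fun j => key _ _ _ (hY (Sum.inr j))
  have hU : U = 0 := h₁ U (k1 0).2.2.1
  subst hU
  simp only [Matrix.mul_zero, Matrix.zero_mul, add_zero, zero_add] at k1 k2 k3
  obtain ⟨c, hc⟩ := sx P fun j => by
    rcases j with (i | i) | j
    · exact (k1 i).1
    · exact (k2 i).1
    · exact (k3 j).1
  obtain ⟨d, hd⟩ := sy T fun j => by
    rcases j with (i | i) | j
    · exact (k1 i).2.2.2
    · exact (k2 i).2.2.2
    · exact (k3 j).2.2.2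
  subst hc hd
  simp only [Matrix.smul_mul, Matrix.mul_smul, Matrix.one_mul, Matrix.mul_one] at k1 k2
  have hδ : δ q = (c - d) • p.1 := by
    refine Prod.ext (funext fun i => ?_) (funext fun i => ?_)
    · show x.1.1 i * q - q * y.1.1 i = (c - d) • p.1.1 i
      rw [sub_smul, sub_eq_sub_iff_add_eq_add]
      exact ((k1 i).2.1).symm
    · show x.1.2 i * q - q * y.1.2 i = (c - d) • p.1.2 i
      rw [sub_smul, sub_eq_sub_iff_add_eq_add]
      exact ((k2 i).2.1).symm
  have hcd : c = d := by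
    by_contra hne
    refine hp' ⟨((c - d)⁻¹ • q, p.2), ?_⟩
    show (δ ((c - d)⁻¹ • q), p.2) = p
    rw [map_smul, hδ, smul_smul, inv_mul_cancel₀ (sub_ne_zero.2 hne), one_smul]
  subst hcd
  have hq : q = 0 := h₂ q (by
    have h : x.1.1 0 * q - q * y.1.1 0 = (c - c) • p.1.1 0 := congrArg (fun w => w.1 0) hδ
    rw [sub_self, zero_smul, sub_eq_zero] at h
    exact h.symm)
  subst hq
  refine ⟨c, ?_⟩
  rw [hYe, show fromBlocks (c • (1 : Mat A ℂ)) 0 0 (c • (1 : Mat B ℂ)) = c • 1 by
    rw [← fromBlocks_one, fromBlocks_smul]; simp]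
  simp [Matrix.submatrix_smul]

/-- The representations with prescribed classes and determinants. -/
def InClass {g : ℕ} (δ : Tup (g + 2) ℂ) (K : Fin s → Mat r ℂ) (x : PTup (g + 2) s r) : Prop :=
  Good x.1 ∧ dets x.1 = δ ∧ OnK K x.2 ∧ prodP x = 1

theorem onK_extP (e : Fin A ⊕ Fin B ≃ Fin r) {K : Fin s → Mat r ℂ} {KA : Fin s → Mat A ℂ}
    {KB : Fin s → Mat B ℂ} (hK : OnK K fun j => blk e (KA j) 0 (KB j)) {a : Fin s → Mat A ℂ}
    (ha : OnK KA a) {b : Fin s → Mat B ℂ} (hb : OnK KB b)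
    (u : Fin s → Matrix (Fin A) (Fin B) ℂ) :
    OnK K fun j => blk e (a j) (a j * u j - u j * b j) (b j) := by
  intro j
  obtain ⟨S₁, hS₁, e₁⟩ := ha j
  obtain ⟨S₂, hS₂, e₂⟩ := hb j
  obtain ⟨G, hG, eG⟩ := hK j
  obtain ⟨hU, eU⟩ := unipotent_conj e (a j) (u j) (b j)
  refine ⟨blk e 1 (-(u j)) 1 * (blk e S₁ 0 S₂ * G), ?_, ?_⟩
  · rw [det_mul, det_mul]
    exact hU.mul ((isUnit_blk_det e hS₁ hS₂).mul hG)
  · have hd : blk e (a j) 0 (b j) = blk e S₁ 0 S₂ * blk e (KA j) 0 (KB j) * (blk e S₁ 0 S₂)⁻¹ := by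
      rw [blk_inv e hS₁ _ hS₂, e₁, e₂]
      simp [blk_mul]
    rw [show blk e (KA j) 0 (KB j) = G * K j * G⁻¹ from eG] at hd
    show blk e (a j) (a j * u j - u j * b j) (b j) = _
    rw [eU, hd, Matrix.mul_inv_rev, Matrix.mul_inv_rev]
    simp only [Matrix.mul_assoc]

/-- The induction on the rank, with prescribed determinants and classes. -/
theorem vanish {g : ℕ} : ∀ (r : ℕ) (δ : Tup (g + 2) ℂ) (K : Fin s → Mat r ℂ)
    (F : PTup (g + 2) s r → ℂ), Continuous F →
    (∀ x, InClass δ K x → ∀ S : Mat r ℂ, IsUnit S.det → F (conjP S x) = F x) →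
    (∀ x, InClass δ K x → SchurP x → F x = 0) →
    ∀ x, InClass δ K x → SemisimpleF (famP x) → F x = 0 := by
  intro r
  induction r using Nat.strong_induction_on with
  | _ r ih =>
  intro δ K F hF hinv h x hx hss
  by_cases hs : SchurP x
  · exact h x hx hs
  obtain ⟨A, B, e, S, a, b, hA, hB, hS, hab⟩ := exists_split _ hss hs
  obtain ⟨ssA, ssB⟩ := semisimple_blocks e hS hab hss
  set σ : PTup (g + 2) s A := ((fun i => a (Sum.inl (Sum.inl i)),
    fun i => a (Sum.inl (Sum.inr i))), fun j => a (Sum.inr j)) with hσdef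
  set ρ : PTup (g + 2) s B := ((fun i => b (Sum.inl (Sum.inl i)),
    fun i => b (Sum.inl (Sum.inr i))), fun j => b (Sum.inr j)) with hρdef
  have haσ : famP σ = a := by funext j; rcases j with (i | i) | j <;> rfl
  have hbρ : famP ρ = b := by funext j; rcases j with (i | i) | j <;> rfl
  have hAB : A + B = r := by simpa using Fintype.card_congr e
  have hconj : conjP S x = extP e σ 0 0 ρ := by
    rw [extP_zero]
    exact Prod.ext (Prod.ext (funext fun i => hab (Sum.inl (Sum.inl i)))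
      (funext fun i => hab (Sum.inl (Sum.inr i)))) (funext fun j => hab (Sum.inr j))
  have hc1 : conjT S x.1 = ext e σ.1 0 ρ.1 := congrArg Prod.fst hconj
  obtain ⟨hgσ, hgρ⟩ : Good σ.1 ∧ Good ρ.1 := by
    rw [← good_ext e 0, good_iff, ← hc1, dets_conjT hS]
    exact (good_iff x.1).1 hx.1
  have hdets : dets σ.1 * dets ρ.1 = δ := by
    rw [← dets_ext e σ.1 0 ρ.1, ← hc1, dets_conjT hS, hx.2.1]
  have hblocks : prodP σ = 1 ∧ prodP ρ = 1 := by
    have h1 : prodP (extP e σ 0 0 ρ) = 1 := by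
      rw [← hconj, prodP_conjP hS, hx.2.2.2, Matrix.mul_one, mul_nonsing_inv S hS]
    rw [prodP_diag e hgσ hgρ] at h1
    exact blocks_eq_one e h1
  have hKdiag : OnK K fun j => blk e (σ.2 j) 0 (ρ.2 j) := by
    intro j
    obtain ⟨G, hG, eG⟩ := hx.2.2.1 j
    refine ⟨S * G, by rw [det_mul]; exact hS.mul hG, ?_⟩
    show blk e (a (Sum.inr j)) 0 (b (Sum.inr j)) = _
    rw [← hab (Sum.inr j), Matrix.mul_inv_rev]
    show S * x.2 j * S⁻¹ = _
    rw [eG]
    simp only [Matrix.mul_assoc]
  have hcls : ∀ {σ' : PTup (g + 2) s A} {ρ' : PTup (g + 2) s B}, Good σ'.1 → Good ρ'.1 →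
      dets σ'.1 * dets ρ'.1 = δ → OnK σ.2 σ'.2 → OnK ρ.2 ρ'.2 → ∀ ξ u,
      prodP (extP e σ' ξ u ρ') = 1 → InClass δ K (extP e σ' ξ u ρ') :=
    fun h1 h2 h3 h4 h5 ξ u h6 =>
      ⟨(good_ext e ξ).2 ⟨h1, h2⟩, (dets_ext e _ ξ _).trans h3, onK_extP e hKdiag h4 h5 u, h6⟩
  -- shrinking the upper blocks
  have shrink : ∀ {σ' : PTup (g + 2) s A} {ρ' : PTup (g + 2) s B} {ξ u},
      InClass δ K (extP e σ' ξ u ρ') → F (extP e σ' 0 0 ρ') = F (extP e σ' ξ u ρ') := by
    intro σ' ρ' ξ u hp
    have hc : Continuous fun t : ℂ => F (extP e σ' (t • ξ) (t • u) ρ') :=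
      hF.comp (continuous_extP e continuous_const (continuous_id.smul continuous_const)
        (continuous_id.smul continuous_const) continuous_const)
    have hev : ∀ᶠ t in 𝓝[≠] (0 : ℂ),
        F (extP e σ' (t • ξ) (t • u) ρ') = F (extP e σ' ξ u ρ') := by
      filter_upwards [self_mem_nhdsWithin] with t ht
      rw [← conjP_scale e ht]
      refine hinv _ hp _ (isUnit_blk_det e ?_ (by simp))
      rw [det_smul, det_one, mul_one]
      exact (pow_ne_zero _ ht).isUnit
    have h0 := hc.tendsto 0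
    simp only [zero_smul] at h0
    exact tendsto_nhds_unique (h0.mono_left nhdsWithin_le_nhds)
      (tendsto_const_nhds.congr' (hev.mono fun t ht => ht.symm))
  -- the value at a block diagonal of two Schur representations
  have core : ∀ (σ' : PTup (g + 2) s A) (ρ' : PTup (g + 2) s B),
      InClass (dets σ.1) σ.2 σ' → InClass (dets ρ.1) ρ.2 ρ' →
      SchurP σ' → SchurP ρ' → F (extP e σ' 0 0 ρ') = 0 := by
    rintro σ' ρ' ⟨gσ, dσ, cσ, pσ⟩ ⟨gρ, dρ, cρ, pρ⟩ sσ sρ
    set v : ℕ → ℝ := fun j => 1 / ((j : ℝ) + 1) with hv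
    set c : ℕ → ℂ := fun j => Complex.exp ((B : ℂ) * v j) with hc
    set d : ℕ → ℂ := fun j => Complex.exp (-((A : ℂ) * v j)) with hd'
    have hc0 : ∀ j, c j ≠ 0 := fun j => Complex.exp_ne_zero _
    have hd0 : ∀ j, d j ≠ 0 := fun j => Complex.exp_ne_zero _
    have hprod : ∀ j, c j ^ A * d j ^ B = 1 := fun j => by
      rw [hc, hd', ← Complex.exp_nat_mul, ← Complex.exp_nat_mul, ← Complex.exp_add]
      convert Complex.exp_zero using 2
      ring
    have hinj : Function.Injective v := fun i j hij => by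
      simp only [hv, one_div, _root_.inv_inj, add_left_inj] at hij
      exact_mod_cast hij
    have hratio : ∀ (κ : ℝ), κ ≠ 0 →
        Function.Injective fun j => Complex.exp ((κ * v j : ℝ) : ℂ) := by
      intro κ hκ i j hij
      simp only [← Complex.ofReal_exp, Complex.ofReal_inj, Real.exp_eq_exp] at hij
      exact hinj (mul_left_cancel₀ hκ hij)
    have hM : IsUnit (σ'.1.1 0).det := (gσ.1 0).isUnit
    have hN : IsUnit (ρ'.1.1 0).det := (gρ.1 0).isUnit
    have hABpos : (0 : ℝ) < (A : ℝ) + B := by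
      have : (0 : ℝ) < A := by exact_mod_cast hA
      positivity
    have hf1 := (finite_inter hN (σ'.1.1 0)).preimage
      (hratio (-((A : ℝ) + B)) (neg_ne_zero.2 hABpos.ne')).injOn
    have hf2 := (finite_inter hM (ρ'.1.1 0)).preimage (hratio ((A : ℝ) + B) hABpos.ne').injOn
    have hev : ∀ᶠ j in atTop,
        F (extP e (tw (c j) σ'.1, σ'.2) 0 0 (tw (d j) ρ'.1, ρ'.2)) = 0 := by
      rw [← Nat.cofinite_eq_atTop]
      filter_upwards [hf1.compl_mem_cofinite, hf2.compl_mem_cofinite] with j hj1 hj2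
      have hdj : dets (tw (c j) σ'.1) * dets (tw (d j) ρ'.1) = δ := by
        rw [dets_tw, dets_tw, mul_mul_mul_comm, dσ, dρ, hdets]
        have h1 : ((Function.update 1 0 (c j ^ A), 1) : Tup (g + 2) ℂ) *
            ((Function.update 1 0 (d j ^ B), 1) : Tup (g + 2) ℂ) = 1 := by
          refine Prod.ext (funext fun i => ?_) (by simp)
          rcases eq_or_ne i 0 with rfl | hi
          · simpa using hprod j
          · simp [hi]
        rw [h1, one_mul]
      obtain ⟨η, u, hη, hηs⟩ := exists_schur_extP e hA hB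
        (x := ((tw (c j) σ'.1, σ'.2) : PTup (g + 2) s A))
        (y := ((tw (d j) ρ'.1, ρ'.2) : PTup (g + 2) s B))
        (good_tw (hc0 j) gσ) (good_tw (hd0 j) gρ)
        (by show prodC _ * _ = 1; rw [prodC_tw (hc0 j) gσ]; exact pσ)
        (by show prodC _ * _ = 1; rw [prodC_tw (hd0 j) gρ]; exact pρ)
        (schurP_tw (hc0 j) sσ) (schurP_tw (hd0 j) sρ)
        (fun T hT => by
          by_contra hne
          refine hj1 ⟨T, hne, ?_⟩
          simp only [tw, Function.update_self, Matrix.mul_smul, Matrix.smul_mul] at hT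
          have h := congrArg (fun M => (c j)⁻¹ • M) hT
          simp only [smul_smul, inv_mul_cancel₀ (hc0 j), one_smul] at h
          rw [h]
          congr 1
          simp only [hc, hd', ← Complex.exp_neg, ← Complex.exp_add]
          congr 1
          push_cast
          ring)
        (fun T hT => by
          by_contra hne
          refine hj2 ⟨T, hne, ?_⟩
          simp only [tw, Function.update_self, Matrix.mul_smul, Matrix.smul_mul] at hT
          have h := congrArg (fun M => (d j)⁻¹ • M) hT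
          simp only [smul_smul, inv_mul_cancel₀ (hd0 j), one_smul] at h
          rw [h]
          congr 1
          simp only [hc, hd', ← Complex.exp_neg, ← Complex.exp_add]
          congr 1
          push_cast
          ring)
      have hcl := hcls (σ' := (tw (c j) σ'.1, σ'.2)) (ρ' := (tw (d j) ρ'.1, ρ'.2))
        (good_tw (hc0 j) gσ) (good_tw (hd0 j) gρ) hdj cσ cρ η u hη
      rw [shrink hcl]
      exact h _ hcl hηs
    have hv0 : Tendsto v atTop (𝓝 0) := tendsto_one_div_add_atTop_nhds_zero_nat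
    have hcont : Continuous fun t : ℝ =>
        F (extP e (tw (Complex.exp ((B : ℂ) * t)) σ'.1, σ'.2) 0 0
          (tw (Complex.exp (-((A : ℂ) * t))) ρ'.1, ρ'.2)) := by
      refine hF.comp (continuous_extP e ?_ continuous_const continuous_const ?_) <;>
        exact ((continuous_const.update 0 (by fun_prop)).prodMk continuous_const).prodMk
          continuous_const
    have hlim := (hcont.tendsto 0).comp hv0
    simp only [Complex.ofReal_zero, mul_zero, neg_zero, Complex.exp_zero] at hlim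
    have htw : ∀ {k : ℕ} (y : Tup (g + 2) (Mat k ℂ)), tw (1 : ℂ) y = y := fun y => by
      simp [tw]
    rw [htw, htw] at hlim
    exact tendsto_nhds_unique hlim (tendsto_const_nhds.congr' (hev.mono fun j hj => hj.symm))
  -- the two inductions
  have hone : ∀ {k : ℕ} (c : Fin s → Mat k ℂ), OnK c c := fun c j =>
    ⟨1, by simp, by simp⟩
  have hdiagC : ∀ {σ' : PTup (g + 2) s A} {ρ' : PTup (g + 2) s B},
      InClass (dets σ.1) σ.2 σ' → InClass (dets ρ.1) ρ.2 ρ' →
      InClass δ K (extP e σ' 0 0 ρ') := fun h1 h2 =>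
    hcls h1.1 h2.1 (by rw [h1.2.1, h2.2.1, hdets]) h1.2.2.1 h2.2.2.1 0 0
      (by rw [prodP_diag e h1.1 h2.1, h1.2.2.2, h2.2.2.2, blk_one])
  have hσ0 : InClass (dets σ.1) σ.2 σ := ⟨hgσ, rfl, hone _, hblocks.1⟩
  have hρ0 : InClass (dets ρ.1) ρ.2 ρ := ⟨hgρ, rfl, hone _, hblocks.2⟩
  have hdiag : F (extP e σ 0 0 ρ) = 0 := by
    refine ih A (by omega) (dets σ.1) σ.2 (fun p => F (extP e p 0 0 ρ))
      (hF.comp (continuous_extP e continuous_id continuous_const continuous_const continuous_const))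
      (fun p hp T hT => ?_) (fun p hp sp => ?_) σ hσ0 (haσ ▸ ssA)
    · have h1 := hinv _ (hdiagC hp hρ0) _
        (isUnit_blk_det e hT (show IsUnit (1 : Mat B ℂ).det by simp))
      rw [conjP_diag e hT (by simp), conjP_one] at h1
      exact h1
    refine ih B (by omega) (dets ρ.1) ρ.2 (fun q => F (extP e p 0 0 q))
      (hF.comp (continuous_extP e continuous_const continuous_const continuous_const continuous_id))
      (fun q hq T hT => ?_) (fun q hq sq => core p q hp hq sp sq) ρ hρ0 (hbρ ▸ ssB)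
    have h1 := hinv _ (hdiagC hp hq) _
      (isUnit_blk_det e (show IsUnit (1 : Mat A ℂ).det by simp) hT)
    rw [conjP_diag e (by simp) hT, conjP_one] at h1
    exact h1
  rw [← hinv x hx S hS, hconj, hdiag]

end RedP

open RedP Red in
theorem vanish_of_schurP {g s r : ℕ} (hr : r ≠ 0) {K : Fin s → Mat r ℂ}
    (hK : ∀ j, (K j).det = 1) (F : PTup (g + 2) s r → ℂ) (hF : Continuous F)
    (hinv : ∀ x, RepK K x → ∀ S : Mat r ℂ, IsUnit S.det → F (conjP S x) = F x)
    (h : ∀ x, RepK K x → SchurP x → F x = 0) :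
    ∀ x, RepK K x → SemisimpleF (famP x) → F x = 0 := by
  have hrep : ∀ x : PTup (g + 2) s r, InClass 1 K x → RepK K x := fun x hx =>
    ⟨⟨fun i => congrFun (congrArg Prod.fst hx.2.1) i, fun i => congrFun (congrArg Prod.snd hx.2.1) i⟩,
      hx.2.2⟩
  intro x hx hss
  exact vanish r 1 K F hF (fun y hy => hinv y (hrep y hy)) (fun y hy => h y (hrep y hy)) x
    ⟨good_of_detOne hx.1, Prod.ext (funext hx.1.1) (funext hx.1.2), hx.2.1, hx.2.2⟩ hss

end Vale.Agent.P002
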