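import Vale.Agent.P002.Word

/-!
Slides of the first handle over the other handles and over the punctures.  On tuples whose second
matrix of the first handle is trivial they multiply the first matrix by an element of the others
and fix everything else.
-/

namespace Vale.Agent.P002

variable {M : Type*} [Monoid M] {k s : ℕ}

/-- A slide: over the first or the second kind of loop in a handle, or over an initial segment of
the punctures. -/
abbrev GIdx (k s : ℕ) : Type := (Fin k ⊕ Fin k) ⊕ Fin s

/-- The commutator of one handle. -/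
def cmt (inv : M → M) (t : Tup k M) (i : Fin k) : M :=
  t.1 i * t.2 i * inv (t.1 i) * inv (t.2 i)

/-- The product of the commutators before a handle. -/
def preS (inv : M → M) (t : Tup k M) (i : Fin k) : M :=
  ((List.ofFn (cmt inv t)).take i).prod

/-- What stands before the loop of a slide. -/
def gS (inv : M → M) (γ : GIdx k s) (t : Tup k M) : M :=
  Sum.elim (Sum.elim (preS inv t) (preS inv t)) (fun _ => rel inv t) γ

/-- The loop of a slide, seen from there. -/
def gW (inv : M → M) (γ : GIdx k s) (t : Tup k M) (c : Fin s → M) : M :=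
  Sum.elim (Sum.elim t.1 fun i => t.1 i * t.2 i * inv (t.1 i))
    (fun j : Fin s => ((List.ofFn c).take ((j : ℕ) + 1)).prod) γ

/-- The element by which a slide multiplies. -/
def gU (inv : M → M) (γ : GIdx k s) (t : Tup k M) (c : Fin s → M) : M :=
  gS inv γ t * gW inv γ t c * inv (gS inv γ t)

/-- The effect of a slide on the other handles; `Bi` is the inverse of `B`. -/
def updT : GIdx k s → M → M → Tup k M → Tup k M
  | Sum.inl (Sum.inl i), B, Bi, t =>
      (Function.update t.1 i (B * t.1 i * Bi), Function.update t.2 i (t.2 i * Bi))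
  | Sum.inl (Sum.inr i), B, _, t => (Function.update t.1 i (B * t.1 i), t.2)
  | Sum.inr _, _, _, t => t

/-- The effect of a slide on the puncture matrices. -/
def updC (γ : GIdx k s) (B Bi : M) (c : Fin s → M) : Fin s → M :=
  Sum.elim (fun _ => c)
    (fun (j : Fin s) (l : Fin s) => if l ≤ j then B * c l * Bi else c l) γ

/-- The effect of a slide on conjugators of the puncture matrices. -/
def updH (γ : GIdx k s) (B : M) (h : Fin s → M) : Fin s → M :=
  Sum.elim (fun _ => h)
    (fun (j : Fin s) (l : Fin s) => if l ≤ j then B * h l else h l) γ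

/-- The conjugate by which the other matrices are changed. -/
def gB (inv : M → M) (γ : GIdx k s) (t : Tup k M) (b : M) : M :=
  inv (gS inv γ t) * b * gS inv γ t

variable {n : ℕ}

/-- Apply a map to all matrices. -/
def mapCX {N : Type*} (h : M → N) (x : Tup n M × (Fin s → M)) : Tup n N × (Fin s → N) :=
  (mapTup h x.1, h ∘ x.2)

section Natural

variable {N : Type*} [Monoid N] (h : M →* N) (inv : M → M) (inv' : N → N)
  (hinv : ∀ a, h (inv a) = inv' (h a))

include hinv

theorem cmt_map (t : Tup k M) : cmt inv' (mapTup h t) = h ∘ cmt inv t := by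
  funext i
  simp [cmt, mapTup, hinv]

theorem preS_map (t : Tup k M) (i : Fin k) : preS inv' (mapTup h t) i = h (preS inv t i) := by
  simp only [preS, map_list_prod, List.map_take, List.map_ofFn, cmt_map h inv inv' hinv]

theorem gS_map (γ : GIdx k s) (t : Tup k M) : gS inv' γ (mapTup h t) = h (gS inv γ t) := by
  rcases γ with (i | i) | j
  · exact preS_map h inv inv' hinv t i
  · exact preS_map h inv inv' hinv t i
  · exact rel_map h inv inv' hinv t

theorem gU_map (γ : GIdx k s) (t : Tup k M) (c : Fin s → M) :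
    gU inv' γ (mapTup h t) (h ∘ c) = h (gU inv γ t c) := by
  simp only [gU, gS_map h inv inv' hinv, map_mul, hinv]
  congr 2
  rcases γ with (i | i) | j
  · rfl
  · simp [gW, mapTup, hinv]
  · simp [gW, map_list_prod, List.map_take, List.map_ofFn]

theorem gB_map (γ : GIdx k s) (t : Tup k M) (b : M) :
    gB inv' γ (mapTup h t) (h b) = h (gB inv γ t b) := by
  simp [gB, gS_map h inv inv' hinv, hinv]

end Natural

theorem updT_map {N : Type*} [Monoid N] (h : M →* N) (γ : GIdx k s) (B Bi : M) (t : Tup k M) :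
    updT γ (h B) (h Bi) (mapTup h t) = mapTup h (updT γ B Bi t) := by
  rcases γ with (i | i) | j
  · refine Prod.ext ?_ ?_ <;> simp [updT, mapTup, Function.comp_update]
  · refine Prod.ext ?_ ?_ <;> simp [updT, mapTup, Function.comp_update]
  · rfl

theorem updC_map {N : Type*} [Monoid N] (h : M →* N) (γ : GIdx k s) (B Bi : M) (c : Fin s → M) :
    updC γ (h B) (h Bi) (h ∘ c) = h ∘ updC γ B Bi c := by
  rcases γ with (i | i) | j
  · rfl
  · rfl
  · funext l
    by_cases hl : l ≤ j <;> simp [updC, hl]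

theorem updC_conj (γ : GIdx k s) (B : M) (h K : Fin s → M) (inv : M → M)
    (hinv : ∀ a, inv (B * a) = inv a * inv B) :
    updC γ B (inv B) (fun l => h l * K l * inv (h l)) =
      fun l => updH γ B h l * K l * inv (updH γ B h l) := by
  rcases γ with (i | i) | j
  · rfl
  · rfl
  · funext l
    by_cases hl : l ≤ j <;> simp [updC, updH, hl, hinv, mul_assoc]

/-! ### In a group -/

section Group

variable {G : Type*} [Group G]

private theorem list_prod_conj' (q : G) (l : List G) :
    (l.map fun x => q * x * q⁻¹).prod = q * l.prod * q⁻¹ := by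
  induction l with
  | nil => simp
  | cons a l ih => simp only [List.map_cons, List.prod_cons, ih]; group

theorem updT_updT (γ : GIdx k s) (B : G) (t : Tup k G) :
    updT γ B⁻¹ B (updT γ B B⁻¹ t) = t := by
  rcases γ with (i | i) | j
  · refine Prod.ext ?_ ?_ <;> simp [updT, mul_assoc]
  · refine Prod.ext ?_ ?_ <;> simp [updT]
  · rfl

theorem updC_updC (γ : GIdx k s) (B : G) (c : Fin s → G) :
    updC γ B⁻¹ B (updC γ B B⁻¹ c) = c := by
  rcases γ with (i | i) | j
  · rfl
  · rfl
  · funext l
    by_cases hl : l ≤ j <;> simp [updC, hl, mul_assoc]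

private theorem preS_update (t t' : Tup k G) (i : Fin k)
    (h : ∀ l, l ≠ i → t'.1 l = t.1 l ∧ t'.2 l = t.2 l) :
    preS (fun a => a⁻¹) t' i = preS (fun a => a⁻¹) t i := by
  simp only [preS]
  congr 1
  refine List.ext_getElem (by simp) fun l h1 h2 => ?_
  have hl : l < (i : ℕ) := by simp at h1; omega
  have hne : (⟨l, hl.trans i.isLt⟩ : Fin k) ≠ i := fun e => hl.ne (congrArg Fin.val e)
  simp [cmt, (h _ hne).1, (h _ hne).2]

theorem gS_updT (γ : GIdx k s) (B Bi : G) (t : Tup k G) :
    gS (fun a => a⁻¹) γ (updT γ B Bi t) = gS (fun a => a⁻¹) γ t := by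
  rcases γ with (i | i) | j
  · exact preS_update _ _ i fun l hl => by simp [updT, hl]
  · exact preS_update _ _ i fun l hl => by simp [updT, hl]
  · rfl

private theorem relG_update (t t' : Tup k G) (i : Fin k)
    (h : ∀ l, l ≠ i → t'.1 l = t.1 l ∧ t'.2 l = t.2 l) (D : G)
    (hi : cmt (fun a => a⁻¹) t' i = D * cmt (fun a => a⁻¹) t i) :
    relG t' = preS (fun a => a⁻¹) t i * D * (preS (fun a => a⁻¹) t i)⁻¹ * relG t := by
  have e : List.ofFn (cmt (fun a => a⁻¹) t') =
      (List.ofFn (cmt (fun a => a⁻¹) t)).set i (D * cmt (fun a => a⁻¹) t i) := by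
    refine List.ext_getElem (by simp) fun l h1 h2 => ?_
    rw [List.getElem_set]
    by_cases hl : (i : ℕ) = l
    · subst hl; simp [hi]
    · have hne : (⟨l, by simpa using h1⟩ : Fin k) ≠ i := fun e => hl (congrArg Fin.val e).symm
      simp [hl, cmt, (h _ hne).1, (h _ hne).2]
  have e0 : relG t = preS (fun a => a⁻¹) t i * cmt (fun a => a⁻¹) t i *
      ((List.ofFn (cmt (fun a => a⁻¹) t)).drop (i + 1)).prod := by
    have h2 := List.prod_set (List.ofFn (cmt (fun a => a⁻¹) t)) i (cmt (fun a => a⁻¹) t i)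
    rw [if_pos (by simp), show (List.ofFn (cmt (fun a => a⁻¹) t)).set i
      (cmt (fun a => a⁻¹) t i) = List.ofFn (cmt (fun a => a⁻¹) t) by
        refine List.ext_getElem (by simp) fun l h1 h2 => ?_
        rw [List.getElem_set]
        by_cases hl : (i : ℕ) = l
        · subst hl; simp
        · simp [hl]] at h2
    exact h2
  change (List.ofFn (cmt (fun a => a⁻¹) t')).prod = _
  rw [e, List.prod_set, if_pos (by simp), e0]
  simp only [preS]
  group

/-- The relation after changing the other matrices. -/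
theorem relG_updT_mul (γ : GIdx k s) (B : G) (t : Tup k G) (c : Fin s → G) :
    relG (updT γ B B⁻¹ t) * (List.ofFn (updC γ B B⁻¹ c)).prod =
      gS (fun a => a⁻¹) γ t * (B * gW (fun a => a⁻¹) γ t c * B⁻¹ *
        (gW (fun a => a⁻¹) γ t c)⁻¹) * (gS (fun a => a⁻¹) γ t)⁻¹ *
        (relG t * (List.ofFn c).prod) := by
  rcases γ with (i | i) | j
  · rw [relG_update t _ i (fun l hl => by simp [updT, hl]) (B * t.1 i * B⁻¹ * (t.1 i)⁻¹) (by
      simp only [cmt, updT, Function.update_self]; group)]
    simp [gS, gW, updC, mul_assoc]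
  · rw [relG_update t _ i (fun l hl => by simp [updT, hl])
      (B * (t.1 i * t.2 i * (t.1 i)⁻¹) * B⁻¹ * (t.1 i * t.2 i * (t.1 i)⁻¹)⁻¹) (by
      simp only [cmt, updT, Function.update_self]; group)]
    simp [gS, gW, updC, mul_assoc]
  · have e : List.ofFn (updC (Sum.inr j : GIdx k s) B B⁻¹ c) =
        (((List.ofFn c).take (j + 1)).map fun x => B * x * B⁻¹) ++
          (List.ofFn c).drop (j + 1) := by
      refine List.ext_getElem (by simp) fun l h1 h2 => ?_
      rw [List.getElem_append]
      have hls : l < s := by simpa using h1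
      by_cases hl : l ≤ (j : ℕ)
      · have hl' : (⟨l, hls⟩ : Fin s) ≤ j := hl
        rw [dif_pos (by simp; omega)]
        simp [updC, hl']
      · have hl' : ¬ (⟨l, hls⟩ : Fin s) ≤ j := hl
        rw [dif_neg (by simp; omega)]
        simp [updC, hl', List.getElem_drop]
        congr 1
        ext
        simp
        omega
    rw [e, List.prod_append, list_prod_conj', ← List.prod_take_mul_prod_drop (List.ofFn c) (j + 1)]
    simp only [gS, gW, updT, Sum.elim_inr]
    change relG t * _ = relG t * _ * (relG t)⁻¹ * _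
    group

/-- The slide. -/
def slideX (inv : M → M) (γ : GIdx k s) (x : Tup (k + 1) M × (Fin s → M)) :
    Tup (k + 1) M × (Fin s → M) :=
  let t : Tup k M := (Fin.tail x.1.1, Fin.tail x.1.2)
  let u := gU inv γ t x.2
  let B := gB inv γ t (inv u * x.1.2 0 * u)
  ((Fin.cons (x.1.1 0 * u) (updT γ B (inv B) t).1,
    Fin.cons (inv u * x.1.2 0 * u) (updT γ B (inv B) t).2), updC γ B (inv B) x.2)

/-- The inverse slide. -/
def unslideX (inv : M → M) (γ : GIdx k s) (x : Tup (k + 1) M × (Fin s → M)) :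
    Tup (k + 1) M × (Fin s → M) :=
  let B := gB inv γ (Fin.tail x.1.1, Fin.tail x.1.2) (x.1.2 0)
  let t := updT γ (inv B) B ((Fin.tail x.1.1, Fin.tail x.1.2) : Tup k M)
  let c := updC γ (inv B) B x.2
  let u := gU inv γ t c
  ((Fin.cons (x.1.1 0 * inv u) t.1, Fin.cons (u * x.1.2 0 * inv u) t.2), c)

theorem unslideX_slideX (γ : GIdx k s) (x : Tup (k + 1) G × (Fin s → G)) :
    unslideX (fun a => a⁻¹) γ (slideX (fun a => a⁻¹) γ x) = x := by
  obtain ⟨⟨a, b⟩, c⟩ := x
  simp only [unslideX, slideX, Fin.tail_cons, Fin.cons_zero, gB, Prod.mk.eta, gS_updT,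
    updT_updT, updC_updC]
  refine Prod.ext (Prod.ext ?_ ?_) rfl
  · simp [mul_assoc]
  · simp [mul_assoc]

/-- The left hand side of the relation is unchanged. -/
theorem relG_slideX (γ : GIdx k s) (x : Tup (k + 1) G × (Fin s → G)) :
    relG (slideX (fun a => a⁻¹) γ x).1 * (List.ofFn (slideX (fun a => a⁻¹) γ x).2).prod =
      relG x.1 * (List.ofFn x.2).prod := by
  obtain ⟨⟨a, b⟩, c⟩ := x
  have hsucc : ∀ p : Tup (k + 1) G, relG p = p.1 0 * p.2 0 * (p.1 0)⁻¹ * (p.2 0)⁻¹ *
      relG ((Fin.tail p.1, Fin.tail p.2) : Tup k G) := fun p => by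
    simp [relG, rel, List.ofFn_succ, Fin.tail]
  simp only [hsucc, slideX, Fin.cons_zero, Fin.tail_cons, Prod.mk.eta]
  rw [mul_assoc, relG_updT_mul]
  simp only [gB, gU]
  generalize gS (fun a => a⁻¹) γ ((Fin.tail a, Fin.tail b) : Tup k G) = S
  generalize gW (fun a => a⁻¹) γ ((Fin.tail a, Fin.tail b) : Tup k G) c = W
  generalize relG ((Fin.tail a, Fin.tail b) : Tup k G) = R
  generalize (List.ofFn c).prod = P
  group

theorem slideX_unslideX (γ : GIdx k s) (x : Tup (k + 1) G × (Fin s → G)) :
    slideX (fun a => a⁻¹) γ (unslideX (fun a => a⁻¹) γ x) = x := by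
  obtain ⟨⟨a, b⟩, c⟩ := x
  simp only [unslideX, slideX, Fin.tail_cons, Fin.cons_zero, Prod.mk.eta]
  set B := gB (fun a => a⁻¹) γ ((Fin.tail a, Fin.tail b) : Tup k G) (b 0) with hB
  set t := updT γ B⁻¹ B ((Fin.tail a, Fin.tail b) : Tup k G) with ht
  set u := gU (fun a => a⁻¹) γ t (updC γ B⁻¹ B c) with hu
  have e1 : u⁻¹ * (u * b 0 * u⁻¹) * u = b 0 := by group
  have e2 : gB (fun a => a⁻¹) γ t (b 0) = B := by
    simp only [gB, ht, gS_updT, hB]
  have h1 : updT γ B B⁻¹ t = (Fin.tail a, Fin.tail b) := by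
    have h := updT_updT γ B⁻¹ ((Fin.tail a, Fin.tail b) : Tup k G)
    rwa [inv_inv] at h
  have h2 : updC γ B B⁻¹ (updC γ B⁻¹ B c) = c := by
    have h := updC_updC γ B⁻¹ c
    rwa [inv_inv] at h
  rw [e1, e2, h1, h2]
  simp [mul_assoc]

theorem relG_unslideX (γ : GIdx k s) (x : Tup (k + 1) G × (Fin s → G)) :
    relG (unslideX (fun a => a⁻¹) γ x).1 * (List.ofFn (unslideX (fun a => a⁻¹) γ x).2).prod =
      relG x.1 * (List.ofFn x.2).prod := by
  rw [← relG_slideX γ, slideX_unslideX]

end Group

section Natural2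

variable {N : Type*} [Monoid N] (h : M →* N) (inv : M → M) (inv' : N → N)
  (hinv : ∀ a, h (inv a) = inv' (h a))

include hinv

theorem slideX_map (γ : GIdx k s) (x : Tup (k + 1) M × (Fin s → M)) :
    slideX inv' γ (mapCX h x) = mapCX h (slideX inv γ x) := by
  have et : ((Fin.tail (mapCX h x).1.1, Fin.tail (mapCX h x).1.2) : Tup k N) =
      mapTup h ((Fin.tail x.1.1, Fin.tail x.1.2) : Tup k M) := rfl
  simp only [slideX, et]
  simp only [mapCX, mapTup, Function.comp_apply]
  set t : Tup k M := (Fin.tail x.1.1, Fin.tail x.1.2)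
  set u := gU inv γ t x.2
  set B := gB inv γ t (inv u * x.1.2 0 * u)
  have hu : gU inv' γ (h ∘ t.1, h ∘ t.2) (h ∘ x.2) = h u := gU_map h inv inv' hinv γ t x.2
  rw [hu, ← hinv, ← map_mul h (inv u), ← map_mul h (inv u * x.1.2 0), ← map_mul h (x.1.1 0)]
  have hB : gB inv' γ (h ∘ t.1, h ∘ t.2) (h (inv u * x.1.2 0 * u)) = h B :=
    gB_map h inv inv' hinv γ t _
  rw [hB, ← hinv, updC_map h γ B (inv B) x.2]
  have hT : updT γ (h B) (h (inv B)) (h ∘ t.1, h ∘ t.2) = mapTup h (updT γ B (inv B) t) :=
    updT_map h γ B (inv B) t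
  rw [hT]
  simp only [mapTup, Fin.comp_cons]

theorem unslideX_map (γ : GIdx k s) (x : Tup (k + 1) M × (Fin s → M)) :
    unslideX inv' γ (mapCX h x) = mapCX h (unslideX inv γ x) := by
  have et : ((Fin.tail (mapCX h x).1.1, Fin.tail (mapCX h x).1.2) : Tup k N) =
      mapTup h ((Fin.tail x.1.1, Fin.tail x.1.2) : Tup k M) := rfl
  simp only [unslideX, et]
  simp only [mapCX, mapTup, Function.comp_apply]
  set t0 : Tup k M := (Fin.tail x.1.1, Fin.tail x.1.2)
  have hB : gB inv' γ (h ∘ t0.1, h ∘ t0.2) (h (x.1.2 0)) = h (gB inv γ t0 (x.1.2 0)) :=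
    gB_map h inv inv' hinv γ t0 _
  rw [hB, ← hinv, updC_map h γ _ _ x.2]
  set B := gB inv γ t0 (x.1.2 0)
  have hT : updT γ (h (inv B)) (h B) (h ∘ t0.1, h ∘ t0.2) = mapTup h (updT γ (inv B) B t0) :=
    updT_map h γ (inv B) B t0
  rw [hT, gU_map h inv inv' hinv]
  simp only [mapTup, Fin.comp_cons, map_mul, hinv]

end Natural2

end Vale.Agent.P002
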