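import Vale.Agent.P002.Punct.Basic
import Vale.Agent.P002.Punct.Slide

/-!
The closure of the integral representations with prescribed classes: slides, twist flows and the
family in which one handle is `(A, 1)`.
-/

namespace Vale.Agent.P002

open Matrix MvPolynomial
open scoped Matrix.Norms.Operator

variable {n k s r : ℕ}

/-- The coordinates over any ring. -/
def coordsQ {R : Type*} (x : Tup n (Mat r R) × (Fin s → Mat r R)) : VarP n s r → R :=
  Sum.elim (coords x.1) fun v => x.2 v.1 v.2.1 v.2.2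

theorem coordsQ_eq (x : PTup n s r) : coordsQ x = coordsP x := rfl

/-- Apply a ring map to all entries. -/
def mapQ {R S : Type*} [CommRing R] [CommRing S] (φ : R →+* S)
    (x : Tup n (Mat r R) × (Fin s → Mat r R)) : Tup n (Mat r S) × (Fin s → Mat r S) :=
  mapCX φ.mapMatrix x

theorem coordsQ_mapQ {R S : Type*} [CommRing R] [CommRing S] (φ : R →+* S)
    (x : Tup n (Mat r R) × (Fin s → Mat r R)) : coordsQ (mapQ φ x) = φ ∘ coordsQ x := by
  funext v
  rcases v with (v | v) | v <;> simp [coordsQ, coords, mapQ, mapCX, mapTup]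

/-- The generic tuple. -/
noncomputable def genQ (n s r : ℕ) :
    Tup n (Mat r (MvPolynomial (VarP n s r) ℂ)) × (Fin s → Mat r (MvPolynomial (VarP n s r) ℂ)) :=
  ((fun i => Matrix.of fun j k => X (Sum.inl (Sum.inl (i, j, k))),
    fun i => Matrix.of fun j k => X (Sum.inl (Sum.inr (i, j, k)))),
    fun i => Matrix.of fun j k => X (Sum.inr (i, j, k)))

theorem mapQ_genQ (x : PTup n s r) : mapQ (eval (coordsP x)) (genQ n s r) = x := by
  refine Prod.ext (Prod.ext (funext fun i => ?_) (funext fun i => ?_)) (funext fun i => ?_) <;>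
    ext j k <;> simp [mapQ, mapCX, mapTup, genQ, coordsP, coords]

variable (K : Fin s → Mat r ℂ) (L : IntermediateField ℚ ℂ)

/-- The integers of `L`. -/
noncomputable def intRing : Subring ℂ := (integralClosure ℤ ℂ).toSubring ⊓ L.toSubfield.toSubring

theorem mem_intRing {z : ℂ} : z ∈ intRing L ↔ z ∈ L ∧ IsIntegral ℤ z :=
  ⟨fun h => ⟨h.2, h.1⟩, fun h => ⟨h.2, h.1⟩⟩

variable {K L}

theorem intP_iff {x : PTup n s r} :
    IntP L x ↔ ∃ y : Tup n (Mat r (intRing L)) × (Fin s → Mat r (intRing L)),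
      mapQ (intRing L).subtype y = x := by
  constructor
  · intro h
    refine ⟨((fun i => Matrix.of fun j k => ⟨_, (mem_intRing L).2 (h (Sum.inl (Sum.inl (i, j, k))))⟩,
      fun i => Matrix.of fun j k => ⟨_, (mem_intRing L).2 (h (Sum.inl (Sum.inr (i, j, k))))⟩),
      fun i => Matrix.of fun j k => ⟨_, (mem_intRing L).2 (h (Sum.inr (i, j, k)))⟩), ?_⟩
    refine Prod.ext (Prod.ext (funext fun i => ?_) (funext fun i => ?_)) (funext fun i => ?_) <;>
      ext j k <;> simp [mapQ, mapCX, mapTup, coordsP, coords]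
  · rintro ⟨y, rfl⟩ v
    rw [← coordsQ_eq, coordsQ_mapQ]
    exact (mem_intRing L).1 (coordsQ y v).2

/-- A natural family of maps preserving the representations preserves the closure. -/
theorem zsetP_natural
    (F : ∀ (R : Type) [CommRing R], Tup n (Mat r R) × (Fin s → Mat r R) →
      Tup n (Mat r R) × (Fin s → Mat r R))
    (hF : ∀ (R S : Type) [CommRing R] [CommRing S] (φ : R →+* S)
      (p : Tup n (Mat r R) × (Fin s → Mat r R)), F S (mapQ φ p) = mapQ φ (F R p))
    (hrep : ∀ q : PTup n s r, RepK K q → RepK K (F ℂ q))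
    {x : PTup n s r} (hx : x ∈ ZsetP K L n) : F ℂ x ∈ ZsetP K L n := by
  intro f hf
  have key : ∀ y : PTup n s r, eval (coordsP (F ℂ y)) f =
      eval (coordsP y) (bind₁ (coordsQ (F _ (genQ n s r))) f) := fun y => by
    have e : coordsP (F ℂ y) = fun v => eval (coordsP y) (coordsQ (F _ (genQ n s r)) v) := by
      conv_lhs => rw [← mapQ_genQ y, hF _ _ (eval (coordsP y)) (genQ n s r), ← coordsQ_eq]
      rw [coordsQ_mapQ]
      rfl
    rw [e]
    exact (eval₂Hom_bind₁ (RingHom.id ℂ) (coordsP y) _ f).symm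
  rw [key]
  refine hx _ fun q hq hqi => ?_
  rw [← key]
  refine hf _ (hrep q hq) ?_
  obtain ⟨y, rfl⟩ := intP_iff.1 hqi
  exact intP_iff.2 ⟨F _ y, (hF _ _ (intRing L).subtype y).symm⟩

theorem detOne_of_mem_zsetP {x : PTup n s r} (hx : x ∈ ZsetP K L n) : DetOne x.1 := by
  constructor <;> intro i
  · have e : ∀ y : PTup n s r, eval (coordsP y) (((genQ n s r).1.1 i).det - 1) =
        (y.1.1 i).det - 1 := fun y => by
      rw [map_sub, map_one, RingHom.map_det]
      exact congrArg (fun z : PTup n s r => (z.1.1 i).det - 1) (mapQ_genQ y)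
    refine sub_eq_zero.1 ((e x).symm.trans (hx _ fun q hq _ => ?_))
    rw [e, hq.1.1 i, sub_self]
  · have e : ∀ y : PTup n s r, eval (coordsP y) (((genQ n s r).1.2 i).det - 1) =
        (y.1.2 i).det - 1 := fun y => by
      rw [map_sub, map_one, RingHom.map_det]
      exact congrArg (fun z : PTup n s r => (z.1.2 i).det - 1) (mapQ_genQ y)
    refine sub_eq_zero.1 ((e x).symm.trans (hx _ fun q hq _ => ?_))
    rw [e, hq.1.2 i, sub_self]

/-! ### Continuity -/

theorem contDiff_evalP (P : MvPolynomial (VarP n s r) ℂ) :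
    ContDiff ℂ 1 (fun x : PTup n s r => eval (coordsP x) P) := by
  induction P using MvPolynomial.induction_on with
  | C a => simpa using contDiff_const
  | add P Q hP hQ => simpa using hP.add hQ
  | mul_X P v hP =>
    have hv : ContDiff ℂ 1 (fun x : PTup n s r => coordsP x v) := by
      rcases v with (v | v) | v
      · exact ((Matrix.entryLinearMap ℂ ℂ v.2.1 v.2.2).toContinuousLinearMap.contDiff).comp
          ((contDiff_apply ℂ (Mat r ℂ) v.1).comp contDiff_fst.fst)
      · exact ((Matrix.entryLinearMap ℂ ℂ v.2.1 v.2.2).toContinuousLinearMap.contDiff).comp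
          ((contDiff_apply ℂ (Mat r ℂ) v.1).comp contDiff_fst.snd)
      · exact ((Matrix.entryLinearMap ℂ ℂ v.2.1 v.2.2).toContinuousLinearMap.contDiff).comp
          ((contDiff_apply ℂ (Mat r ℂ) v.1).comp contDiff_snd)
    simpa using hP.mul hv

theorem isClosed_zsetP : IsClosed (ZsetP K L n) := by
  have : ZsetP K L n = ⋂ f ∈ {f : MvPolynomial (VarP n s r) ℂ |
      ∀ q : PTup n s r, RepK K q → IntP L q → eval (coordsP q) f = 0},
      {x | eval (coordsP x) f = 0} := by
    ext x
    simp [ZsetP]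
  rw [this]
  exact isClosed_biInter fun f _ => isClosed_eq (contDiff_evalP f).continuous continuous_const

/-! ### Slides -/

/-- Lift a tuple of determinant one to the special linear group. -/
theorem exists_lift {x : PTup n s r} (hd : DetOne x.1) (hc : ∀ j, (x.2 j).det = 1) :
    ∃ q : Tup n (SpecialLinearGroup (Fin r) ℂ) × (Fin s → SpecialLinearGroup (Fin r) ℂ),
      mapCX (slCoe r ℂ) q = x :=
  ⟨((fun i => ⟨x.1.1 i, hd.1 i⟩, fun i => ⟨x.1.2 i, hd.2 i⟩), fun j => ⟨x.2 j, hc j⟩), rfl⟩

theorem prodP_mapCX (q : Tup n (SpecialLinearGroup (Fin r) ℂ) ×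
    (Fin s → SpecialLinearGroup (Fin r) ℂ)) :
    prodP (mapCX (slCoe r ℂ) q) = slCoe r ℂ (relG q.1 * (List.ofFn q.2).prod) := by
  rw [prodP, map_mul, map_list_prod, List.map_ofFn, prodC]
  congr 1
  exact rel_map (slCoe r ℂ) _ (fun a : Mat r ℂ => a⁻¹)
    (fun a => (slCoe_inv a).trans (adjugate_eq_inv a.2).symm) q.1

theorem onK_updC {c : Fin s → Mat r ℂ} (hc : OnK K c) (γ : GIdx k s) {B : Mat r ℂ}
    (hB : B.det = 1) : OnK K (updC γ B (adjugate B) c) := by
  intro j
  obtain ⟨h, hu, e⟩ := hc j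
  rcases γ with γ | i
  · exact ⟨h, hu, e⟩
  · simp only [updC, Sum.elim_inr]
    split_ifs
    · refine ⟨B * h, by rw [det_mul, hB, one_mul]; exact hu, ?_⟩
      rw [e, Matrix.mul_inv_rev, adjugate_eq_inv hB]
      simp [mul_assoc]
    · exact ⟨h, hu, e⟩

theorem repK_slideX (hK : ∀ j, (K j).det = 1) (γ : GIdx k s) {x : PTup (k + 1) s r}
    (hx : RepK K x) : RepK K (slideX adjugate γ x) ∧ RepK K (unslideX adjugate γ x) := by
  obtain ⟨q, hq⟩ := exists_lift hx.1 (det_puncture hK hx.2.1)
  have hnat : ∀ a : SpecialLinearGroup (Fin r) ℂ, slCoe r ℂ a⁻¹ = adjugate (slCoe r ℂ a) :=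
    slCoe_inv
  have hrel : relG q.1 * (List.ofFn q.2).prod = 1 := by
    refine Subtype.ext ?_
    have h := hx.2.2
    rw [← hq, prodP_mapCX] at h
    exact h
  have hd : ∀ q' : Tup (k + 1) (SpecialLinearGroup (Fin r) ℂ) ×
      (Fin s → SpecialLinearGroup (Fin r) ℂ), DetOne (mapCX (slCoe r ℂ) q').1 :=
    fun q' => ⟨fun i => (q'.1.1 i).2, fun i => (q'.1.2 i).2⟩
  constructor
  · have e := slideX_map (slCoe r ℂ) _ adjugate hnat γ q
    rw [hq] at e
    refine ⟨by rw [e]; exact hd _, ?_, by rw [e, prodP_mapCX, relG_slideX, hrel, map_one]⟩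
    have hB : (gB adjugate γ ((Fin.tail x.1.1, Fin.tail x.1.2) : Tup k (Mat r ℂ))
        (adjugate (gU adjugate γ (Fin.tail x.1.1, Fin.tail x.1.2) x.2) * x.1.2 0 *
          gU adjugate γ (Fin.tail x.1.1, Fin.tail x.1.2) x.2)).det = 1 := by
      rw [← hq]
      simp only [mapCX, mapTup]
      rw [show ((Fin.tail (slCoe r ℂ ∘ q.1.1), Fin.tail (slCoe r ℂ ∘ q.1.2)) : Tup k (Mat r ℂ)) =
        mapTup (slCoe r ℂ) (Fin.tail q.1.1, Fin.tail q.1.2) from rfl,
        gU_map (slCoe r ℂ) _ adjugate hnat, ← hnat, Function.comp_apply, ← map_mul, ← map_mul,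
        gB_map (slCoe r ℂ) _ adjugate hnat]
      exact Matrix.SpecialLinearGroup.det_coe _
    exact onK_updC hx.2.1 γ hB
  · have e := unslideX_map (slCoe r ℂ) _ adjugate hnat γ q
    rw [hq] at e
    refine ⟨by rw [e]; exact hd _, ?_, by rw [e, prodP_mapCX, relG_unslideX, hrel, map_one]⟩
    have hB : (gB adjugate γ ((Fin.tail x.1.1, Fin.tail x.1.2) : Tup k (Mat r ℂ))
        (x.1.2 0)).det = 1 := by
      rw [← hq]
      simp only [mapCX, mapTup]
      rw [show ((Fin.tail (slCoe r ℂ ∘ q.1.1), Fin.tail (slCoe r ℂ ∘ q.1.2)) : Tup k (Mat r ℂ)) =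
        mapTup (slCoe r ℂ) (Fin.tail q.1.1, Fin.tail q.1.2) from rfl, Function.comp_apply,
        gB_map (slCoe r ℂ) _ adjugate hnat]
      exact Matrix.SpecialLinearGroup.det_coe _
    simp only [unslideX]
    set B := gB adjugate γ ((Fin.tail x.1.1, Fin.tail x.1.2) : Tup k (Mat r ℂ)) (x.1.2 0)
    have h1 : (adjugate B).det = 1 := by rw [det_adjugate, hB, one_pow]
    have h2 : adjugate (adjugate B) = B := by
      rw [← adjugate_eq_inv h1, ← adjugate_eq_inv hB]
      exact Matrix.nonsing_inv_nonsing_inv B (by rw [hB]; exact isUnit_one)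
    have h3 := onK_updC hx.2.1 γ h1
    rwa [h2] at h3

theorem slideX_mapQ {R S : Type} [CommRing R] [CommRing S] (φ : R →+* S) (γ : GIdx k s)
    (p : Tup (k + 1) (Mat r R) × (Fin s → Mat r R)) :
    slideX adjugate γ (mapQ φ p) = mapQ φ (slideX adjugate γ p) :=
  slideX_map (φ.mapMatrix : Mat r R →+* Mat r S).toMonoidHom adjugate adjugate
    (fun a => φ.map_adjugate a) γ p

theorem unslideX_mapQ {R S : Type} [CommRing R] [CommRing S] (φ : R →+* S) (γ : GIdx k s)
    (p : Tup (k + 1) (Mat r R) × (Fin s → Mat r R)) :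
    unslideX adjugate γ (mapQ φ p) = mapQ φ (unslideX adjugate γ p) :=
  unslideX_map (φ.mapMatrix : Mat r R →+* Mat r S).toMonoidHom adjugate adjugate
    (fun a => φ.map_adjugate a) γ p

theorem zsetP_slideX (hK : ∀ j, (K j).det = 1) (γ : GIdx k s) {x : PTup (k + 1) s r}
    (hx : x ∈ ZsetP K L (k + 1)) : slideX adjugate γ x ∈ ZsetP K L (k + 1) :=
  zsetP_natural (fun _ _ => slideX adjugate γ) (fun _ _ _ _ φ p => slideX_mapQ φ γ p)
    (fun _ hq => (repK_slideX hK γ hq).1) hx

theorem zsetP_unslideX (hK : ∀ j, (K j).det = 1) (γ : GIdx k s) {x : PTup (k + 1) s r}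
    (hx : x ∈ ZsetP K L (k + 1)) : unslideX adjugate γ x ∈ ZsetP K L (k + 1) :=
  zsetP_natural (fun _ _ => unslideX adjugate γ) (fun _ _ _ _ φ p => unslideX_mapQ φ γ p)
    (fun _ hq => (repK_slideX hK γ hq).2) hx

/-! ### Twists and their flows -/

/-- The flow extending the twist of the first handle. -/
noncomputable def flowP (t : ℂ) (x : PTup (k + 1) s r) : PTup (k + 1) s r :=
  ((x.1.1, Function.update x.1.2 0 (x.1.2 0 * NormedSpace.exp (t • pw (x.1.1 0) 1))), x.2)

theorem prodC_twist {y : Tup n (Mat r ℂ)} (hy : DetOne y) (i : Fin n) :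
    prodC (twist i y) = prodC y := by
  obtain ⟨q, rfl⟩ := (detOne_iff y).1 hy
  have h : ∀ q : Tup n (SpecialLinearGroup (Fin r) ℂ),
      rel (fun a : Mat r ℂ => a⁻¹) (mapTup (slCoe r ℂ) q) = slCoe r ℂ (relG q) := fun q =>
    rel_map (slCoe r ℂ) (fun a => a⁻¹) (fun a : Mat r ℂ => a⁻¹)
      (fun a => (slCoe_inv a).trans (adjugate_eq_inv a.2).symm) q
  rw [toMat, twist_map (slCoe r ℂ) i q, prodC, prodC, h, h]
  exact congrArg _ (relG_twist i q)

theorem zsetP_twist {x : PTup (k + 1) s r} (hx : x ∈ ZsetP K L (k + 1)) :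
    (twist 0 x.1, x.2) ∈ ZsetP K L (k + 1) :=
  zsetP_natural (fun _ _ p => (twist 0 p.1, p.2))
    (fun R S _ _ φ p => Prod.ext (twist_map (φ.mapMatrix : Mat r R →+* Mat r S).toMonoidHom 0 p.1)
      rfl)
    (fun q hq => by
      refine ⟨⟨hq.1.1, fun i => ?_⟩, hq.2.1, ?_⟩
      · by_cases h : i = 0
        · subst h; simp [twist, hq.1.1 0, hq.1.2 0]
        · simp [twist, h, hq.1.2 i]
      · have h := hq.2.2
        simp only [prodP] at h ⊢
        rwa [prodC_twist hq.1]) hx

theorem zsetP_twist_iterate (N : ℕ) {x : PTup (k + 1) s r} (hx : x ∈ ZsetP K L (k + 1)) :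
    (((x.1.1, Function.update x.1.2 0 (x.1.2 0 * x.1.1 0 ^ N)), x.2) : PTup (k + 1) s r) ∈
      ZsetP K L (k + 1) := by
  induction N with
  | zero => simpa using hx
  | succ N ih =>
    have := zsetP_twist ih
    simpa [twist, pow_succ, mul_assoc] using this

/-- The closure is invariant under the flow at a generic matrix. -/
theorem zsetP_flow (t : ℂ) {x : PTup (k + 1) s r} (hx : x ∈ ZsetP K L (k + 1))
    (hg : Gen (x.1.1 0)) : flowP t x ∈ ZsetP K L (k + 1) := by
  obtain ⟨S, μ, hS, hμ, hi, ha⟩ := hg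
  have hdet : ∏ j, μ j = 1 := by
    have h := (detOne_of_mem_zsetP hx).1 0
    rw [ha, det_mul, det_mul, det_diagonal, mul_right_comm, ← det_mul,
      Matrix.mul_nonsing_inv S hS, det_one, one_mul] at h
    exact h
  intro f hf
  let q : Tup (k + 1) (Mat r (MvPolynomial (Fin r) ℂ)) ×
      (Fin s → Mat r (MvPolynomial (Fin r) ℂ)) :=
    ((fun j => (x.1.1 j).map C, Function.update (fun j => (x.1.2 j).map C) 0
      ((x.1.2 0 * S).map C * diagonal (fun l => X l) * S⁻¹.map C)), fun j => (x.2 j).map C)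
  let P : MvPolynomial (Fin r) ℂ := MvPolynomial.aeval (coordsQ q) f
  have hPe : ∀ v : Fin r → ℂ, eval v P = eval
      (coordsP (((x.1.1, Function.update x.1.2 0 (x.1.2 0 * (S * diagonal v * S⁻¹))), x.2) :
        PTup (k + 1) s r)) f := by
    intro v
    have hmap : mapQ (eval v) q =
        (((x.1.1, Function.update x.1.2 0 (x.1.2 0 * (S * diagonal v * S⁻¹))), x.2) :
          PTup (k + 1) s r) := by
      refine Prod.ext (Prod.ext (funext fun j => ?_) (funext fun j => ?_)) (funext fun j => ?_)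
      · ext a b; simp [q, mapQ, mapCX, mapTup]
      · by_cases h : j = 0
        · subst h
          simp only [q, mapQ, mapCX, mapTup, Function.comp_apply, Function.update_self, map_mul]
          rw [show ∀ M : Mat r ℂ, (eval v).mapMatrix (M.map C) = M from fun M => by ext; simp,
            show ∀ M : Mat r ℂ, (eval v).mapMatrix (M.map C) = M from fun M => by ext; simp,
            show (eval v).mapMatrix (diagonal fun l => X l) = diagonal v from by
              rw [RingHom.mapMatrix_apply, diagonal_map (map_zero _)]; simp [Function.comp_def]]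
          simp [mul_assoc]
        · ext a b; simp [q, mapQ, mapCX, mapTup, h]
      · ext a b; simp [q, mapQ, mapCX]
    rw [← hmap, ← coordsQ_eq, coordsQ_mapQ]
    change ((eval v).comp (MvPolynomial.aeval (coordsQ q)).toRingHom) f = _
    refine RingHom.congr_fun ?_ f
    exact MvPolynomial.ringHom_ext (fun z => by simp) fun w => by simp
  have hpow : ∀ N : ℕ, x.1.1 0 ^ N = S * diagonal (fun l => μ l ^ N) * S⁻¹ := fun N => by
    rw [ha]
    induction N with
    | zero => simp [Matrix.mul_nonsing_inv S hS]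
    | succ N ih =>
      rw [pow_succ, ih, ← mul_assoc, ← mul_assoc, Matrix.nonsing_inv_mul_cancel_right _ _ hS,
        mul_assoc S, diagonal_mul_diagonal]
      simp [pow_succ]
  have hN : ∀ N : ℕ, eval (fun l => μ l ^ N) P = 0 := fun N => by
    rw [hPe, ← hpow]
    exact zsetP_twist_iterate N hx f hf
  have hu := (Matrix.isUnit_iff_isUnit_det S).2 hS
  let c : Fin r → ℂ := fun l => μ l ^ 1 - (∑ j, μ j ^ 1) / (r : ℂ)
  have hc : ∑ l, t * c l = 0 := by
    rcases Nat.eq_zero_or_pos r with h0 | h0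
    · subst h0; simp
    have hrc : (r : ℂ) ≠ 0 := by exact_mod_cast h0.ne'
    rw [← Finset.mul_sum, Finset.sum_sub_distrib, Finset.sum_const, Finset.card_univ,
      Fintype.card_fin, nsmul_eq_mul, mul_div_cancel₀ _ hrc, sub_self, mul_zero]
  have := eval_eq_zero_of_powers μ hμ hdet hi P hN (fun l => t * c l) hc
  rw [hPe] at this
  have e : flowP t x = (((x.1.1, Function.update x.1.2 0
      (x.1.2 0 * (S * diagonal (fun l => Complex.exp (t * c l)) * S⁻¹))), x.2) :
        PTup (k + 1) s r) := by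
    simp only [flowP]
    rw [ha, pw_conj S hS, ← Matrix.smul_mul, ← Matrix.mul_smul, ← diagonal_smul,
      Matrix.exp_conj S _ hu, Matrix.exp_diagonal, Pi.exp_def]
    simp [c, ← Complex.exp_eq_exp_ℂ]
  rw [e]
  exact this

/-! ### The family `(A, 1)` -/

/-- Put a first handle `(A, 1)` in front. -/
def consA {R : Type*} [One R] (A : R) (H : Tup k R × (Fin s → R)) :
    Tup (k + 1) R × (Fin s → R) :=
  ((Fin.cons A H.1.1, Fin.cons 1 H.1.2), H.2)

theorem repK_consA {H : PTup k s r} (hH : RepK K H) {A : Mat r ℂ} (hA : A.det = 1) :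
    RepK K (consA A H) := by
  refine ⟨⟨fun i => ?_, fun i => ?_⟩, hH.2.1, ?_⟩
  · refine Fin.cases ?_ (fun i => ?_) i
    · simpa [consA] using hA
    · simpa [consA] using hH.1.1 i
  · refine Fin.cases ?_ (fun i => ?_) i
    · simp [consA]
    · simpa [consA] using hH.1.2 i
  · rw [prodP_succ]
    have e : tailP (consA A H) = H := by simp [tailP, tailT, consA]
    rw [e, hH.2.2, mul_one]
    simp [consA, Matrix.mul_nonsing_inv A (by rw [hA]; exact isUnit_one)]

theorem consA_mem_zsetP {H : PTup k s r} (hH : RepK K H) (hHi : IntP L H) {A : Mat r ℂ}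
    (hA : A.det = 1) : consA A H ∈ ZsetP K L (k + 1) := by
  intro f hf
  let H' : Tup k (Mat r (MvPolynomial (Var 1 r) ℂ)) ×
      (Fin s → Mat r (MvPolynomial (Var 1 r) ℂ)) := mapQ C H
  let A' : Mat r (MvPolynomial (Var 1 r) ℂ) := Matrix.of fun a b => X (Sum.inl (0, a, b))
  let F : MvPolynomial (Var 1 r) ℂ := MvPolynomial.aeval (coordsQ (consA A' H')) f
  have key : ∀ p : Tup 1 (Mat r ℂ), eval (coords p) F = eval (coordsP (consA (p.1 0) H)) f := by
    intro p
    have hmap : mapQ (eval (coords p)) (consA A' H') = consA (p.1 0) H := by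
      refine Prod.ext (Prod.ext (funext fun i => ?_) (funext fun i => ?_)) (funext fun i => ?_)
      · refine Fin.cases ?_ (fun i => ?_) i <;> ext a b <;>
          simp [consA, H', A', mapQ, mapCX, mapTup, coords]
      · refine Fin.cases ?_ (fun i => ?_) i <;> ext a b <;>
          simp [consA, H', A', mapQ, mapCX, mapTup, coords, Matrix.one_apply, apply_ite]
      · ext a b; simp [consA, H', A', mapQ, mapCX]
    rw [← hmap, ← coordsQ_eq, coordsQ_mapQ]
    change ((eval (coords p)).comp (MvPolynomial.aeval (coordsQ (consA A' H'))).toRingHom) f = _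
    refine RingHom.congr_fun ?_ f
    exact MvPolynomial.ringHom_ext (fun z => by simp) fun w => by simp
  have h := locus_mem_zset (n := 1) (fun _ => A) (fun _ => hA) F fun q hq => by
    rw [key]
    refine hf _ (repK_consA hH ((det_castC q hq.1).1 0)) ?_
    intro v
    rcases v with (⟨i, a, b⟩ | ⟨i, a, b⟩) | w
    · refine Fin.cases ?_ (fun i => ?_) i
      · simp only [coordsP, coords, consA, castC, mapR, mapTup, Sum.elim_inl, Fin.cons_zero,
          Function.comp_apply, RingHom.mapMatrix_apply, Matrix.map_apply]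
        exact ⟨IntermediateField.intCast_mem L _, isIntegral_algebraMap⟩
      · simpa [coordsP, coords, consA] using hHi (Sum.inl (Sum.inl (i, a, b)))
    · refine Fin.cases ?_ (fun i => ?_) i
      · simp only [coordsP, coords, consA, Sum.elim_inl, Sum.elim_inr, Fin.cons_zero]
        by_cases hab : a = b
        · subst hab
          rw [Matrix.one_apply_eq]
          exact ⟨one_mem L, isIntegral_one⟩
        · rw [Matrix.one_apply_ne hab]
          exact ⟨zero_mem L, isIntegral_zero⟩
      · simpa [coordsP, coords, consA] using hHi (Sum.inl (Sum.inr (i, a, b)))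
    · simpa [coordsP, consA] using hHi (Sum.inr w)
  rw [key] at h
  exact h

end Vale.Agent.P002
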