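import Vale.Agent.P002.Punct.Chart
import Vale.Agent.P002.Punct.Dich
import Vale.Agent.P002.Punct.Red
import Vale.Agent.P002.Punct.Base
import Vale.Agent.P002.Punct.Piece
import Vale.Agent.P002.Punct.Zar

/-!
Density of the integral irreducible representations with prescribed quasi-unipotent classes among
all Schur representations, and of their classes among those of the semisimple ones.
-/

namespace Vale.Agent.P002

open Matrix Filter Topology MvPolynomial
open scoped Matrix.Norms.Operator

variable {g n s r m : ℕ} {K' : Fin s → Mat (m + 2) ℂ}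

/-- The product of the matrices of a tuple along a word. -/
def wordP (x : PTup n s r) (l : List ((Fin n ⊕ Fin n) ⊕ Fin s)) : Mat r ℂ :=
  (l.map (famP x)).prod

theorem schurF_of_irredF {ι : Type*} {h : ι → Mat r ℂ} (hi : IrredF h) : SchurF h := by
  intro Y hY
  have hall : ∀ Z : Mat r ℂ, Y * Z = Z * Y := fun Z => by
    have hZ : Z ∈ Algebra.adjoin ℂ (Set.range h) := by rw [hi]; trivial
    induction hZ using Algebra.adjoin_induction with
    | mem Z hZ => obtain ⟨i, rfl⟩ := hZ; exact hY i
    | algebraMap a => exact (Algebra.commutes a Y).symm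
    | add _ _ _ _ ha hb => rw [mul_add, add_mul, ha, hb]
    | mul a b _ _ ha hb => rw [← mul_assoc, ha, mul_assoc, hb, mul_assoc]
  obtain ⟨a, ha⟩ := Matrix.mem_range_scalar_of_commute_single (M := Y) fun i j _ =>
    (hall (Matrix.single i j 1)).symm
  refine ⟨a, ha.symm.trans ?_⟩
  ext i j
  simp [Matrix.scalar_apply, Matrix.diagonal_apply, Matrix.one_apply]

/-- A polynomial which is nonzero at a given irreducible tuple and only at irreducible ones. -/
theorem exists_irred_test (x : PTup n s r) (hx : IrredF (famP x)) :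
    ∃ h : MvPolynomial (VarP n s r) ℂ, eval (coordsP x) h ≠ 0 ∧
      ∀ y : PTup n s r, eval (coordsP y) h ≠ 0 → IrredF (famP y) := by
  classical
  have hspan : Submodule.span ℂ (Set.range (wordP x)) = ⊤ := by
    refine eq_top_iff.2 ?_
    have h : Subalgebra.toSubmodule (Algebra.adjoin ℂ (Set.range (famP x))) = ⊤ := by
      rw [hx, Algebra.top_toSubmodule]
    rw [← h, Algebra.adjoin_eq_span, Submodule.span_le]
    intro z hz
    obtain ⟨l, hl, rfl⟩ := Submonoid.exists_list_of_mem_closure hz
    refine Submodule.subset_span ?_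
    clear hz
    induction l with
    | nil => exact ⟨[], rfl⟩
    | cons a l ih =>
      obtain ⟨i, hi⟩ := hl a (List.mem_cons_self ..)
      obtain ⟨w, hw⟩ := ih fun y hy => hl y (List.mem_cons_of_mem _ hy)
      exact ⟨i :: w, by simp [wordP, hi, ← hw]⟩
  obtain ⟨b, hb, hbs, hbl⟩ := exists_linearIndependent ℂ (Set.range (wordP x))
  have : Fintype b := hbl.setFinite.fintype
  have hbw : ∀ v : b, ∃ l, wordP x l = v := fun v => hb v.2
  choose w hw using hbw
  let W : b → Matrix (Fin r) (Fin r) (MvPolynomial (VarP n s r) ℂ) := fun v =>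
    ((w v).map (Sum.elim (Sum.elim (genQ n s r).1.1 (genQ n s r).1.2) (genQ n s r).2)).prod
  let G : Matrix b b (MvPolynomial (VarP n s r) ℂ) := Matrix.of fun u v => (W u * W v).trace
  have hG : ∀ y : PTup n s r, (eval (coordsP y)).mapMatrix G =
      Matrix.of fun u v => (wordP y (w u) * wordP y (w v)).trace := fun y => by
    have hW : ∀ u, (eval (coordsP y)).mapMatrix (W u) = wordP y (w u) := fun u => by
      simp only [W, map_list_prod, List.map_map, wordP]
      congr 1
      refine List.map_congr_left fun i _ => ?_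
      have e := mapQ_genQ y
      rcases i with (i | i) | i
      · exact congrArg (fun z : PTup n s r => z.1.1 i) e
      · exact congrArg (fun z : PTup n s r => z.1.2 i) e
      · exact congrArg (fun z : PTup n s r => z.2 i) e
    ext u v
    rw [Matrix.of_apply, ← hW u, ← hW v, ← map_mul]
    simp only [G, RingHom.mapMatrix_apply, Matrix.map_apply, Matrix.of_apply, Matrix.trace,
      Matrix.diag_apply, map_sum]
  refine ⟨G.det, ?_, fun y hy => ?_⟩
  · rw [RingHom.map_det, hG]
    intro h0
    obtain ⟨c, hc, hGc⟩ := Matrix.exists_mulVec_eq_zero_iff.2 h0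
    set Z : Mat r ℂ := ∑ v, c v • (v : Mat r ℂ)
    have hZ : ∀ M : Mat r ℂ, (M * Z).trace = 0 := fun M => by
      have hM : M ∈ Submodule.span ℂ (b : Set (Mat r ℂ)) := by rw [hbs, hspan]; trivial
      induction hM using Submodule.span_induction with
      | mem z hz =>
        have h := congrFun hGc ⟨z, hz⟩
        simp only [Matrix.mulVec, dotProduct, Matrix.of_apply, Pi.zero_apply, hw] at h
        simp only [Z, Finset.mul_sum, Matrix.mul_smul, trace_sum, trace_smul, smul_eq_mul]
        rw [← h]
        exact Finset.sum_congr rfl fun v _ => mul_comm _ _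
      | zero => simp
      | add u v _ _ hu hv => rw [add_mul, trace_add, hu, hv, add_zero]
      | smul a u _ hu => rw [Matrix.smul_mul, trace_smul, hu, smul_zero]
    have hZ0 : Z = 0 := Matrix.ext_iff_trace_mul_left.2 fun M => by rw [hZ M, mul_zero, trace_zero]
    exact hc (funext fun v => Fintype.linearIndependent_iff.1 hbl c hZ0 v)
  · rw [RingHom.map_det, hG] at hy
    have hli : LinearIndependent ℂ fun v : b => wordP y (w v) := by
      rw [Fintype.linearIndependent_iff]
      intro c hc
      by_contra hne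
      push Not at hne
      obtain ⟨v, hv⟩ := hne
      refine hy (Matrix.exists_mulVec_eq_zero_iff.1 ⟨c, fun h => hv (congrFun h v), ?_⟩)
      funext u
      simp only [Matrix.mulVec, dotProduct, Matrix.of_apply, Pi.zero_apply]
      calc ∑ v, (wordP y (w u) * wordP y (w v)).trace * c v
          = (wordP y (w u) * ∑ v, c v • wordP y (w v)).trace := by
            simp only [Finset.mul_sum, Matrix.mul_smul, trace_sum, trace_smul, smul_eq_mul]
            exact Finset.sum_congr rfl fun v _ => mul_comm _ _
        _ = 0 := by rw [hc, mul_zero, trace_zero]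
    have hcard : Fintype.card b = Module.finrank ℂ (Mat r ℂ) := by
      have h := finrank_span_eq_card hbl
      rw [Subtype.range_coe, hbs, hspan, finrank_top] at h
      exact h.symm
    rw [IrredF, ← Algebra.toSubmodule_eq_top, eq_top_iff,
      ← hli.span_eq_top_of_card_eq_finrank' hcard, Submodule.span_le]
    rintro _ ⟨v, rfl⟩
    change wordP y (w v) ∈ Algebra.adjoin ℂ (Set.range (famP y))
    refine list_prod_mem fun z hz => ?_
    obtain ⟨i, -, rfl⟩ := List.mem_map.1 hz
    exact Algebra.subset_adjoin ⟨i, rfl⟩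

theorem ratOn_evalP {V : Type*} [AddCommGroup V] [Module ℂ V] [TopologicalSpace V] {Ω : Set V}
    {Ψ : V → PTup n s r} (h : ∀ v, RatOn Ω fun p => coordsP (Ψ p) v)
    (f : MvPolynomial (VarP n s r) ℂ) : RatOn Ω fun p => eval (coordsP (Ψ p)) f := by
  induction f using MvPolynomial.induction_on with
  | C a => simpa using RatOn.const (V := V) a
  | add P Q hP hQ => simpa using hP.add hQ
  | mul_X P v hP => simpa using hP.mul (h v)

theorem continuousOn_ptup {V : Type*} [TopologicalSpace V] {Ω : Set V} {Ψ : V → PTup n s r}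
    (h : ∀ v, ContinuousOn (fun p => coordsP (Ψ p) v) Ω) : ContinuousOn Ψ Ω := by
  have e : Ψ = fun p => (ofCoords n r (fun v => coordsP (Ψ p) (Sum.inl v)),
      fun j => Matrix.of fun a b => coordsP (Ψ p) (Sum.inr (j, a, b))) := rfl
  rw [e]
  refine ((ofCoords n r).continuous_of_finiteDimensional.comp_continuousOn
    (continuousOn_pi.2 fun v => h (Sum.inl v))).prodMk (continuousOn_pi.2 fun j => ?_)
  exact continuousOn_pi.2 fun a => continuousOn_pi.2 fun b => h (Sum.inr (j, a, b))

theorem continuousAt_theta (K : Fin s → Mat r ℂ) {x : PTup n s r} (hx : ∀ j, (x.2 j).det ≠ 0) :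
    ContinuousAt (theta K) x := by
  refine continuous_fst.continuousAt.prodMk (continuousAt_pi.2 fun j => ?_)
  have hj : ContinuousAt (fun z : PTup n s r => z.2 j) x :=
    ((continuous_apply j).comp continuous_snd).continuousAt
  exact (hj.mul continuousAt_const).mul
    (ContinuousAt.comp (g := fun a : Mat r ℂ => a⁻¹) (contDiffAt_inv (hx j)).continuousAt hj)

/-- A polynomial vanishing at the integral irreducible representations vanishes at every Schur
representation with the same classes. -/
theorem eval_eq_zero_of_schurP (hK' : ∀ j, (K' j).det = 1) {L : IntermediateField ℚ ℂ}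
    {H : PTup (g + 2) s (m + 2)} (hH : RepK K' H) (hHi : IntP L H) (hirr : IrredF (famP H))
    {f : MvPolynomial (VarP (g + 3) s (m + 2)) ℂ}
    (hf : ∀ q, RepK K' q → IntP L q → IrredF (famP q) → eval (coordsP q) f = 0)
    {x : PTup (g + 3) s (m + 2)} (hx : RepK K' x) (hs : SchurP x) : eval (coordsP x) f = 0 := by
  have hr : m + 2 ≠ 0 := Nat.succ_ne_zero _
  obtain ⟨x₀, hx₀, hx₀i, hpiece⟩ := exists_open_piece (k := g + 1) hr hK' hH hHi hirr
  obtain ⟨h, hh₀, hh⟩ := exists_irred_test (theta K' x₀) hx₀i
  have hfh : ∀ q, RepK K' q → IntP L q → eval (coordsP q) (f * h) = 0 := fun q hq hqi => by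
    rw [map_mul]
    by_cases h0 : eval (coordsP q) h = 0
    · rw [h0, mul_zero]
    · rw [hf q hq hqi (hh q h0), zero_mul]
  have hcθ : ContinuousAt (fun z => eval (coordsP (theta K' z)) h) x₀ :=
    (contDiff_evalP h).continuous.continuousAt.comp (continuousAt_theta K' hx₀.2.1)
  obtain ⟨U, hU, hUo, hx₀U⟩ := eventually_nhds_iff.1 (hpiece.and (hcθ.eventually_ne hh₀))
  obtain ⟨Ω, Ψ, hΩ, hΨ, hΨθ, hrep, hcov⟩ := exists_chartP (g + 1) m K' hK'
  obtain ⟨y, hyU, hy, hyO⟩ := exists_repH_ostar hr hK' hx₀ (schurF_of_irredF hx₀i)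
    (hUo.mem_nhds hx₀U)
  obtain ⟨p₀, hp₀, hpy⟩ := hcov y hy hyO
  have hzero : ∀ p ∈ Ω, eval (coordsP (theta K' (Ψ p))) f = 0 := by
    refine (ratOn_evalP hΨθ f).eq_zero ((continuousOn_ptup fun v =>
      (hΨ v).continuousOn).isOpen_inter_preimage hΩ.isOpen hUo) Set.inter_subset_left
      ⟨hp₀, show Ψ p₀ ∈ U by rw [hpy]; exact hyU⟩ fun p hp => ?_
    obtain ⟨h1, h2⟩ := hU _ hp.2
    have h3 := h1 (hrep p hp.1) (f * h) hfh
    rw [map_mul] at h3
    exact (mul_eq_zero.1 h3).resolve_right h2
  obtain ⟨z, hz, rfl⟩ := exists_repH hx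
  by_contra hne
  have hcf : ContinuousAt (fun w => eval (coordsP (theta K' w)) f) z :=
    (contDiff_evalP f).continuous.continuousAt.comp (continuousAt_theta K' hz.2.1)
  obtain ⟨w, hw0, hw, hwO⟩ := exists_repH_ostar hr hK' hz hs (hcf.eventually_ne hne)
  obtain ⟨p, hp, rfl⟩ := hcov w hw hwO
  exact hw0 (hzero p hp)

/-- An invariant polynomial vanishing at the integral irreducible representations vanishes at
every semisimple representation with the same classes. -/
theorem eval_eq_zero_of_semisimpleP (hK' : ∀ j, (K' j).det = 1)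
    {L : IntermediateField ℚ ℂ} {H : PTup (g + 2) s (m + 2)} (hH : RepK K' H) (hHi : IntP L H)
    (hirr : IrredF (famP H)) {f : MvPolynomial (VarP (g + 3) s (m + 2)) ℂ}
    (hinv : ∀ y : PTup (g + 3) s (m + 2), RepK K' y → ∀ S : Mat (m + 2) ℂ, S.det = 1 →
      eval (coordsP (conjP S y)) f = eval (coordsP y) f)
    (hf : ∀ q, RepK K' q → IntP L q → IrredF (famP q) → eval (coordsP q) f = 0)
    {x : PTup (g + 3) s (m + 2)} (hx : RepK K' x) (hss : SemisimpleF (famP x)) :
    eval (coordsP x) f = 0 := by
  refine vanish_of_schurP (g := g + 1) (Nat.succ_ne_zero (m + 1)) hK'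
    (fun y => eval (coordsP y) f) (contDiff_evalP f).continuous (fun y hy S hS => ?_)
    (fun y hy hs => eval_eq_zero_of_schurP hK' hH hHi hirr hf hy hs) x hx hss
  obtain ⟨c, hc⟩ := IsAlgClosed.exists_pow_nat_eq (S.det)⁻¹ (Nat.succ_pos (m + 1))
  have hS0 : S.det ≠ 0 := hS.ne_zero
  have hc0 : c ≠ 0 := fun h => by
    rw [h, zero_pow (Nat.succ_ne_zero _), eq_comm, inv_eq_zero] at hc
    exact hS0 hc
  have h1 : (c • S).det = 1 := by rw [det_smul, Fintype.card_fin, hc, inv_mul_cancel₀ hS0]
  have hconj : ∀ a : Mat (m + 2) ℂ, c • S * a * (c • S)⁻¹ = S * a * S⁻¹ := fun a => by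
    rw [inv_smul_mat hc0 hS0, Matrix.smul_mul, Matrix.mul_smul, Matrix.smul_mul, smul_smul,
      inv_mul_cancel₀ hc0, one_smul]
  have e : conjP (c • S) y = conjP S y :=
    Prod.ext (Prod.ext (funext fun i => hconj _) (funext fun i => hconj _)) (funext fun i => hconj _)
  rw [← e]
  exact hinv y hy _ h1

end Vale.Agent.P002
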