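import Vale.Agent.P002.Punct.Basic
import Vale.Agent.P002.Full.Red

/-!
Block triangular tuples with punctures: the relation, conjugations, invariant splittings.
-/

namespace Vale.Agent.P002

open Matrix Filter Topology

namespace RedP

open Red

variable {n g s r A B : ℕ} (e : Fin A ⊕ Fin B ≃ Fin r)

/-- A block triangular tuple whose puncture blocks are conjugate to the diagonal ones. -/
def extP (x : PTup n s A) (ξ : Tup n (Matrix (Fin A) (Fin B) ℂ))
    (u : Fin s → Matrix (Fin A) (Fin B) ℂ) (y : PTup n s B) : PTup n s r :=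
  (ext e x.1 ξ y.1, fun j => blk e (x.2 j) (x.2 j * u j - u j * y.2 j) (y.2 j))

theorem extP_zero (x : PTup n s A) (y : PTup n s B) :
    extP e x 0 0 y = (ext e x.1 0 y.1, fun j => blk e (x.2 j) 0 (y.2 j)) := by
  simp [extP]

/-- The upper block of a product of block triangular matrices depends linearly on their upper
blocks. -/
theorem exists_linear_prod : ∀ {s : ℕ} (a : Fin s → Mat A ℂ) (b : Fin s → Mat B ℂ),
    ∃ L : (Fin s → Matrix (Fin A) (Fin B) ℂ) →ₗ[ℂ] Matrix (Fin A) (Fin B) ℂ,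
      ∀ ξ, (List.ofFn fun j => blk e (a j) (ξ j) (b j)).prod =
        blk e (List.ofFn a).prod (L ξ) (List.ofFn b).prod := by
  intro s
  induction s with
  | zero => exact fun a b => ⟨0, fun ξ => by simp [blk_one]⟩
  | succ s ih =>
    intro a b
    obtain ⟨L, hL⟩ := ih (fun j => a j.succ) fun j => b j.succ
    refine ⟨{ toFun := fun ξ => a 0 * L (fun j => ξ j.succ) +
                ξ 0 * (List.ofFn fun j => b j.succ).prod
              map_add' := fun ξ η => ?_
              map_smul' := fun t ξ => ?_ }, fun ξ => ?_⟩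
    · rw [show (fun j : Fin s => (ξ + η) j.succ) = (fun j => ξ j.succ) + fun j => η j.succ from rfl,
        map_add, Pi.add_apply, Matrix.mul_add, Matrix.add_mul]
      abel
    · rw [show (fun j : Fin s => (t • ξ) j.succ) = t • fun j => ξ j.succ from rfl, map_smul,
        Pi.smul_apply, Matrix.mul_smul, Matrix.smul_mul, RingHom.id_apply, smul_add]
    · simp only [List.ofFn_succ, List.prod_cons, hL, blk_mul, LinearMap.coe_mk, AddHom.coe_mk]

/-- The upper block of the relation depends linearly on the parameters of the extension. -/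
theorem exists_linearP {x : PTup n s A} {y : PTup n s B} (hx : Good x.1) (hy : Good y.1) :
    ∃ L : (Tup n (Matrix (Fin A) (Fin B) ℂ) × (Fin s → Matrix (Fin A) (Fin B) ℂ)) →ₗ[ℂ]
        Matrix (Fin A) (Fin B) ℂ,
      ∀ p, prodP (extP e x p.1 p.2 y) = blk e (prodP x) (L p) (prodP y) := by
  obtain ⟨L₁, hL₁⟩ := exists_linear e hx hy
  obtain ⟨L₂, hL₂⟩ := exists_linear_prod e x.2 y.2
  let Φ : (Fin s → Matrix (Fin A) (Fin B) ℂ) →ₗ[ℂ] (Fin s → Matrix (Fin A) (Fin B) ℂ) :=
    { toFun := fun u j => x.2 j * u j - u j * y.2 j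
      map_add' := fun u v => funext fun j => by
        simp only [Pi.add_apply, Matrix.mul_add, Matrix.add_mul]
        abel
      map_smul' := fun t u => funext fun j => by simp [smul_sub] }
  refine ⟨{ toFun := fun p => prodC x.1 * L₂ (Φ p.2) + L₁ p.1 * (List.ofFn y.2).prod
            map_add' := fun p q => ?_
            map_smul' := fun t p => ?_ }, fun p => ?_⟩
  · simp only [Prod.fst_add, Prod.snd_add, map_add, Matrix.mul_add, Matrix.add_mul]
    abel
  · simp only [Prod.smul_fst, Prod.smul_snd, map_smul, Matrix.mul_smul, Matrix.smul_mul,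
      RingHom.id_apply, smul_add]
  · simp only [prodP, extP, hL₁, LinearMap.coe_mk, AddHom.coe_mk]
    rw [show (fun j => blk e (x.2 j) (x.2 j * p.2 j - p.2 j * y.2 j) (y.2 j)) =
      fun j => blk e (x.2 j) (Φ p.2 j) (y.2 j) from rfl, hL₂, blk_mul]

theorem prodP_diag {x : PTup n s A} {y : PTup n s B} (hx : Good x.1) (hy : Good y.1) :
    prodP (extP e x 0 0 y) = blk e (prodP x) 0 (prodP y) := by
  obtain ⟨L, hL⟩ := exists_linearP e hx hy
  have := hL 0
  rwa [map_zero] at this

theorem blocks_eq_one {p : Mat A ℂ} {w : Matrix (Fin A) (Fin B) ℂ} {q : Mat B ℂ}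
    (h : blk e p w q = 1) : p = 1 ∧ q = 1 := by
  rw [← blk_one e, blk, blk] at h
  have h2 := (Matrix.reindex e e).injective h
  rw [fromBlocks_inj] at h2
  exact ⟨h2.1, h2.2.2.2⟩

theorem unipotent_conj (a : Mat A ℂ) (u : Matrix (Fin A) (Fin B) ℂ) (b : Mat B ℂ) :
    IsUnit (blk e 1 (-u) 1).det ∧
      blk e a (a * u - u * b) b = blk e 1 (-u) 1 * blk e a 0 b * (blk e 1 (-u) 1)⁻¹ := by
  refine ⟨by simp [blk_det], ?_⟩
  rw [blk_inv e (by simp) _ (by simp)]
  simp only [blk_mul, inv_one, Matrix.one_mul, Matrix.mul_one, neg_neg, Matrix.mul_zero, zero_add,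
    Matrix.neg_mul]
  rw [← sub_eq_add_neg]

theorem prodP_conjP {S : Mat r ℂ} (hS : IsUnit S.det) (x : PTup n s r) :
    prodP (conjP S x) = S * prodP x * S⁻¹ := by
  let φ : Mat r ℂ →* Mat r ℂ :=
    { toFun := fun a => S * a * S⁻¹
      map_one' := by simp [mul_nonsing_inv S hS]
      map_mul' := fun a b => by
        simp only [Matrix.mul_assoc]
        rw [← Matrix.mul_assoc S⁻¹, nonsing_inv_mul S hS, Matrix.one_mul] }
  have h : prodC (conjT S x.1) = φ (prodC x.1) :=
    rel_map φ (fun a => a⁻¹) (fun a => a⁻¹) (fun a => by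
      show S * a⁻¹ * S⁻¹ = (S * a * S⁻¹)⁻¹
      rw [Matrix.mul_inv_rev, Matrix.mul_inv_rev, nonsing_inv_nonsing_inv S hS,
        Matrix.mul_assoc]) x.1
  show prodC (conjT S x.1) * (List.ofFn fun j => φ (x.2 j)).prod = φ (prodP x)
  rw [h, prodP, map_mul, map_list_prod, List.map_ofFn]
  rfl

theorem prodC_tw {c : ℂ} (hc : c ≠ 0) {x : Tup (g + 1) (Mat r ℂ)} (hx : Good x) :
    prodC (tw c x) = prodC x := by
  have hinv : (c • x.1 0)⁻¹ = c⁻¹ • (x.1 0)⁻¹ := by
    refine inv_eq_right_inv ?_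
    rw [Matrix.smul_mul, Matrix.mul_smul, smul_smul, mul_nonsing_inv _ (hx.1 0).isUnit,
      mul_inv_cancel₀ hc, one_smul]
  have ht : tailT (tw c x) = tailT x := by
    refine Prod.ext (funext fun i => ?_) rfl
    simp [tailT, tw, Fin.tail]
  rw [prodC_succ, prodC_succ, ht]
  simp [tw, hinv, smul_smul, inv_mul_cancel₀ hc]

theorem good_tw {c : ℂ} (hc : c ≠ 0) {x : Tup (g + 1) (Mat r ℂ)} (hx : Good x) :
    Good (tw c x) := by
  refine ⟨fun i => ?_, hx.2⟩
  rcases eq_or_ne i 0 with rfl | hi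
  · simp [tw, hc, hx.1 0]
  · simpa [tw, hi] using hx.1 i

theorem schurP_tw {c : ℂ} (hc : c ≠ 0) {x : PTup (g + 1) s r} (hx : SchurP x) :
    SchurP ((tw c x.1, x.2) : PTup (g + 1) s r) := by
  intro Y hY
  refine hx Y fun j => ?_
  rcases j with (j | j) | j
  · have hj' := hY (Sum.inl (Sum.inl j))
    simp only [famP, fam, tw, Sum.elim_inl] at hj' ⊢
    rcases eq_or_ne j 0 with rfl | hj
    · rw [Function.update_self, Matrix.mul_smul, Matrix.smul_mul] at hj'
      exact smul_right_injective _ hc hj'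
    · rwa [Function.update_of_ne hj] at hj'
  · exact hY (Sum.inl (Sum.inr j))
  · exact hY (Sum.inr j)

/-- Scaling of the upper blocks by conjugation. -/
theorem conjP_scale {t : ℂ} (ht : t ≠ 0) (x : PTup n s A) (ξ : Tup n (Matrix (Fin A) (Fin B) ℂ))
    (u : Fin s → Matrix (Fin A) (Fin B) ℂ) (y : PTup n s B) :
    conjP (blk e (t • 1) 0 1) (extP e x ξ u y) = extP e x (t • ξ) (t • u) y := by
  have hi : (blk e (t • 1 : Mat A ℂ) 0 (1 : Mat B ℂ))⁻¹ = blk e (t⁻¹ • 1) 0 1 := by
    refine inv_eq_right_inv ?_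
    simp [blk_mul, blk_one, smul_smul, inv_mul_cancel₀ ht]
  refine Prod.ext (conjT_scale e ht x.1 ξ y.1) (funext fun j => ?_)
  simp [conjP, extP, hi, blk_mul, smul_smul, inv_mul_cancel₀ ht, smul_sub]

/-- Block diagonal conjugation of a block diagonal tuple. -/
theorem conjP_diag {S : Mat A ℂ} (hS : IsUnit S.det) {T : Mat B ℂ} (hT : IsUnit T.det)
    (x : PTup n s A) (y : PTup n s B) :
    conjP (blk e S 0 T) (extP e x 0 0 y) = extP e (conjP S x) 0 0 (conjP T y) := by
  rw [extP_zero, extP_zero]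
  refine Prod.ext (conjT_diag e hS hT x.1 y.1) (funext fun j => ?_)
  simp [conjP, blk_inv e hS _ hT, blk_mul]

theorem conjP_one (x : PTup n s r) : conjP 1 x = x := by
  refine Prod.ext (conjT_one x.1) (funext fun j => ?_)
  simp [conjP]

/-- An invariant subspace with an invariant complement gives two diagonal blocks. -/
theorem exists_split {ι : Type*} (h : ι → Mat r ℂ) (hss : SemisimpleF h) (hx : ¬ SchurF h) :
    ∃ (A B : ℕ) (e : Fin A ⊕ Fin B ≃ Fin r) (S : Mat r ℂ) (a : ι → Mat A ℂ) (b : ι → Mat B ℂ),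
      0 < A ∧ 0 < B ∧ IsUnit S.det ∧ ∀ j, S * h j * S⁻¹ = blk e (a j) 0 (b j) := by
  simp only [SchurF, not_forall, not_exists, exists_prop] at hx
  obtain ⟨Y, hY, hns⟩ := hx
  have hne : Nonempty (Fin r) := by
    by_contra hh
    rw [not_nonempty_iff] at hh
    exact hns 0 (Subsingleton.elim _ _)
  obtain ⟨μ, hμ⟩ := Module.End.exists_eigenvalue (Matrix.toLin' Y)
  set K := Module.End.eigenspace (Matrix.toLin' Y) μ with hK
  have hbot : K ≠ ⊥ := hμ
  have hK' : ∀ v, v ∈ K ↔ Matrix.toLin' Y v = μ • v := fun v => Module.End.mem_eigenspace_iff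
  have htop : K ≠ ⊤ := by
    intro h'
    refine hns μ (Matrix.toLin'.injective (LinearMap.ext fun v => ?_))
    have hv := (hK' v).1 (h' ▸ Submodule.mem_top)
    rw [hv, map_smul, Matrix.toLin'_one, LinearMap.smul_apply, LinearMap.id_apply]
  have hKinv : ∀ j, ∀ v ∈ K, h j *ᵥ v ∈ K := fun j v hv => by
    rw [hK', ← Matrix.toLin'_apply (h j), ← LinearMap.comp_apply, ← Matrix.toLin'_mul, hY j,
      Matrix.toLin'_mul, LinearMap.comp_apply, (hK' v).1 hv, map_smul]
  obtain ⟨Q, hQinv, hQ⟩ := hss K hKinv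
  have hr : Module.finrank ℂ K + Module.finrank ℂ Q = r := by
    rw [Submodule.finrank_add_eq_of_isCompl hQ, Module.finrank_fin_fun]
  have hApos : 0 < Module.finrank ℂ K := by
    rw [Nat.pos_iff_ne_zero, Ne, Submodule.finrank_eq_zero]
    exact hbot
  have hBpos : 0 < Module.finrank ℂ Q := by
    rw [Nat.pos_iff_ne_zero, Ne, Submodule.finrank_eq_zero]
    intro h'
    exact htop (by simpa [h'] using hQ.sup_eq_top)
  set e : Fin (Module.finrank ℂ K) ⊕ Fin (Module.finrank ℂ Q) ≃ Fin r :=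
    finSumFinEquiv.trans (finCongr hr) with he
  set b : Module.Basis (Fin r) ℂ (Fin r → ℂ) :=
    (((Module.finBasis ℂ K).prod (Module.finBasis ℂ Q)).map
      (Submodule.prodEquivOfIsCompl K Q hQ)).reindex e with hb
  set S : Mat r ℂ := b.toMatrix (Pi.basisFun ℂ (Fin r)) with hS
  have hSinv : S * (Pi.basisFun ℂ (Fin r)).toMatrix b = 1 := by
    rw [hS, Module.Basis.toMatrix_mul_toMatrix_flip]
  have happ : ∀ (a : Mat r ℂ) (p q), (S * a * S⁻¹) p q = b.repr (a *ᵥ b q) p := by
    intro a p q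
    rw [inv_eq_right_inv hSinv, hS]
    have hconv : LinearMap.toMatrix (Pi.basisFun ℂ (Fin r)) (Pi.basisFun ℂ (Fin r))
        (Matrix.toLin' a) = a := by
      rw [LinearMap.toMatrix_eq_toMatrix', LinearMap.toMatrix'_toLin']
    have h' := basis_toMatrix_mul_linearMap_toMatrix_mul_basis_toMatrix
      (b := b) (b' := Pi.basisFun ℂ (Fin r)) (c := b) (c' := Pi.basisFun ℂ (Fin r))
      (f := Matrix.toLin' a)
    rw [hconv] at h'
    rw [h', LinearMap.toMatrix_apply, Matrix.toLin'_apply]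
  have h21 : ∀ k i j, (S * h k * S⁻¹) (e (Sum.inr i)) (e (Sum.inl j)) = 0 := by
    intro k i j
    have hmem := hKinv k _ (Module.finBasis ℂ K j).2
    rw [happ]
    simp [hb]
    rw [(Submodule.projectionOnto_apply_eq_zero_iff _).2 hmem]
    simp
  have h12 : ∀ k i j, (S * h k * S⁻¹) (e (Sum.inl i)) (e (Sum.inr j)) = 0 := by
    intro k i j
    have hmem := hQinv k _ (Module.finBasis ℂ Q j).2
    rw [happ]
    simp [hb]
    rw [(Submodule.projectionOnto_apply_eq_zero_iff _).2 hmem]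
    simp
  refine ⟨_, _, e, S, fun k => ((Matrix.reindex e e).symm (S * h k * S⁻¹)).toBlocks₁₁,
    fun k => ((Matrix.reindex e e).symm (S * h k * S⁻¹)).toBlocks₂₂, hApos, hBpos,
    IsUnit.of_mul_eq_one _ (by rw [← det_mul, hSinv, det_one]), fun k => ?_⟩
  have z21 : ((Matrix.reindex e e).symm (S * h k * S⁻¹)).toBlocks₂₁ = 0 := by
    ext i j; exact h21 k i j
  have z12 : ((Matrix.reindex e e).symm (S * h k * S⁻¹)).toBlocks₁₂ = 0 := by
    ext i j; exact h12 k i j
  show _ = Matrix.reindex e e (fromBlocks _ 0 0 _)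
  conv_rhs =>
    arg 2
    rw [show (0 : Matrix (Fin (Module.finrank ℂ K)) (Fin (Module.finrank ℂ Q)) ℂ) =
      ((Matrix.reindex e e).symm (S * h k * S⁻¹)).toBlocks₁₂ from z12.symm,
      show (0 : Matrix (Fin (Module.finrank ℂ Q)) (Fin (Module.finrank ℂ K)) ℂ) =
      ((Matrix.reindex e e).symm (S * h k * S⁻¹)).toBlocks₂₁ from z21.symm]
  rw [fromBlocks_toBlocks, Equiv.apply_symm_apply]

/-- A family intertwined with a semisimple one by an injective map is semisimple. -/
theorem semisimple_pullback {ι : Type*} {d : ℕ} {h : ι → Mat r ℂ} {a : ι → Mat d ℂ}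
    (φ : (Fin d → ℂ) →ₗ[ℂ] (Fin r → ℂ)) (hφ : Function.Injective φ)
    (hint : ∀ j v, h j *ᵥ φ v = φ (a j *ᵥ v)) (hss : SemisimpleF h) : SemisimpleF a := by
  intro W hW
  obtain ⟨W', hW', hc⟩ := hss (W.map φ) (fun j v hv => by
    obtain ⟨w, hw, rfl⟩ := Submodule.mem_map.1 hv
    exact Submodule.mem_map.2 ⟨_, hW j w hw, (hint j w).symm⟩)
  refine ⟨W'.comap φ, fun j v hv => ?_, ?_, ?_⟩
  · rw [Submodule.mem_comap, ← hint]
    exact hW' j _ hv
  · rw [Submodule.disjoint_def]
    intro v hv hv'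
    have h0 := Submodule.disjoint_def.1 hc.disjoint (φ v) (Submodule.mem_map_of_mem hv) hv'
    exact hφ (h0.trans (map_zero φ).symm)
  · rw [codisjoint_iff, Submodule.eq_top_iff']
    intro v
    have hv : φ v ∈ W.map φ ⊔ W' := hc.sup_eq_top ▸ Submodule.mem_top
    obtain ⟨w, hw, w', hw', hsum⟩ := Submodule.mem_sup.1 hv
    obtain ⟨w₀, hw₀, rfl⟩ := Submodule.mem_map.1 hw
    refine Submodule.mem_sup.2 ⟨w₀, hw₀, v - w₀, ?_, add_sub_cancel _ _⟩
    rw [Submodule.mem_comap, map_sub, ← hsum, add_sub_cancel_left]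
    exact hw'

/-- The diagonal blocks of a semisimple family are semisimple. -/
theorem semisimple_blocks {ι : Type*} {h : ι → Mat r ℂ} {S : Mat r ℂ} (hS : IsUnit S.det)
    {a : ι → Mat A ℂ} {b : ι → Mat B ℂ} (hh : ∀ j, S * h j * S⁻¹ = blk e (a j) 0 (b j))
    (hss : SemisimpleF h) : SemisimpleF a ∧ SemisimpleF b := by
  have key : ∀ j (w : Fin A ⊕ Fin B → ℂ), h j *ᵥ (S⁻¹ *ᵥ (w ∘ e.symm)) =
      S⁻¹ *ᵥ ((fromBlocks (a j) 0 0 (b j) *ᵥ w) ∘ e.symm) := by
    intro j w
    have h1 : h j * S⁻¹ = S⁻¹ * blk e (a j) 0 (b j) := by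
      rw [← hh j]
      simp only [← Matrix.mul_assoc]
      rw [nonsing_inv_mul S hS, Matrix.one_mul]
    rw [Matrix.mulVec_mulVec, h1, ← Matrix.mulVec_mulVec, blk, Matrix.reindex_apply,
      Matrix.submatrix_mulVec_equiv]
    simp [Function.comp_assoc]
  have hinj : Function.Injective (S⁻¹.mulVec) :=
    Matrix.mulVec_injective_iff_isUnit.2
      ((isUnit_iff_isUnit_det _).2 (isUnit_nonsing_inv_det S hS))
  have hdec : ∀ w w' : Fin A ⊕ Fin B → ℂ, S⁻¹ *ᵥ (w ∘ e.symm) = S⁻¹ *ᵥ (w' ∘ e.symm) → w = w' :=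
    fun w w' hw => funext fun i => by simpa using congrFun (hinj hw) (e i)
  constructor
  · let φ : (Fin A → ℂ) →ₗ[ℂ] (Fin r → ℂ) :=
      { toFun := fun v => S⁻¹ *ᵥ (Sum.elim v 0 ∘ e.symm)
        map_add' := fun v w => by
          rw [← Matrix.mulVec_add]; congr 1; funext i
          simp only [Function.comp_apply, Pi.add_apply]; cases e.symm i <;> simp
        map_smul' := fun c v => by
          rw [RingHom.id_apply, ← Matrix.mulVec_smul]; congr 1; funext i
          simp only [Function.comp_apply, Pi.smul_apply]; cases e.symm i <;> simp }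
    refine semisimple_pullback φ (fun v w hvw => funext fun i => ?_) (fun j v => ?_) hss
    · simpa using congrFun (hdec _ _ hvw) (Sum.inl i)
    · show h j *ᵥ (S⁻¹ *ᵥ _) = _
      rw [key, fromBlocks_mulVec]
      simp [φ]
  · let φ : (Fin B → ℂ) →ₗ[ℂ] (Fin r → ℂ) :=
      { toFun := fun v => S⁻¹ *ᵥ (Sum.elim 0 v ∘ e.symm)
        map_add' := fun v w => by
          rw [← Matrix.mulVec_add]; congr 1; funext i
          simp only [Function.comp_apply, Pi.add_apply]; cases e.symm i <;> simp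
        map_smul' := fun c v => by
          rw [RingHom.id_apply, ← Matrix.mulVec_smul]; congr 1; funext i
          simp only [Function.comp_apply, Pi.smul_apply]; cases e.symm i <;> simp }
    refine semisimple_pullback φ (fun v w hvw => funext fun i => ?_) (fun j v => ?_) hss
    · simpa using congrFun (hdec _ _ hvw) (Sum.inr i)
    · show h j *ᵥ (S⁻¹ *ᵥ _) = _
      rw [key, fromBlocks_mulVec]
      simp [φ]

theorem continuous_extP {X : Type*} [TopologicalSpace X] {x : X → PTup n s A}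
    {ξ : X → Tup n (Matrix (Fin A) (Fin B) ℂ)} {u : X → Fin s → Matrix (Fin A) (Fin B) ℂ}
    {y : X → PTup n s B} (hx : Continuous x) (hξ : Continuous ξ) (hu : Continuous u)
    (hy : Continuous y) : Continuous fun t => extP e (x t) (ξ t) (u t) (y t) :=
  (continuous_ext e hx.fst hξ hy.fst).prodMk (continuous_pi fun j => continuous_blk e
    ((continuous_apply j).comp hx.snd)
    ((((continuous_apply j).comp hx.snd).matrix_mul ((continuous_apply j).comp hu)).sub
      (((continuous_apply j).comp hu).matrix_mul ((continuous_apply j).comp hy.snd)))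
    ((continuous_apply j).comp hy.snd))

end RedP

end Vale.Agent.P002
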