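import Vale.Agent.P002.Full.Line
import Vale.Agent.P002.Generic

/-!
Surfaces with punctures: tuples of handle matrices and puncture matrices, the tuples whose puncture
matrices are given by conjugators of fixed matrices `K j`, and the integral ones.
-/

namespace Vale.Agent.P002

open Matrix

/-- Handle matrices and one matrix for each puncture. -/
abbrev PTup (n s r : ℕ) : Type := Tup n (Mat r ℂ) × (Fin s → Mat r ℂ)

/-- The coordinates. -/
abbrev VarP (n s r : ℕ) : Type := Var n r ⊕ (Fin s × Fin r × Fin r)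

variable {n g s r : ℕ}

/-- The coordinate functions. -/
def coordsP (x : PTup n s r) : VarP n s r → ℂ :=
  Sum.elim (coords x.1) fun v => x.2 v.1 v.2.1 v.2.2

/-- All matrices of a tuple as one family. -/
def famP (x : PTup n s r) : (Fin n ⊕ Fin n) ⊕ Fin s → Mat r ℂ := Sum.elim (fam x.1) x.2

/-- Only scalars commute with the tuple. -/
def SchurP (x : PTup n s r) : Prop := SchurF (famP x)

/-- The matrices generate the whole matrix algebra. -/
def IrredF {ι : Type*} (h : ι → Mat r ℂ) : Prop := Algebra.adjoin ℂ (Set.range h) = ⊤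

/-- Every invariant subspace has an invariant complement. -/
def SemisimpleF {ι : Type*} (h : ι → Mat r ℂ) : Prop :=
  ∀ W : Submodule ℂ (Fin r → ℂ), (∀ j, ∀ v ∈ W, h j *ᵥ v ∈ W) →
    ∃ W' : Submodule ℂ (Fin r → ℂ), (∀ j, ∀ v ∈ W', h j *ᵥ v ∈ W') ∧ IsCompl W W'

/-- The left hand side of the relation. -/
noncomputable def prodP (x : PTup n s r) : Mat r ℂ := prodC x.1 * (List.ofFn x.2).prod

/-- All matrices are invertible. -/
def GoodP (x : PTup n s r) : Prop := Good x.1 ∧ ∀ j, (x.2 j).det ≠ 0

/-- All eigenvalues are roots of unity. -/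
def QUni (M : Mat r ℂ) : Prop := ∀ z : ℂ, M.charpoly.IsRoot z → ∃ N : ℕ, 0 < N ∧ z ^ N = 1

variable (K : Fin s → Mat r ℂ)

/-- Each puncture matrix is conjugate to the given one. -/
def OnK (c : Fin s → Mat r ℂ) : Prop :=
  ∀ j, ∃ h : Mat r ℂ, IsUnit h.det ∧ c j = h * K j * h⁻¹

/-- A representation with prescribed conjugacy classes at the punctures. -/
def RepK (x : PTup n s r) : Prop := DetOne x.1 ∧ OnK K x.2 ∧ prodP x = 1

/-- From conjugators to puncture matrices. -/
noncomputable def theta (x : PTup n s r) : PTup n s r :=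
  (x.1, fun j => x.2 j * K j * (x.2 j)⁻¹)

/-- Handle matrices and conjugators giving a representation up to scaling. -/
def PRepH (x : PTup n s r) : Prop := GoodP x ∧ prodP (theta K x) = 1

/-- Handle matrices and conjugators giving a representation. -/
def RepH (x : PTup n s r) : Prop :=
  DetOne x.1 ∧ (∀ j, (x.2 j).det ≠ 0) ∧ prodP (theta K x) = 1

/-- All entries lie in `L` and are algebraic integers. -/
def IntP (L : IntermediateField ℚ ℂ) (x : PTup n s r) : Prop :=
  ∀ v, coordsP x v ∈ L ∧ IsIntegral ℤ (coordsP x v)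

/-- The Zariski closure of the integral representations with the prescribed classes. -/
def ZsetP (L : IntermediateField ℚ ℂ) (n : ℕ) : Set (PTup n s r) :=
  {x | ∀ f : MvPolynomial (VarP n s r) ℂ,
    (∀ q : PTup n s r, RepK K q → IntP L q → MvPolynomial.eval (coordsP q) f = 0) →
      MvPolynomial.eval (coordsP x) f = 0}

variable {K}

/-- The other handles and all punctures. -/
def tailP (x : PTup (g + 1) s r) : PTup g s r := (tailT x.1, x.2)

/-- Simultaneous conjugation. -/
noncomputable def conjP (S : Mat r ℂ) (x : PTup n s r) : PTup n s r :=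
  (conjT S x.1, fun j => S * x.2 j * S⁻¹)

theorem repK_theta {x : PTup n s r} (hx : RepH K x) : RepK K (theta K x) :=
  ⟨hx.1, fun j => ⟨x.2 j, isUnit_iff_ne_zero.2 (hx.2.1 j), rfl⟩, hx.2.2⟩

theorem pRepH_of_repH {x : PTup n s r} (hx : RepH K x) : PRepH K x :=
  ⟨⟨good_of_detOne hx.1, hx.2.1⟩, hx.2.2⟩

theorem exists_repH {x : PTup n s r} (hx : RepK K x) :
    ∃ y : PTup n s r, RepH K y ∧ theta K y = x := by
  choose h hu hc using hx.2.1
  have e : theta K (x.1, h) = x := Prod.ext rfl (funext fun j => (hc j).symm)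
  exact ⟨(x.1, h), ⟨hx.1, fun j => (hu j).ne_zero, by rw [e]; exact hx.2.2⟩, e⟩

theorem det_puncture {x : PTup n s r} (hK : ∀ j, (K j).det = 1) (hx : OnK K x.2) (j : Fin s) :
    (x.2 j).det = 1 := by
  obtain ⟨h, hu, e⟩ := hx j
  rw [e, det_mul, det_mul, hK j, mul_one, ← det_mul, Matrix.mul_nonsing_inv h hu, det_one]

theorem prodP_succ (x : PTup (g + 1) s r) :
    prodP x = x.1.1 0 * x.1.2 0 * (x.1.1 0)⁻¹ * (x.1.2 0)⁻¹ * prodP (tailP x) := by
  rw [prodP, prodC_succ, mul_assoc]
  rfl

end Vale.Agent.P002
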