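import Vale.Agent.P002.Punct.ChartDef
import Vale.Agent.P002.Full.Chart

/-!
A rational chart through all representations with given boundary classes whose first handle is in
normal form.
-/

namespace Vale.Agent.P002

open Matrix Polynomial

variable {g s m : ℕ}

variable (J : Fin s → Mat (m + 2) ℂ)

theorem det_punctProd (hJ : ∀ j, (J j).det = 1) {f : Fin s → Mat (m + 2) ℂ}
    (hf : ∀ j, (f j).det ≠ 0) : (punctProd J f).det = 1 := by
  rw [punctProd, ← Matrix.coe_detMonoidHom, map_list_prod]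
  refine List.prod_eq_one fun x hx => ?_
  simp only [List.map_ofFn, List.mem_ofFn, Function.comp_apply] at hx
  obtain ⟨j, rfl⟩ := hx
  rw [Matrix.coe_detMonoidHom, det_conj_of (isUnit_iff_ne_zero.2 (hf j)), hJ j]

theorem det_pzz (hJ : ∀ j, (J j).det = 1) {p : CPrmP g s (m + 2)} (hd : DetOne (hh p.1))
    (hf : ∀ j, (p.2 j).det ≠ 0) : (pzz J p).det = 1 := by
  rw [pzz, det_adjugate, det_mul, det_rel_adjugate hd,
    det_punctProd J hJ hf, one_mul, one_pow]

/-- The algebra of the chart on its domain. -/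
theorem pchart_facts (hJ : ∀ j, (J j).det = 1) {p : CPrmP g s (m + 2)} (h₁ : pden₁ p ≠ 0)
    (hNZ : NZ (m + 1) (pmz J p)) :
    DetOne (hh p.1) ∧ IsUnit (pkk J p).det ∧ UpU (fac (m + 1) (pmz J p)).U ∧
      pzz J p * pbb J p = pkk J p * ((fac (m + 1) (pmz J p)).L * diagonal (nu p.1)) * (pkk J p)⁻¹ ∧
      (pbb J p).det = 1 ∧ LoU (fac (m + 1) (pmz J p)).L := by
  simp only [pden₁, den₁, mul_ne_zero_iff, Finset.prod_ne_zero_iff] at h₁
  obtain ⟨⟨⟨⟨hA, hB⟩, hG⟩, hμ⟩, hf⟩ := h₁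
  have hd : DetOne (hh p.1) := ⟨fun i => det_nd (hA i (Finset.mem_univ i)),
    fun i => det_nd (hB i (Finset.mem_univ i))⟩
  have hGu : IsUnit p.1.2.1.det := isUnit_iff_ne_zero.2 hG
  have hz : (pzz J p).det = 1 := det_pzz J hJ hd fun j => hf j (Finset.mem_univ j)
  have hm : (pmz J p).det = 1 := by
    rw [pmz, det_conj_of' hGu, hz]
  obtain ⟨hW, hL, hU, hWM⟩ := fac_spec (m + 1) (pmz J p) hNZ hm
  set F := fac (m + 1) (pmz J p)
  have hKu : IsUnit (pkk J p).det := by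
    rw [pkk, det_mul]
    exact hGu.mul (IsUnit.of_mul_eq_one _ (by rw [← det_mul, hW, det_one]))
  have hKi : (pkk J p)⁻¹ = F.Wi * p.1.2.1⁻¹ := by
    rw [pkk, Matrix.mul_inv_rev, inv_eq_right_inv hW]
  have hWi : F.W * F.Wi = 1 := hW
  have hkk : pkk J p = p.1.2.1 * F.W := rfl
  have hzK : pzz J p = pkk J p * (F.L * F.U) * (pkk J p)⁻¹ := by
    have hmz' : pmz J p = p.1.2.1⁻¹ * pzz J p * p.1.2.1 := rfl
    rw [hKi, ← hWM, hmz', hkk]
    calc pzz J p = p.1.2.1 * (F.W * F.Wi) * p.1.2.1⁻¹ * pzz J p * p.1.2.1 * (F.W * F.Wi) * p.1.2.1⁻¹ := by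
          simp only [hWi, mul_one, Matrix.mul_nonsing_inv _ hGu, one_mul,
            Matrix.mul_nonsing_inv_cancel_right _ _ hGu]
      _ = _ := by simp only [mul_assoc]
  have hUu : IsUnit F.U.det := by rw [hU.det]; exact isUnit_one
  refine ⟨hd, hKu, hU, ?_, ?_, hL⟩
  · have hbb : pbb J p = pkk J p * (F.U⁻¹ * diagonal (nu p.1)) * (pkk J p)⁻¹ := rfl
    rw [hbb, hzK]
    simp only [mul_assoc, Matrix.nonsing_inv_mul_cancel_left _ _ hKu,
      Matrix.mul_nonsing_inv_cancel_left _ _ hUu]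
  · rw [pbb, det_conj_of hKu, det_mul,
      det_diagonal, prod_nu (Finset.prod_ne_zero_iff.2 hμ), det_nonsing_inv, hU.det]
    simp

theorem repH_pchartMap (hJ : ∀ j, (J j).det = 1) {p : CPrmP g s (m + 2)} (hp : p ∈ pdom g J) :
    RepH J (pchartMap J p) := by
  obtain ⟨⟨⟨⟨-, h₁⟩, h₂⟩, hNZ⟩, h₀⟩ := hp
  obtain ⟨hd, hKu, hU, hzb, hdb, hL⟩ := pchart_facts J hJ h₁ hNZ
  set F := fac (m + 1) (pmz J p)
  have hν := nu_injective h₂
  have hUd : F.U.det ≠ 0 := by rw [hU.det]; exact one_ne_zero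
  set T := F.U⁻¹ * diagonal (nu p.1) with hT
  have hTt : BlockTriangular T id := (tri_inv hU.1 hUd).mul (blockTriangular_diagonal _)
  have hTd : ∀ i, T i i = nu p.1 i := fun i => by
    rw [hT, mul_diagonal, tri_inv_apply Function.injective_id hU.1 hUd, hU.2, inv_one, one_mul]
  have hcb : (pbb J p).charpoly = ∏ j, (X - C (nu p.1 j)) := by
    rw [pbb, charpoly_conj hKu, charpoly_of_isUpperTriangular _ hTt]
    simp only [hTd]
  have hcz : (pzz J p * pbb J p).charpoly = ∏ j, (X - C (nu p.1 j)) := by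
    have hLz : (F.L * diagonal (nu p.1))ᵀ.BlockTriangular id := by
      intro i j h
      rw [transpose_apply, mul_diagonal,
        hL.1 (i := j) (j := i) (OrderDual.toDual_lt_toDual.2 h), zero_mul]
    rw [hzb, charpoly_conj hKu, ← charpoly_transpose, charpoly_of_isUpperTriangular _ hLz]
    simp [F, hL.2]
  have hint : pa0 J p * pbb J p = pzz J p * pbb J p * pa0 J p := by
    rw [pa0, Finset.sum_mul, Finset.mul_sum]
    refine Finset.sum_congr rfl fun i _ => ?_
    rw [mul_assoc _ _ (pbb J p), (aeval_eigen hcb i).2, mul_smul_comm, ← mul_assoc (pzz J p * pbb J p),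
      ← mul_assoc (pzz J p * pbb J p), (aeval_eigen hcz i).1, smul_mul_assoc, smul_mul_assoc]
  set c := (pa0 J p).det⁻¹ - 1
  set E := aeval (pbb J p) (lag (nu p.1) 0) with hE
  have hab : paa J p * pbb J p = pzz J p * pbb J p * paa J p := by
    have hcomm : (1 + c • E) * pbb J p = pbb J p * (1 + c • E) := by
      rw [add_mul, mul_add, one_mul, mul_one, smul_mul_assoc, mul_smul_comm,
        (aeval_eigen hcb 0).1, (aeval_eigen hcb 0).2]
    rw [paa, mul_assoc, hcomm, ← mul_assoc, hint, mul_assoc (pzz J p * pbb J p)]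
  have hda : (paa J p).det = 1 := by
    have h1 : (1 + c • E).det = 1 + c := det_one_add_smul_lag hν hKu hTt hTd 0 c
    rw [paa, det_mul, h1]
    simp [c, mul_inv_cancel₀ (show (pa0 J p).det ≠ 0 from h₀)]
  have hfj : ∀ j, (p.2 j).det ≠ 0 := by
    simp only [Set.mem_ofPred_eq, pden₁, mul_ne_zero_iff, Finset.prod_ne_zero_iff] at h₁
    exact fun j => h₁.2 j (Finset.mem_univ j)
  refine ⟨⟨fun i => ?_, fun i => ?_⟩, hfj, ?_⟩
  · refine Fin.cases ?_ (fun i => ?_) i
    · simpa [pchartMap] using hda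
    · simpa [pchartMap] using hd.1 i
  · refine Fin.cases ?_ (fun i => ?_) i
    · simpa [pchartMap] using hdb
    · simpa [pchartMap] using hd.2 i
  · have hd' : DetOne (pchartMap J p).1 := by
      refine ⟨fun i => ?_, fun i => ?_⟩
      · refine Fin.cases ?_ (fun i => ?_) i
        · simpa [pchartMap] using hda
        · simpa [pchartMap] using hd.1 i
      · refine Fin.cases ?_ (fun i => ?_) i
        · simpa [pchartMap] using hdb
        · simpa [pchartMap] using hd.2 i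
    show prodC (pchartMap J p).1 * punctProd J p.2 = 1
    rw [prodC_eq_rel hd', pchartMap, rel_cons, hab]
    have e1 : pzz J p * pbb J p * paa J p * adjugate (paa J p) * adjugate (pbb J p) = pzz J p := by
      rw [mul_assoc _ (paa J p), mul_adjugate, hda, one_smul, mul_one, mul_assoc, mul_adjugate, hdb,
        one_smul, mul_one]
    rw [e1, mul_assoc, pzz, adjugate_mul, det_mul, det_rel_adjugate hd,
      det_punctProd J hJ hfj, one_mul, one_smul]

theorem ratSet_pdom_and_rat (hJ : ∀ j, (J j).det = 1) : RatSet (pdom g J) ∧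
    (∀ v, RatOn (pdom g J) fun p => coordsP (pchartMap J p) v) ∧
      ∀ v, RatOn (pdom g J) fun p => coordsP (theta J (pchartMap J p)) v := by
  have hmat : ∀ φ : (CPrmP g s (m + 2)) →ₗ[ℂ] Mat (m + 2) ℂ, Continuous φ → RatMat (Set.univ : Set (CPrmP g s (m + 2))) fun p => φ p :=
    fun φ hφ i j => RatOn.of_pol (Pol.linear
      ⟨{ toFun := fun p => φ p i j
         map_add' := fun x y => by simp
         map_smul' := fun c x => by simp }, hφ.matrix_elem i j⟩)
  have hH₁ : ∀ k, RatMat (Set.univ : Set (CPrmP g s (m + 2))) fun p => p.1.1.1 k := fun k =>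
    hmat { toFun := fun p => p.1.1.1 k, map_add' := fun _ _ => rfl, map_smul' := fun _ _ => rfl }
      (show Continuous fun p : (CPrmP g s (m + 2)) => p.1.1.1 k by fun_prop)
  have hH₂ : ∀ k, RatMat (Set.univ : Set (CPrmP g s (m + 2))) fun p => p.1.1.2 k := fun k =>
    hmat { toFun := fun p => p.1.1.2 k, map_add' := fun _ _ => rfl, map_smul' := fun _ _ => rfl }
      (show Continuous fun p : (CPrmP g s (m + 2)) => p.1.1.2 k by fun_prop)
  have hG : RatMat (Set.univ : Set (CPrmP g s (m + 2))) fun p => p.1.2.1 :=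
    hmat { toFun := fun p => p.1.2.1, map_add' := fun _ _ => rfl, map_smul' := fun _ _ => rfl }
      (show Continuous fun p : (CPrmP g s (m + 2)) => p.1.2.1 by fun_prop)
  have hX : RatMat (Set.univ : Set (CPrmP g s (m + 2))) fun p => p.1.2.2.2 :=
    hmat { toFun := fun p => p.1.2.2.2, map_add' := fun _ _ => rfl, map_smul' := fun _ _ => rfl }
      (show Continuous fun p : (CPrmP g s (m + 2)) => p.1.2.2.2 by fun_prop)
  have hμ : ∀ i, RatOn (Set.univ : Set (CPrmP g s (m + 2))) fun p => p.1.2.2.1 i := fun i =>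
    RatOn.of_pol (Pol.linear
      ⟨{ toFun := fun p : (CPrmP g s (m + 2)) => p.1.2.2.1 i, map_add' := fun _ _ => rfl, map_smul' := fun _ _ => rfl },
        show Continuous fun p : (CPrmP g s (m + 2)) => p.1.2.2.1 i by fun_prop⟩)
  have hF : ∀ j, RatMat (Set.univ : Set (CPrmP g s (m + 2))) fun p : (CPrmP g s (m + 2)) => p.2 j := fun j =>
    hmat { toFun := fun p : (CPrmP g s (m + 2)) => p.2 j, map_add' := fun _ _ => rfl, map_smul' := fun _ _ => rfl }
      (show Continuous fun p : (CPrmP g s (m + 2)) => p.2 j by fun_prop)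
  have hden : RatOn (Set.univ : Set (CPrmP g s (m + 2))) pden₁ :=
    ((((RatOn.prod _ _ fun k _ => (hH₁ k).det).mul (RatOn.prod _ _ fun k _ => (hH₂ k).det)).mul
      hG.det).mul (RatOn.prod _ _ fun i _ => hμ i)).mul (RatOn.prod _ _ fun j _ => (hF j).det)
  set Ω₁ : Set (CPrmP g s (m + 2)) := Set.univ ∩ {p | pden₁ p ≠ 0} with hΩ₁
  have h₁ : RatSet Ω₁ := ratSet_univ.inter_ne_zero hden
  have hsub₁ : Ω₁ ⊆ Set.univ := Set.subset_univ _
  have hne : ∀ p ∈ Ω₁, (∀ k, (p.1.1.1 k).det ≠ 0) ∧ (∀ k, (p.1.1.2 k).det ≠ 0) ∧ p.1.2.1.det ≠ 0 ∧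
      (∏ j, p.1.2.2.1 j ≠ 0) ∧ ∀ j, (p.2 j).det ≠ 0 := by
    intro p hp
    have h := hp.2
    simp only [Set.mem_ofPred_eq, pden₁, den₁, mul_ne_zero_iff] at h
    exact ⟨fun k => Finset.prod_ne_zero_iff.1 h.1.1.1.1 k (Finset.mem_univ k),
      fun k => Finset.prod_ne_zero_iff.1 h.1.1.1.2 k (Finset.mem_univ k), h.1.1.2, h.1.2,
      fun j => Finset.prod_ne_zero_iff.1 h.2 j (Finset.mem_univ j)⟩
  have hupd : ∀ (F : (CPrmP g s (m + 2)) → ℂ), RatOn Ω₁ F → ∀ i : Fin (m + 2),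
      RatOn Ω₁ fun p => Function.update (1 : Fin (m + 2) → ℂ) 0 (F p) i := by
    intro F hF i
    by_cases h : i = 0
    · subst h; simpa using hF
    · simpa [h] using RatOn.const (V := CPrmP g s (m + 2)) (Ω := Ω₁) 1
  have hnd : ∀ (F : (CPrmP g s (m + 2)) → Mat (m + 2) ℂ), RatMat Ω₁ F → (∀ p ∈ Ω₁, (F p).det ≠ 0) →
      RatMat Ω₁ fun p => nd (F p) := fun F hF h0 =>
    hF.mul (RatMat.diagonal (hupd _ (hF.det.inv h0)))
  have hh₁ : ∀ k, RatMat Ω₁ fun p => (hh p.1).1 k := fun k =>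
    hnd _ ((hH₁ k).mono hsub₁) fun p hp => (hne p hp).1 k
  have hh₂ : ∀ k, RatMat Ω₁ fun p => (hh p.1).2 k := fun k =>
    hnd _ ((hH₂ k).mono hsub₁) fun p hp => (hne p hp).2.1 k
  have hff : ∀ j, RatMat Ω₁ fun p => p.2 j := fun j => (hF j).mono hsub₁
  have hcj : ∀ j, RatMat Ω₁ fun p => p.2 j * J j * (p.2 j)⁻¹ := fun j =>
    ((hff j).mul (RatMat.const (J j))).mul ((hff j).inv fun p hp => (hne p hp).2.2.2.2 j)
  have hz : RatMat Ω₁ (pzz J (g := g)) := by
    refine RatMat.adjugate (RatMat.mul ?_ ?_)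
    · have := RatMat.list_prod (List.ofFn fun k => fun p : (CPrmP g s (m + 2)) =>
        (hh p.1).1 k * (hh p.1).2 k * adjugate ((hh p.1).1 k) * adjugate ((hh p.1).2 k)) fun f hf => by
          obtain ⟨k, rfl⟩ := List.mem_ofFn.1 hf
          exact ((hh₁ k).mul (hh₂ k)).mul (hh₁ k).adjugate |>.mul (hh₂ k).adjugate
      simpa [rel, List.map_ofFn, Function.comp_def] using this
    · have := RatMat.list_prod (List.ofFn fun j => fun p : (CPrmP g s (m + 2)) =>
        p.2 j * J j * (p.2 j)⁻¹) fun f hf => by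
          obtain ⟨j, rfl⟩ := List.mem_ofFn.1 hf
          exact hcj j
      simpa [punctProd, List.map_ofFn, Function.comp_def] using this
  have hν₁ : ∀ i, RatOn Ω₁ fun p : (CPrmP g s (m + 2)) => nu p.1 i := fun i =>
    ((hμ i).mono hsub₁).mul (hupd _ ((RatOn.prod _ _ fun j _ => (hμ j).mono hsub₁).inv
      fun p hp => (hne p hp).2.2.2.1) i)
  have hd₂ : RatOn Ω₁ fun p : (CPrmP g s (m + 2)) => den₂ p.1 :=
    RatOn.prod _ _ fun i _ => RatOn.prod _ _ fun j _ => (hν₁ i).sub (hν₁ j)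
  set Ω₂ : Set (CPrmP g s (m + 2)) := Ω₁ ∩ {p | den₂ p.1 ≠ 0} with hΩ₂
  have h₂ : RatSet Ω₂ := h₁.inter_ne_zero hd₂
  have hs₂ : Ω₂ ⊆ Ω₁ := Set.inter_subset_left
  have hmz : RatMat Ω₁ (pmz J (g := g)) :=
    (((hG.mono hsub₁).inv fun p hp => (hne p hp).2.2.1).mul hz).mul (hG.mono hsub₁)
  obtain ⟨h₃, hW, hWi, hL, hU⟩ := fac_rat (m + 1) Ω₂ (pmz J) h₂ (hmz.mono hs₂)
  set Ω₃ : Set (CPrmP g s (m + 2)) := Ω₂ ∩ {p | NZ (m + 1) (pmz J p)} with hΩ₃
  have hs₃ : Ω₃ ⊆ Ω₁ := Set.inter_subset_left.trans hs₂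
  have hfacts : ∀ p ∈ Ω₃, DetOne (hh p.1) ∧ IsUnit (pkk J p).det ∧ UpU (fac (m + 1) (pmz J p)).U ∧
      pzz J p * pbb J p = pkk J p * ((fac (m + 1) (pmz J p)).L * diagonal (nu p.1)) * (pkk J p)⁻¹ ∧
      (pbb J p).det = 1 ∧ LoU (fac (m + 1) (pmz J p)).L := fun p hp => pchart_facts J hJ hp.1.1.2 hp.2
  have hK : RatMat Ω₃ (pkk J (g := g)) := ((hG.mono hsub₁).mono hs₃).mul hW
  have hν : ∀ i, RatOn Ω₃ fun p : (CPrmP g s (m + 2)) => nu p.1 i := fun i => (hν₁ i).mono hs₃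
  have hb : RatMat Ω₃ (pbb J (g := g)) :=
    (hK.mul ((hU.inv fun p hp => by rw [(hfacts p hp).2.2.1.det]; exact one_ne_zero).mul
      (RatMat.diagonal hν))).mul (hK.inv fun p hp => (hfacts p hp).2.1.ne_zero)
  have hlag : ∀ (A : (CPrmP g s (m + 2)) → Mat (m + 2) ℂ), RatMat Ω₃ A → ∀ i,
      RatMat Ω₃ fun p => aeval (A p) (lag (nu p.1) i) := by
    intro A hA i
    simp only [aeval_lag]
    have := RatMat.list_prod (((Finset.univ.erase i).toList).map fun j => fun p : (CPrmP g s (m + 2)) =>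
      (nu p.1 i - nu p.1 j)⁻¹ • (A p - nu p.1 j • (1 : Mat (m + 2) ℂ))) fun f hf => by
        obtain ⟨j, hj, rfl⟩ := List.mem_map.1 hf
        refine RatMat.smul (((hν i).sub (hν j)).inv fun p hp => sub_ne_zero.2 fun e => ?_)
          (hA.sub (RatMat.smul (hν j) (RatMat.const 1)))
        exact (Finset.mem_erase.1 (Finset.mem_toList.1 hj)).1 (nu_injective hp.1.2 e).symm
    simpa [List.map_map, Function.comp_def] using this
  have ha₀ : RatMat Ω₃ (pa0 J (g := g)) :=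
    RatMat.sum _ _ fun i _ => ((hlag _ ((hz.mono hs₃).mul hb) i).mul
      ((hX.mono hsub₁).mono hs₃)).mul (hlag _ hb i)
  have h₄ : RatSet (pdom g J) := h₃.inter_ne_zero ha₀.det
  have hs₄ : pdom g J ⊆ Ω₃ := Set.inter_subset_left
  have ha : RatMat (pdom g J) (paa J (g := g)) :=
    (ha₀.mono hs₄).mul ((RatMat.const 1).add (RatMat.smul
      ((((ha₀.mono hs₄).det).inv fun p hp => hp.2).sub (RatOn.const 1))
        ((hlag _ hb 0).mono hs₄)))
  have hH : ∀ v, RatOn (pdom g J) fun p => coords (pchartMap J p).1 v := by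
    rintro (⟨k, i, j⟩ | ⟨k, i, j⟩)
    · refine Fin.cases ?_ (fun k => ?_) k
      · exact (ha i j).congr fun p _ => rfl
      · exact ((hh₁ k i j).mono (hs₄.trans hs₃)).congr fun p _ => rfl
    · refine Fin.cases ?_ (fun k => ?_) k
      · exact ((hb i j).mono hs₄).congr fun p _ => rfl
      · exact ((hh₂ k i j).mono (hs₄.trans hs₃)).congr fun p _ => rfl
  refine ⟨h₄, ?_, ?_⟩
  · rintro (v | ⟨k, i, j⟩)
    · exact (hH v).congr fun p _ => rfl
    · exact ((hff k i j).mono (hs₄.trans hs₃)).congr fun p _ => rfl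
  · rintro (v | ⟨k, i, j⟩)
    · exact (hH v).congr fun p _ => rfl
    · exact ((hcj k i j).mono (hs₄.trans hs₃)).congr fun p _ => rfl

theorem exists_preimageP (hJ : ∀ j, (J j).det = 1) {x : PTup (g + 2) s (m + 2)} (hx : RepH J x)
    (hs : OStar (x.1.1 0) (x.1.2 0)) : ∃ p ∈ pdom g J, pchartMap J p = x := by
  obtain ⟨S, P, L, μ, hS, hμi, hμ0, hP, hPd, hL, hLd, hPs, hb, ha⟩ := hs
  set Λ := diagonal μ with hΛ
  set Λi : Mat (m + 2) ℂ := diagonal fun i => (μ i)⁻¹ with hΛi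
  have hΛΛi : Λ * Λi = 1 := by simp [hΛ, hΛi, hμ0]
  have hΛiΛ : Λi * Λ = 1 := by simp [hΛ, hΛi, hμ0]
  have hPu : IsUnit P.det := isUnit_iff_ne_zero.2 (det_tri_ne_zero hP hPd)
  have hLu : IsUnit L.det := isUnit_iff_ne_zero.2 (det_ltri_ne_zero hL hLd)
  have hdb : (x.1.2 0).det = 1 := hx.1.2 0
  have hda : (x.1.1 0).det = 1 := hx.1.1 0
  have hprod : ∏ j, μ j = 1 := by
    rw [hb, det_conj_of hS, det_diagonal]
      at hdb
    exact hdb
  set p : CPrmP g s (m + 2) := ((tailT x.1, S * P, μ, x.1.1 0), x.2) with hp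
  have hhh : hh p.1 = tailT x.1 := by
    refine Prod.ext (funext fun i => ?_) (funext fun i => ?_)
    · exact nd_eq_self (hx.1.1 i.succ)
    · exact nd_eq_self (hx.1.2 i.succ)
  have hnu : nu p.1 = μ := by
    funext i
    simp only [nu, hp, hprod, inv_one]
    rw [show Function.update (1 : Fin (m + 2) → ℂ) 0 1 = 1 by simp [Function.update_eq_self_iff]]
    simp
  have hz : pzz J p = x.1.1 0 * x.1.2 0 * (x.1.1 0)⁻¹ * (x.1.2 0)⁻¹ := by
    have hdR : (rel adjugate (tailT x.1) * punctProd J x.2).det = 1 := by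
      rw [det_mul, det_rel_adjugate ⟨fun i => hx.1.1 i.succ, fun i => hx.1.2 i.succ⟩,
        det_punctProd J hJ hx.2.1, one_mul]
    have h1 : x.1.1 0 * x.1.2 0 * adjugate (x.1.1 0) * adjugate (x.1.2 0) *
        (rel adjugate (tailT x.1) * punctProd J x.2) = 1 := by
      have h2 : prodC x.1 * punctProd J x.2 = 1 := hx.2.2
      rw [← mul_assoc, ← rel_cons]
      rw [prodC_eq_rel hx.1] at h2
      simpa [tailT] using h2
    have hp2 : p.2 = x.2 := rfl
    rw [pzz, hhh, hp2, ← adjugate_eq_nonsing_inv hda, ← adjugate_eq_nonsing_inv hdb]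
    calc adjugate (rel adjugate (tailT x.1) * punctProd J x.2)
        = x.1.1 0 * x.1.2 0 * adjugate (x.1.1 0) * adjugate (x.1.2 0) *
            (rel adjugate (tailT x.1) * punctProd J x.2) *
            adjugate (rel adjugate (tailT x.1) * punctProd J x.2) := by rw [h1, one_mul]
      _ = _ := by rw [mul_assoc, mul_adjugate, hdR, one_smul, mul_one]
  set Lo := L * Λ * L⁻¹ * Λi with hLo
  set Up := Λ * P⁻¹ * Λi * P with hUp
  have hPi := tri_inv hP hPu.ne_zero
  have hLi := tri_inv hL hLu.ne_zero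
  have hd := fun (f : Fin (m + 2) → ℂ) => blockTriangular_diagonal (b := id) f
  have hd' := fun (f : Fin (m + 2) → ℂ) => blockTriangular_diagonal (b := OrderDual.toDual) f
  have hLoU : LoU Lo := by
    refine ⟨((hL.mul (hd' _)).mul hLi).mul (hd' _), fun i => ?_⟩
    rw [hLo, mul_diagonal, tri_mul_apply OrderDual.toDual.injective (hL.mul (hd' _)) hLi,
      tri_inv_apply OrderDual.toDual.injective hL hLu.ne_zero, mul_diagonal]
    field_simp [hLd i, hμ0 i]
  have hUpU : UpU Up := by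
    refine ⟨(((hd _).mul hPi).mul (hd _)).mul hP, fun i => ?_⟩
    rw [hUp, tri_mul_apply Function.injective_id (((hd _).mul hPi).mul (hd _)) hP, mul_diagonal,
      diagonal_mul, tri_inv_apply Function.injective_id hP hPu.ne_zero]
    field_simp [hPd i, hμ0 i]
  have hmz : pmz J p = Lo * Up := by
    have hai : (x.1.1 0)⁻¹ = S * (L⁻¹ * P⁻¹) * S⁻¹ := by
      rw [ha, Matrix.mul_inv_rev, Matrix.mul_inv_rev, Matrix.mul_inv_rev,
        Matrix.nonsing_inv_nonsing_inv S hS]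
      simp only [mul_assoc]
    have hbi : (x.1.2 0)⁻¹ = S * Λi * S⁻¹ := by
      rw [hb, Matrix.mul_inv_rev, Matrix.mul_inv_rev, Matrix.nonsing_inv_nonsing_inv S hS,
        inv_eq_right_inv hΛΛi, mul_assoc]
    have hΛiΛ' : ∀ N : Mat (m + 2) ℂ, Λi * (Λ * N) = N := fun N => by
      rw [← mul_assoc, hΛiΛ, one_mul]
    rw [pmz, hz, hai, hbi, ha, hb, hLo, hUp, hp]
    simp only [Matrix.mul_inv_rev, mul_assoc, hΛiΛ', Matrix.nonsing_inv_mul_cancel_left _ _ hS,
      Matrix.nonsing_inv_mul_cancel_left _ _ hPu]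
  have hsup : ∀ i j : Fin (m + 2), (j : ℕ) = i + 1 → Up i j ≠ 0 := by
    intro i j hij h0
    have hne : i ≠ j := fun e => by rw [e] at hij; omega
    have hkey : P * (Λi * Up) = Λi * P := by
      simp only [hUp, ← mul_assoc]
      rw [mul_assoc P Λi Λ, hΛiΛ, mul_one, Matrix.mul_nonsing_inv P hPu, one_mul]
    have h1 := congrFun (congrFun hkey i) j
    rw [Matrix.mul_apply, Finset.sum_eq_add i j hne, diagonal_mul, diagonal_mul, diagonal_mul, h0,
      hUpU.2, mul_zero, mul_zero, zero_add, mul_one] at h1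
    · have h2 : ((μ j)⁻¹ - (μ i)⁻¹) * P i j = 0 := by linear_combination h1
      exact hne (hμi (inv_injective (sub_eq_zero.1
        ((mul_eq_zero.1 h2).resolve_right (hPs i j hij))))).symm
    · intro k _ hk
      rcases lt_or_ge k i with h | h
      · rw [hP (show id k < id i from h), zero_mul]
      · have hjk : j < k := by
          rcases lt_trichotomy k j with h' | h' | h'
          · exfalso
            have h1 : (i : ℕ) ≤ k := h
            have h2 : (k : ℕ) < j := h'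
            exact hk.1 (Fin.ext (by omega))
          · exact absurd h' hk.2
          · exact h'
        rw [diagonal_mul, hUpU.1 (show id j < id k from hjk), mul_zero, mul_zero]
    · intro h; exact absurd (Finset.mem_univ i) h
    · intro h; exact absurd (Finset.mem_univ j) h
  obtain ⟨hnz, hfac⟩ := fac_fixed (m + 1) Lo Up hLoU hUpU hsup
  rw [← hmz] at hnz hfac
  have hkk : pkk J p = S * P := by rw [pkk, hfac]; simp [hp]
  have hUinv : Up⁻¹ = P⁻¹ * Λ * P * Λi := by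
    refine inv_eq_right_inv ?_
    simp only [hUp, mul_assoc]
    rw [Matrix.mul_nonsing_inv_cancel_left _ _ hPu, ← mul_assoc Λi Λ, hΛiΛ, one_mul,
      Matrix.nonsing_inv_mul_cancel_left _ _ hPu, hΛΛi]
  have hbb : pbb J p = x.1.2 0 := by
    rw [pbb, hkk, hfac, hnu, hb]
    simp only [hUinv, ← hΛ, Matrix.mul_inv_rev, mul_assoc,
      Matrix.mul_nonsing_inv_cancel_left _ _ hPu]
    rw [← mul_assoc Λi Λ, hΛiΛ, one_mul, Matrix.mul_nonsing_inv_cancel_left _ _ hPu]
  have hcb : (x.1.2 0).charpoly = ∏ j, (X - C (μ j)) := by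
    rw [hb, charpoly_conj hS, charpoly_diagonal]
  have hau : IsUnit (x.1.1 0).det := by rw [hda]; exact isUnit_one
  have hbu : IsUnit (x.1.2 0).det := by rw [hdb]; exact isUnit_one
  have hsc : x.1.1 0 * x.1.2 0 = pzz J p * x.1.2 0 * x.1.1 0 := by
    rw [hz, Matrix.nonsing_inv_mul_cancel_right _ _ hbu,
      Matrix.nonsing_inv_mul_cancel_right _ _ hau]
  have ha0 : pa0 J p = x.1.1 0 := by
    rw [pa0, hbb, hnu]
    calc ∑ i, aeval (pzz J p * x.1.2 0) (lag μ i) * x.1.1 0 * aeval (x.1.2 0) (lag μ i)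
        = ∑ i, x.1.1 0 * aeval (x.1.2 0) (lag μ i) := by
          refine Finset.sum_congr rfl fun i _ => ?_
          rw [← aeval_semiconj hsc, mul_assoc, aeval_lag_idem hμi (by omega) hcb]
      _ = x.1.1 0 := by rw [← Finset.mul_sum, sum_aeval_lag hμi (by omega), mul_one]
  refine ⟨p, ⟨⟨⟨⟨trivial, ?_⟩, ?_⟩, hnz⟩, ?_⟩, ?_⟩
  · simp only [Set.mem_ofPred_eq, pden₁, den₁, hp, mul_ne_zero_iff, Finset.prod_ne_zero_iff]
    refine ⟨⟨⟨⟨fun i _ => ?_, fun i _ => ?_⟩, ?_⟩, fun j _ => hμ0 j⟩, fun j _ => hx.2.1 j⟩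
    · simp [tailT, Fin.tail, hx.1.1]
    · simp [tailT, Fin.tail, hx.1.2]
    · rw [det_mul]; exact (hS.mul hPu).ne_zero
  · simp only [Set.mem_ofPred_eq, den₂, hnu, Finset.prod_ne_zero_iff]
    exact fun i _ j hj => sub_ne_zero.2 fun e => (Finset.mem_erase.1 hj).1 (hμi e).symm
  · simp [ha0, hda]
  · have haa : paa J p = x.1.1 0 := by rw [paa, ha0, hda]; simp
    rw [pchartMap, hhh, hbb, haa]
    exact Prod.ext (Prod.ext (Fin.cons_self_tail x.1.1) (Fin.cons_self_tail x.1.2)) rfl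

/-- There is a rational map from an open set of parameters to the representations, whose image
contains every representation with first handle in normal form. -/
theorem exists_chartP (g m : ℕ) {s : ℕ} (K : Fin s → Mat (m + 2) ℂ) (hK : ∀ j, (K j).det = 1) :
    ∃ (Ω : Set (CPrmP g s (m + 2))) (Ψ : CPrmP g s (m + 2) → PTup (g + 2) s (m + 2)),
      RatSet Ω ∧ (∀ v, RatOn Ω fun p => coordsP (Ψ p) v) ∧
      (∀ v, RatOn Ω fun p => coordsP (theta K (Ψ p)) v) ∧ (∀ p ∈ Ω, RepH K (Ψ p)) ∧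
      ∀ x, RepH K x → OStar (x.1.1 0) (x.1.2 0) → ∃ p ∈ Ω, Ψ p = x :=
  ⟨pdom g K, pchartMap K, (ratSet_pdom_and_rat K hK).1, (ratSet_pdom_and_rat K hK).2.1,
    (ratSet_pdom_and_rat K hK).2.2, fun _ hp => repH_pchartMap K hK hp,
    fun _ hx hs => exists_preimageP K hK hx hs⟩

end Vale.Agent.P002
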