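import Vale.Agent.P002.Punct.Basic
import Vale.Agent.P002.Full.ChartDef

/-!
The rational map from parameters to representations with given boundary classes.
-/

namespace Vale.Agent.P002

open Matrix Polynomial

/-- The parameters: those of the closed chart and a conjugator for each puncture. -/
abbrev CPrmP (g s r : ℕ) : Type := CPrm g r × (Fin s → Mat r ℂ)

variable {g s m : ℕ} (J : Fin s → Mat (m + 2) ℂ)

/-- The product of the puncture matrices. -/
noncomputable def punctProd (h : Fin s → Mat (m + 2) ℂ) : Mat (m + 2) ℂ :=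
  (List.ofFn fun j => h j * J j * (h j)⁻¹).prod

/-- The commutator which the first handle has to produce. -/
noncomputable def pzz (p : CPrmP g s (m + 2)) : Mat (m + 2) ℂ :=
  adjugate (rel adjugate (hh p.1) * punctProd J p.2)

/-- The commutator in the frame. -/
noncomputable def pmz (p : CPrmP g s (m + 2)) : Mat (m + 2) ℂ := p.1.2.1⁻¹ * pzz J p * p.1.2.1

/-- The corrected frame. -/
noncomputable def pkk (p : CPrmP g s (m + 2)) : Mat (m + 2) ℂ := p.1.2.1 * (fac (m + 1) (pmz J p)).W

/-- The second matrix of the first handle. -/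
noncomputable def pbb (p : CPrmP g s (m + 2)) : Mat (m + 2) ℂ :=
  pkk J p * ((fac (m + 1) (pmz J p)).U⁻¹ * diagonal (nu p.1)) * (pkk J p)⁻¹

/-- A matrix intertwining `pbb` with `pzz * pbb`. -/
noncomputable def pa0 (p : CPrmP g s (m + 2)) : Mat (m + 2) ℂ :=
  ∑ i, aeval (pzz J p * pbb J p) (lag (nu p.1) i) * p.1.2.2.2 * aeval (pbb J p) (lag (nu p.1) i)

/-- The first matrix of the first handle. -/
noncomputable def paa (p : CPrmP g s (m + 2)) : Mat (m + 2) ℂ :=
  pa0 J p * (1 + ((pa0 J p).det⁻¹ - 1) • aeval (pbb J p) (lag (nu p.1) 0))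

/-- The chart. -/
noncomputable def pchartMap (p : CPrmP g s (m + 2)) : PTup (g + 2) s (m + 2) :=
  ((Fin.cons (paa J p) (hh p.1).1, Fin.cons (pbb J p) (hh p.1).2), p.2)

/-- The first denominators. -/
noncomputable def pden₁ (p : CPrmP g s (m + 2)) : ℂ := den₁ p.1 * ∏ j, (p.2 j).det

variable (g)

/-- The domain of the chart. -/
noncomputable def pdom : Set (CPrmP g s (m + 2)) :=
  (((Set.univ ∩ {p | pden₁ p ≠ 0}) ∩ {p | den₂ p.1 ≠ 0}) ∩ {p | NZ (m + 1) (pmz J p)}) ∩
    {p | (pa0 J p).det ≠ 0}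

end Vale.Agent.P002
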