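import Vale.Agent.P002.Punct.Basic
import Vale.Agent.P002.Punct.Slide

/-!
The loops of the slides generate the matrix algebra, and the velocities of the slides span the
variations of the other matrices.
-/

namespace Vale.Agent.P002

open Matrix

variable {k s r : ℕ}

/-- The velocity of the inverse slide in conjugator coordinates, seen from the loop. -/
noncomputable def dMove (γ : GIdx k s) (t : Tup k (Mat r ℂ)) (h : Fin s → Mat r ℂ) :
    Mat r ℂ →ₗ[ℂ] PTup k s r :=
  match γ with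
  | Sum.inl (Sum.inl i) =>
      ((((LinearMap.single ℂ (fun _ => Mat r ℂ) i).comp
          (LinearMap.mulLeft ℂ (t.1 i) - LinearMap.mulRight ℂ (t.1 i))).prod
        ((LinearMap.single ℂ (fun _ => Mat r ℂ) i).comp (LinearMap.mulLeft ℂ (t.2 i)))).prod 0)
  | Sum.inl (Sum.inr i) =>
      ((((LinearMap.single ℂ (fun _ => Mat r ℂ) i).comp (-LinearMap.mulRight ℂ (t.1 i))).prod 0).prod
        0)
  | Sum.inr j =>
      LinearMap.prod 0 (LinearMap.pi fun l => if l ≤ j then -LinearMap.mulRight ℂ (h l) else 0)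

/-- Conjugation by the inverse of what stands before the loop. -/
noncomputable def toLoop (γ : GIdx k s) (t : Tup k (Mat r ℂ)) : Mat r ℂ →ₗ[ℂ] Mat r ℂ :=
  (LinearMap.mulRight ℂ (gS (fun a : Mat r ℂ => a⁻¹) γ t)).comp
    (LinearMap.mulLeft ℂ (gS (fun a : Mat r ℂ => a⁻¹) γ t)⁻¹)

/-- The velocity of the inverse slide. -/
noncomputable def dSlide (γ : GIdx k s) (t : Tup k (Mat r ℂ)) (h : Fin s → Mat r ℂ) :
    Mat r ℂ →ₗ[ℂ] PTup k s r :=
  (dMove γ t h).comp (toLoop γ t)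

/-- A finite dimensional subalgebra contains the inverses of its invertible members. -/
theorem inv_mem_subalgebra (A : Subalgebra ℂ (Mat r ℂ)) {a : Mat r ℂ} (ha : a ∈ A)
    (hd : a.det ≠ 0) : a⁻¹ ∈ A := by
  have hu : IsUnit a.det := isUnit_iff_ne_zero.2 hd
  let L : A →ₗ[ℂ] A := LinearMap.mulLeft ℂ (⟨a, ha⟩ : A)
  have hinj : Function.Injective L := by
    intro x y e
    have e' : a * (x : Mat r ℂ) = a * (y : Mat r ℂ) := congrArg Subtype.val e
    have h2 := congrArg (fun M => a⁻¹ * M) e'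
    simp only [← mul_assoc, Matrix.nonsing_inv_mul a hu, one_mul] at h2
    exact Subtype.ext h2
  obtain ⟨x, hx⟩ := LinearMap.injective_iff_surjective.1 hinj 1
  have hx' : a * (x : Mat r ℂ) = 1 := congrArg Subtype.val hx
  rw [inv_eq_right_inv hx']
  exact x.2

theorem det_list_prod_ne_zero (l : List (Mat r ℂ)) (h : ∀ a ∈ l, a.det ≠ 0) : l.prod.det ≠ 0 := by
  induction l with
  | nil => simp
  | cons a l ih =>
    rw [List.prod_cons, det_mul]
    exact mul_ne_zero (h a (by simp)) (ih fun b hb => h b (by simp [hb]))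

theorem det_cmt_ne_zero {t : Tup k (Mat r ℂ)} (ht : Good t) (i : Fin k) :
    (cmt (fun a : Mat r ℂ => a⁻¹) t i).det ≠ 0 := by
  simp [cmt, det_mul, det_nonsing_inv, Ring.inverse_eq_inv', ht.1 i, ht.2 i]

theorem det_take_cmt_ne_zero {t : Tup k (Mat r ℂ)} (ht : Good t) (m : ℕ) :
    ((List.ofFn (cmt (fun a : Mat r ℂ => a⁻¹) t)).take m).prod.det ≠ 0 := by
  refine det_list_prod_ne_zero _ fun a ha => ?_
  obtain ⟨i, rfl⟩ := List.mem_ofFn.1 (List.mem_of_mem_take ha)
  exact det_cmt_ne_zero ht i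

theorem det_gS_ne_zero {t : Tup k (Mat r ℂ)} (ht : Good t) (γ : GIdx k s) :
    (gS (fun a : Mat r ℂ => a⁻¹) γ t).det ≠ 0 := by
  rcases γ with (i | i) | j
  · exact det_take_cmt_ne_zero ht i
  · exact det_take_cmt_ne_zero ht i
  · refine det_list_prod_ne_zero _ fun a ha => ?_
    obtain ⟨i, rfl⟩ := List.mem_ofFn.1 ha
    exact det_cmt_ne_zero ht i

theorem adjoin_gU {H : PTup k s r} (hH : GoodP H) (hirr : IrredF (famP H)) :
    Algebra.adjoin ℂ (Set.range fun γ : GIdx k s =>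
      gU (fun a : Mat r ℂ => a⁻¹) γ H.1 H.2) = ⊤ := by
  set A := Algebra.adjoin ℂ (Set.range fun γ : GIdx k s =>
    gU (fun a : Mat r ℂ => a⁻¹) γ H.1 H.2)
  have hU : ∀ γ : GIdx k s, gU (fun a : Mat r ℂ => a⁻¹) γ H.1 H.2 ∈ A :=
    fun γ => Algebra.subset_adjoin ⟨γ, rfl⟩
  have hW : ∀ γ : GIdx k s, gS (fun a : Mat r ℂ => a⁻¹) γ H.1 ∈ A →
      gW (fun a : Mat r ℂ => a⁻¹) γ H.1 H.2 ∈ A := by
    intro γ hS
    have hu : IsUnit (gS (fun a : Mat r ℂ => a⁻¹) γ H.1).det :=
      isUnit_iff_ne_zero.2 (det_gS_ne_zero hH.1 γ)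
    have := mul_mem (mul_mem (inv_mem_subalgebra A hS hu.ne_zero) (hU γ)) hS
    simpa only [gU, mul_assoc, Matrix.nonsing_inv_mul _ hu, mul_one,
      Matrix.nonsing_inv_mul_cancel_left _ _ hu] using this
  set l := List.ofFn (cmt (fun a : Mat r ℂ => a⁻¹) H.1) with hl
  have hstep : ∀ m, m ≤ k → (l.take m).prod ∈ A ∧
      ∀ i : Fin k, (i : ℕ) < m → H.1.1 i ∈ A ∧ H.1.2 i ∈ A := by
    intro m
    induction m with
    | zero => exact fun _ => ⟨by simp, fun i hi => absurd hi (Nat.not_lt_zero _)⟩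
    | succ m ih =>
      intro hm
      obtain ⟨hS, hall⟩ := ih (Nat.le_of_succ_le hm)
      let i₀ : Fin k := ⟨m, hm⟩
      have hp : H.1.1 i₀ ∈ A := hW (Sum.inl (Sum.inl i₀)) hS
      have hpq : H.1.1 i₀ * H.1.2 i₀ * (H.1.1 i₀)⁻¹ ∈ A := hW (Sum.inl (Sum.inr i₀)) hS
      have hu : IsUnit (H.1.1 i₀).det := isUnit_iff_ne_zero.2 (hH.1.1 i₀)
      have hpi := inv_mem_subalgebra A hp hu.ne_zero
      have hq : H.1.2 i₀ ∈ A := by
        have := mul_mem (mul_mem hpi hpq) hp
        simpa only [mul_assoc, Matrix.nonsing_inv_mul _ hu, mul_one,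
          Matrix.nonsing_inv_mul_cancel_left _ _ hu] using this
      refine ⟨?_, fun i hi => ?_⟩
      · rw [List.prod_take_succ l m (by simp [hl]; omega)]
        refine mul_mem hS ?_
        have e : l[m]'(by simp [hl]; omega) = cmt (fun a : Mat r ℂ => a⁻¹) H.1 i₀ := by
          simp [hl, i₀]
        rw [e]
        exact mul_mem (mul_mem (mul_mem hp hq) hpi) (inv_mem_subalgebra A hq (hH.1.2 i₀))
      · rcases Nat.lt_succ_iff_lt_or_eq.1 hi with h | h
        · exact hall i h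
        · have e : i = i₀ := Fin.ext h
          exact e ▸ ⟨hp, hq⟩
  obtain ⟨hR, hall⟩ := hstep k le_rfl
  have hR' : rel (fun a : Mat r ℂ => a⁻¹) H.1 ∈ A := by
    rwa [List.take_of_length_le (by simp [hl])] at hR
  have hpre : ∀ m, m ≤ s → ((List.ofFn H.2).take m).prod ∈ A := by
    intro m hm
    rcases Nat.eq_zero_or_pos m with rfl | h
    · simp
    · have := hW (Sum.inr ⟨m - 1, by omega⟩) hR'
      simp only [gW, Sum.elim_inr, Nat.sub_add_cancel h] at this
      exact this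
  have hc : ∀ j, H.2 j ∈ A := by
    intro j
    have h1 := hpre j (le_of_lt j.isLt)
    have h2 := hpre (j + 1) j.isLt
    rw [List.prod_take_succ _ _ (by simp)] at h2
    set P := ((List.ofFn H.2).take j).prod with hP
    have hu : IsUnit P.det := isUnit_iff_ne_zero.2 (det_list_prod_ne_zero _ fun a ha => by
      obtain ⟨i, rfl⟩ := List.mem_ofFn.1 (List.mem_of_mem_take ha)
      exact hH.2 i)
    have := mul_mem (inv_mem_subalgebra A h1 hu.ne_zero) h2
    simpa [Matrix.nonsing_inv_mul_cancel_left _ _ hu] using this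
  refine eq_top_iff.2 (hirr.symm.le.trans (Algebra.adjoin_le ?_))
  rintro _ ⟨(i | i) | j, rfl⟩
  · exact (hall i i.isLt).1
  · exact (hall i i.isLt).2
  · exact hc j

/-- A functional killing the velocities of traceless matrices and the scalings of the conjugators
kills every variation. -/
theorem mem_span_dSlide {H : PTup k s r} (hH : GoodP H) (v : PTup k s r)
    (h1 : ∀ i, ((H.1.1 i)⁻¹ * v.1.1 i).trace = 0) (h2 : ∀ i, ((H.1.2 i)⁻¹ * v.1.2 i).trace = 0) :
    v ∈ Submodule.span ℂ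
      ({w | ∃ (γ : GIdx k s) (X : Mat r ℂ), X.trace = 0 ∧ w = dSlide γ H.1 H.2 X} ∪
        {w | ∃ c : Fin s → ℂ, w = (0, fun l => c l • H.2 l)}) := by
  set V := Submodule.span ℂ
      ({w | ∃ (γ : GIdx k s) (X : Mat r ℂ), X.trace = 0 ∧ w = dSlide γ H.1 H.2 X} ∪
        {w | ∃ c : Fin s → ℂ, w = (0, fun l => c l • H.2 l)})
  have hD : ∀ (γ : GIdx k s) (Y : Mat r ℂ), Y.trace = 0 → dMove γ H.1 H.2 Y ∈ V := by
    intro γ Y hY
    have hu : IsUnit (gS (fun a : Mat r ℂ => a⁻¹) γ H.1).det :=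
      isUnit_iff_ne_zero.2 (det_gS_ne_zero hH.1 γ)
    set S := gS (fun a : Mat r ℂ => a⁻¹) γ H.1 with hS
    refine Submodule.subset_span (Or.inl ⟨γ, S * Y * S⁻¹, ?_, ?_⟩)
    · rw [trace_mul_cycle, Matrix.nonsing_inv_mul _ hu, one_mul, hY]
    · simp only [dSlide, LinearMap.comp_apply, toLoop, LinearMap.mulRight_apply,
        LinearMap.mulLeft_apply, ← hS]
      simp only [mul_assoc, Matrix.nonsing_inv_mul _ hu, mul_one,
        Matrix.nonsing_inv_mul_cancel_left _ _ hu]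
  have he1 : ∀ i (M : Mat r ℂ), ((H.1.1 i)⁻¹ * M).trace = 0 →
      ((Pi.single i M, 0), 0) ∈ V := by
    intro i M hM
    have hu : IsUnit (H.1.1 i).det := isUnit_iff_ne_zero.2 (hH.1.1 i)
    have h := hD (Sum.inl (Sum.inr i)) (-(M * (H.1.1 i)⁻¹))
      (by rw [trace_neg, trace_mul_comm, hM, neg_zero])
    simpa [dMove, mul_assoc, Matrix.nonsing_inv_mul _ hu, Pi.single_neg] using h
  have he2 : ∀ i (M : Mat r ℂ), ((H.1.2 i)⁻¹ * M).trace = 0 →
      ((0, Pi.single i M), 0) ∈ V := by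
    intro i M hM
    have hu : IsUnit (H.1.2 i).det := isUnit_iff_ne_zero.2 (hH.1.2 i)
    have hv : IsUnit (H.1.1 i).det := isUnit_iff_ne_zero.2 (hH.1.1 i)
    set Y := (H.1.2 i)⁻¹ * M with hY
    have h := hD (Sum.inl (Sum.inl i)) Y hM
    have h' := he1 i (H.1.1 i * Y - Y * H.1.1 i) (by
      rw [mul_sub, trace_sub, Matrix.nonsing_inv_mul_cancel_left _ _ hv, trace_mul_comm _ (Y * _),
        mul_assoc, Matrix.mul_nonsing_inv _ hv, mul_one, sub_self])
    have := V.sub_mem h h'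
    simpa [dMove, hY, Matrix.mul_nonsing_inv_cancel_left _ _ hu] using this
  have hT : ∀ (Y : Mat r ℂ), Y.trace = 0 → ∀ m, m ≤ s →
      ((0, fun l : Fin s => if (l : ℕ) < m then Y * H.2 l else 0) : PTup k s r) ∈ V := by
    intro Y hY m hm
    rcases Nat.eq_zero_or_pos m with rfl | h
    · simp only [Nat.not_lt_zero, if_false]
      exact V.zero_mem
    · have h' := hD (Sum.inr ⟨m - 1, by omega⟩) (-Y) (by rw [trace_neg, hY, neg_zero])
      convert h' using 1
      refine Prod.ext rfl (funext fun l => ?_)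
      have hiff : l ≤ (⟨m - 1, by omega⟩ : Fin s) ↔ (l : ℕ) < m := by
        rw [Fin.le_def]; simp only; omega
      simp only [dMove, LinearMap.prod_apply, Function.prod_apply, LinearMap.pi_apply]
      by_cases hl : (l : ℕ) < m
      · rw [if_pos hl, if_pos (hiff.2 hl)]; simp
      · rw [if_neg hl, if_neg fun e => hl (hiff.1 e)]; simp
  have he3 : ∀ l (M : Mat r ℂ), ((0, Pi.single l M) : PTup k s r) ∈ V := by
    intro l M
    have hu : IsUnit (H.2 l).det := isUnit_iff_ne_zero.2 (hH.2 l)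
    set c : ℂ := (M * (H.2 l)⁻¹).trace / r
    set Y := M * (H.2 l)⁻¹ - c • (1 : Mat r ℂ) with hY
    have hY0 : Y.trace = 0 := by
      rcases Nat.eq_zero_or_pos r with h | h
      · subst h; simp [Matrix.trace]
      · have hr : (r : ℂ) ≠ 0 := Nat.cast_ne_zero.2 h.ne'
        simp [hY, c, trace_sub, trace_smul, trace_one, hr]
    have hs : ((0, fun x : Fin s => (Pi.single l c : Fin s → ℂ) x • H.2 x) : PTup k s r) ∈ V :=
      Submodule.subset_span (Or.inr ⟨_, rfl⟩)
    have := V.add_mem (V.sub_mem (hT Y hY0 (l + 1) l.isLt) (hT Y hY0 l (le_of_lt l.isLt))) hs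
    convert this using 1
    refine Prod.ext (by simp) (funext fun x => ?_)
    simp only [Prod.snd_add, Prod.snd_sub, Pi.add_apply, Pi.sub_apply]
    by_cases hx : x = l
    · subst hx
      simp [hY, sub_mul, mul_assoc, Matrix.nonsing_inv_mul _ hu]
    · have hne : (x : ℕ) ≠ l := fun e => hx (Fin.ext e)
      rcases lt_or_gt_of_ne hne with hlt | hlt
      · simp [Pi.single_eq_of_ne hx, hlt, hlt.trans (Nat.lt_succ_self _)]
      · simp [Pi.single_eq_of_ne hx, not_lt.2 hlt.le, not_lt.2 (Nat.succ_le_of_lt hlt)]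
  have hv : v = (∑ i, ((Pi.single i (v.1.1 i), 0), 0)) + (∑ i, ((0, Pi.single i (v.1.2 i)), 0)) +
      ∑ l, ((0, Pi.single l (v.2 l)) : PTup k s r) := by
    refine Prod.ext (Prod.ext ?_ ?_) ?_ <;>
      simp [Prod.fst_sum, Prod.snd_sum, Finset.univ_sum_single]
  rw [hv]
  exact V.add_mem (V.add_mem (V.sum_mem fun i _ => he1 i _ (h1 i))
    (V.sum_mem fun i _ => he2 i _ (h2 i))) (V.sum_mem fun l _ => he3 l _)

end Vale.Agent.P002
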