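import Vale.Agent.P002.Punct.Smooth
import Vale.Agent.P002.Punct.Gen

/-!
The derivative of the inverse slide where the second matrix of the first handle is trivial, and the
composites of slides along words.
-/

namespace Vale.Agent.P002

open Matrix Filter Topology
open scoped Matrix.Norms.Operator

variable {n k s r : ℕ} {K : Fin s → Mat r ℂ}

theorem GoodH.tail {x : PTup (k + 1) s r} (hx : GoodH x) : GoodH (tailP x) :=
  ⟨⟨fun i => hx.1.1 i.succ, fun i => hx.1.2 i.succ⟩, hx.2⟩

theorem consA_tail {R : Type*} [One R] (A : R) (H : Tup k R × (Fin s → R)) :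
    ((Fin.tail (consA A H).1.1, Fin.tail (consA A H).1.2) : Tup k R) = H.1 := by
  simp [consA]

theorem tailP_consA (A : Mat r ℂ) (H : PTup k s r) : tailP (consA A H) = H := by
  simp [tailP, tailT, consA]

theorem goodH_consA {A : Mat r ℂ} (hA : A.det = 1) {H : PTup k s r} (hH : GoodH H) :
    GoodH (consA A H) := by
  refine ⟨⟨fun i => ?_, fun i => ?_⟩, hH.2⟩
  · refine Fin.cases ?_ (fun i => ?_) i
    · simpa [consA] using hA
    · simpa [consA] using hH.1.1 i
  · refine Fin.cases ?_ (fun i => ?_) i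
    · simp [consA]
    · simpa [consA] using hH.1.2 i

theorem det_uVal (hK : ∀ j, (K j).det = 1) (γ : GIdx k s) {H : PTup k s r} (hH : GoodH H) :
    (uVal K γ H).det = 1 := by
  obtain ⟨q, hq⟩ := exists_lift (x := theta K H) hH.1 (hH.det_theta hK)
  have e : uVal K γ H = gU (fun a : Mat r ℂ => a⁻¹) γ (theta K H).1 (theta K H).2 := rfl
  have h := gU_map (slCoe r ℂ) (fun a : Matrix.SpecialLinearGroup (Fin r) ℂ => a⁻¹)
    (fun a : Mat r ℂ => a⁻¹) slCoe_nonsing_inv γ q.1 q.2
  rw [e, ← hq]
  change (gU (fun a : Mat r ℂ => a⁻¹) γ (mapTup (slCoe r ℂ) q.1) (slCoe r ℂ ∘ q.2)).det = 1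
  rw [h]
  exact Matrix.SpecialLinearGroup.det_coe _

theorem gB_one (γ : GIdx k s) {t : Tup k (Mat r ℂ)} (ht : Good t) :
    gB (fun a : Mat r ℂ => a⁻¹) γ t 1 = 1 := by
  rw [gB, mul_one, Matrix.nonsing_inv_mul _ (by rw [det_gS γ ht]; exact isUnit_one)]

theorem updT_one (γ : GIdx k s) (t : Tup k (Mat r ℂ)) : updT γ 1 1 t = t := by
  rcases γ with (i | i) | j
  · simp [updT]
  · simp [updT]
  · rfl

theorem updH_one (γ : GIdx k s) (h : Fin s → Mat r ℂ) : updH γ 1 h = h := by
  rcases γ with γ | j
  · rfl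
  · funext l
    simp [updH]

theorem slideH_consA (hK : ∀ j, (K j).det = 1) (γ : GIdx k s) (A : Mat r ℂ) {H : PTup k s r}
    (hH : GoodH H) : slideH K γ (consA A H) = consA (A * uVal K γ H) H := by
  have hu : IsUnit (uVal K γ H).det := by rw [det_uVal hK γ hH]; exact isUnit_one
  simp only [slideH, tailP_consA]
  simp only [consA, Fin.cons_zero, mul_one, Matrix.nonsing_inv_mul _ hu,
    gB_one γ (good_of_detOne hH.1), inv_one, updT_one, updH_one]

theorem unslideH_consA (γ : GIdx k s) (A : Mat r ℂ) {H : PTup k s r}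
    (hH : GoodH H) (hu : IsUnit (uVal K γ H).det) :
    unslideH K γ (consA A H) = consA (A * (uVal K γ H)⁻¹) H := by
  simp only [unslideH, tailP_consA]
  simp only [consA, Fin.cons_zero, gB_one γ (good_of_detOne hH.1), inv_one, updT_one, updH_one,
    mul_one]
  rw [Matrix.mul_nonsing_inv _ hu]

theorem hasDerivAt_coord {c : ℂ → PTup n s r} {v : PTup n s r} (hc : HasDerivAt c v 0) :
    (∀ i, HasDerivAt (fun t => (c t).1.1 i) (v.1.1 i) 0) ∧
      (∀ i, HasDerivAt (fun t => (c t).1.2 i) (v.1.2 i) 0) ∧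
      ∀ j, HasDerivAt (fun t => (c t).2 j) (v.2 j) 0 := by
  have h1 : HasDerivAt (fun t => (c t).1) v.1 0 := (hasFDerivAt_fst.comp_hasDerivAt 0 hc :)
  have h2 : HasDerivAt (fun t => (c t).2) v.2 0 := (hasFDerivAt_snd.comp_hasDerivAt 0 hc :)
  exact ⟨fun i => hasDerivAt_pi.1 (hasFDerivAt_fst.comp_hasDerivAt 0 h1 :) i,
    fun i => hasDerivAt_pi.1 (hasFDerivAt_snd.comp_hasDerivAt 0 h1 :) i,
    fun j => hasDerivAt_pi.1 h2 j⟩

theorem goodP_unslideH_consA (hK : ∀ j, (K j).det = 1) (γ : GIdx k s) {A : Mat r ℂ}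
    (hA : A.det = 1) {H : PTup k s r} (hH : GoodH H) :
    GoodP (unslideH K γ (consA A H)) :=
  (goodH_slideH hK γ (goodH_consA hA hH)).2.good

theorem differentiableAt_unslideH (hK : ∀ j, (K j).det = 1) (γ : GIdx k s) {A : Mat r ℂ}
    (hA : A.det = 1) {H : PTup k s r} (hH : GoodH H) :
    DifferentiableAt ℂ (unslideH K γ) (consA A H) := by
  refine (contDiffAt_unslideH γ (goodH_consA hA hH).good (goodP_unslideH_consA hK γ hA hH)
    ?_).differentiableAt one_ne_zero
  rw [unslideH_consA γ A hH (by rw [det_uVal hK γ hH]; exact isUnit_one), tailP_consA,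
    det_uVal hK γ hH]
  exact one_ne_zero

/-- The derivative of the inverse slide along a curve through a point with trivial `b`. -/
theorem hasDerivAt_unslideH (hK : ∀ j, (K j).det = 1) (γ : GIdx k s) {A : Mat r ℂ}
    (hA : A.det = 1) {H : PTup k s r} (hH : GoodH H) {c : ℂ → PTup (k + 1) s r}
    {v : PTup (k + 1) s r} (hc : HasDerivAt c v 0) (h0 : c 0 = consA A H) :
    ∃ w, HasDerivAt (fun t => unslideH K γ (c t)) w 0 ∧
      w.1.2 0 = uVal K γ H * v.1.2 0 * (uVal K γ H)⁻¹ ∧
      tailP w = tailP v + dSlide γ H.1 H.2 (v.1.2 0) := by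
  have hd : DifferentiableAt ℂ (fun t => unslideH K γ (c t)) 0 := by
    have h := differentiableAt_unslideH hK γ hA hH
    rw [← h0] at h
    exact DifferentiableAt.comp (g := unslideH K γ) 0 h hc.differentiableAt
  refine ⟨_, hd.hasDerivAt, ?_⟩
  obtain ⟨hw1, hw2, hw3⟩ := hasDerivAt_coord hd.hasDerivAt
  obtain ⟨hc1, hc2, hc3⟩ := hasDerivAt_coord hc
  set X := v.1.2 0
  have hgH : Good H.1 := good_of_detOne hH.1
  -- the conjugate `B`
  let t : ℂ → Tup k (Mat r ℂ) := fun z => (tailP (c z)).1
  have ht0 : t 0 = H.1 := by simp only [t, h0, tailP_consA]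
  have hSd : DifferentiableAt ℂ (fun z => gS (fun a : Mat r ℂ => a⁻¹) γ (t z)) 0 := by
    have hS := (contDiffAt_gS (x := c 0) (t := fun e : PTup (k + 1) s r => (tailP e).1) γ
      (fun i => (contDiffAt_coord (c 0)).1 i.succ) (fun i => (contDiffAt_coord (c 0)).2.1 i.succ)
      (show Good (t 0) by rw [ht0]; exact hgH)).differentiableAt one_ne_zero
    exact DifferentiableAt.comp (g := fun e : PTup (k + 1) s r =>
      gS (fun a : Mat r ℂ => a⁻¹) γ (tailP e).1) 0 hS hc.differentiableAt
  set S := gS (fun a : Mat r ℂ => a⁻¹) γ H.1 with hSdef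
  have hSu : IsUnit S.det := by rw [hSdef, det_gS γ hgH]; exact isUnit_one
  have hb0 : (c 0).1.2 0 = 1 := by simp [h0, consA]
  let Y : Mat r ℂ := S⁻¹ * X * S
  have hB : HasDerivAt (fun z => gB (fun a : Mat r ℂ => a⁻¹) γ (t z) ((c z).1.2 0)) Y 0 := by
    have h := ((hasDerivAt_inv' hSd.hasDerivAt (by rw [ht0, det_gS γ hgH]; exact one_ne_zero)).mul
      (hc2 0)).mul hSd.hasDerivAt
    refine h.congr_deriv ?_
    simp only [ht0, hb0, mul_one, add_mul, neg_mul, Pi.mul_apply, ← hSdef,
      Matrix.nonsing_inv_mul_cancel_right _ _ hSu, Y, X]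
    abel
  have hB0 : gB (fun a : Mat r ℂ => a⁻¹) γ (t 0) ((c 0).1.2 0) = 1 := by
    rw [ht0, hb0, gB_one γ hgH]
  have hBi : HasDerivAt (fun z => (gB (fun a : Mat r ℂ => a⁻¹) γ (t z) ((c z).1.2 0))⁻¹) (-Y) 0 := by
    refine (hasDerivAt_inv' hB (by rw [hB0, det_one]; exact one_ne_zero)).congr_deriv ?_
    rw [hB0, inv_one, one_mul, mul_one]
  have hY : toLoop γ H.1 X = Y := rfl
  have e1 : ∀ i, (c 0).1.1 (Fin.succ i) = H.1.1 i := fun i => by simp [h0, consA]
  have e2 : ∀ i, (c 0).1.2 (Fin.succ i) = H.1.2 i := fun i => by simp [h0, consA]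
  have e3 : ∀ l, (c 0).2 l = H.2 l := fun l => by simp [h0, consA]
  have hu : HasDerivAt (fun z => uVal K γ (tailP (unslideH K γ (c z))))
      (deriv (fun z => uVal K γ (tailP (unslideH K γ (c z)))) 0) 0 := by
    refine DifferentiableAt.hasDerivAt ?_
    have h00 : unslideH K γ (c 0) = consA (A * (uVal K γ H)⁻¹) H := by
      rw [h0, unslideH_consA γ A hH (by rw [det_uVal hK γ hH]; exact isUnit_one)]
    have hU := (contDiffAt_uVal (K := K) (x := unslideH K γ (c 0))
      (H := fun e : PTup (k + 1) s r => tailP e) γ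
      (fun i => (contDiffAt_coord _).1 i.succ) (fun i => (contDiffAt_coord _).2.1 i.succ)
      (contDiffAt_coord _).2.2 (by rw [h00, tailP_consA]; exact hH.good)).differentiableAt one_ne_zero
    exact DifferentiableAt.comp (g := fun e : PTup (k + 1) s r => uVal K γ (tailP e)) 0 hU hd
  constructor
  · have h00 : unslideH K γ (c 0) = consA (A * (uVal K γ H)⁻¹) H := by
      rw [h0, unslideH_consA γ A hH (by rw [det_uVal hK γ hH]; exact isUnit_one)]
    have hUu : IsUnit (uVal K γ H).det := by rw [det_uVal hK γ hH]; exact isUnit_one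
    have h := (hu.mul (hc2 0)).mul (hasDerivAt_inv' hu (by
      rw [h00, tailP_consA, det_uVal hK γ hH]; exact one_ne_zero))
    refine (hw2 0).unique (h.congr_deriv ?_)
    simp only [h00, tailP_consA, hb0, mul_one, add_mul, Pi.mul_apply, mul_neg, ← mul_assoc,
      Matrix.mul_nonsing_inv _ hUu, one_mul, X]
    abel
  refine Prod.ext (Prod.ext (funext fun l => ?_) (funext fun l => ?_)) (funext fun l => ?_)
  · refine (hw1 l.succ).unique ?_
    rcases γ with (i | i) | j
    · by_cases h : l = i
      · subst h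
        have h' := (hBi.mul (hc1 l.succ)).mul hB
        simp only [Pi.mul_apply, hB0, e1, inv_one, mul_one, one_mul] at h'
        refine HasDerivAt.congr_of_eventuallyEq (h'.congr_deriv ?_) (Eventually.of_forall fun z => ?_)
        · simp [tailP, tailT, Fin.tail, dSlide, dMove, hY, neg_mul]
          abel
        · simp [unslideH, updT, t, tailP, tailT, Fin.tail]
      · refine HasDerivAt.congr_of_eventuallyEq ((hc1 l.succ).congr_deriv ?_)
          (Eventually.of_forall fun z => ?_)
        · simp [tailP, tailT, Fin.tail, dSlide, dMove, h]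
        · simp [unslideH, updT, t, tailP, tailT, Fin.tail, h]
    · by_cases h : l = i
      · subst h
        have h' := hBi.mul (hc1 l.succ)
        simp only [hB0, e1, inv_one, one_mul] at h'
        refine HasDerivAt.congr_of_eventuallyEq (h'.congr_deriv ?_) (Eventually.of_forall fun z => ?_)
        · simp [tailP, tailT, Fin.tail, dSlide, dMove, hY, neg_mul]
          abel
        · simp [unslideH, updT, t, tailP, tailT, Fin.tail]
      · refine HasDerivAt.congr_of_eventuallyEq ((hc1 l.succ).congr_deriv ?_)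
          (Eventually.of_forall fun z => ?_)
        · simp [tailP, tailT, Fin.tail, dSlide, dMove, h]
        · simp [unslideH, updT, t, tailP, tailT, Fin.tail, h]
    · refine HasDerivAt.congr_of_eventuallyEq ((hc1 l.succ).congr_deriv ?_)
        (Eventually.of_forall fun z => ?_)
      · simp [tailP, tailT, Fin.tail, dSlide, dMove]
      · simp [unslideH, updT, t, tailP, tailT, Fin.tail]
  · refine (hw2 l.succ).unique ?_
    rcases γ with (i | i) | j
    · by_cases h : l = i
      · subst h
        have h' := (hc2 l.succ).mul hB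
        simp only [hB0, e2, mul_one] at h'
        refine HasDerivAt.congr_of_eventuallyEq (h'.congr_deriv ?_) (Eventually.of_forall fun z => ?_)
        · simp [tailP, tailT, Fin.tail, dSlide, dMove, hY]
        · simp [unslideH, updT, t, tailP, tailT, Fin.tail]
      · refine HasDerivAt.congr_of_eventuallyEq ((hc2 l.succ).congr_deriv ?_)
          (Eventually.of_forall fun z => ?_)
        · simp [tailP, tailT, Fin.tail, dSlide, dMove, h]
        · simp [unslideH, updT, t, tailP, tailT, Fin.tail, h]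
    · refine HasDerivAt.congr_of_eventuallyEq ((hc2 l.succ).congr_deriv ?_)
        (Eventually.of_forall fun z => ?_)
      · simp [tailP, tailT, Fin.tail, dSlide, dMove]
      · simp [unslideH, updT, t, tailP, tailT, Fin.tail]
    · refine HasDerivAt.congr_of_eventuallyEq ((hc2 l.succ).congr_deriv ?_)
        (Eventually.of_forall fun z => ?_)
      · simp [tailP, tailT, Fin.tail, dSlide, dMove]
      · simp [unslideH, updT, t, tailP, tailT, Fin.tail]
  · refine (hw3 l).unique ?_
    rcases γ with γ | j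
    · refine HasDerivAt.congr_of_eventuallyEq ((hc3 l).congr_deriv ?_)
        (Eventually.of_forall fun z => ?_)
      · rcases γ with i | i <;> simp [tailP, dSlide, dMove]
      · simp [unslideH, updH]
    · by_cases h : l ≤ j
      · have h' := hBi.mul (hc3 l)
        simp only [hB0, e3, inv_one, one_mul] at h'
        refine HasDerivAt.congr_of_eventuallyEq (h'.congr_deriv ?_) (Eventually.of_forall fun z => ?_)
        · simp [tailP, dSlide, dMove, hY, h, neg_mul]
          abel
        · simp [unslideH, updH, t, h]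
      · refine HasDerivAt.congr_of_eventuallyEq ((hc3 l).congr_deriv ?_)
          (Eventually.of_forall fun z => ?_)
        · simp [tailP, dSlide, dMove, h]
        · simp [unslideH, updH, h]

end Vale.Agent.P002
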