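import Vale.Agent.P002.Punct.Words
import Vale.Agent.P002.Full.Open

/-!
The velocities of the twist flows seen through words of slides span all variations allowed by the
relation, when the other matrices generate the matrix algebra.
-/

namespace Vale.Agent.P002

open Matrix Filter Topology
open scoped Matrix.Norms.Operator

variable {k s r : ℕ}

/-- The matrix representing a functional for the trace pairing. -/
def dualMat (φ : Mat r ℂ →ₗ[ℂ] ℂ) : Mat r ℂ := Matrix.of fun a b => φ (single b a 1)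

theorem trace_dualMat (φ : Mat r ℂ →ₗ[ℂ] ℂ) (X : Mat r ℂ) : (dualMat φ * X).trace = φ X := by
  conv_rhs => rw [matrix_eq_sum_single X]
  simp only [map_sum]
  rw [Matrix.trace, Finset.sum_comm]
  refine Finset.sum_congr rfl fun i _ => ?_
  rw [diag_apply, Matrix.mul_apply]
  refine Finset.sum_congr rfl fun j _ => ?_
  rw [show single j i (X j i) = X j i • single j i (1 : ℂ) by simp [smul_single], map_smul,
    smul_eq_mul, mul_comm, dualMat, Matrix.of_apply]

/-- The traceless part, linearly. -/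
noncomputable def slL (r : ℕ) : Mat r ℂ →ₗ[ℂ] Mat r ℂ := (slM r).subtype.comp (slP r)

theorem slL_of_trace {X : Mat r ℂ} (h : X.trace = 0) : slL r X = X := by
  simp [slL, slP_of_mem h]

theorem slL_apply (X : Mat r ℂ) : slL r X = X - (X.trace / (r : ℂ)) • 1 := rfl

theorem slL_eq_pw (X : Mat r ℂ) : slL r X = pw X 1 := by simp [slL_apply, pw]

theorem slL_conj (hr : r ≠ 0) {U : Mat r ℂ} (hU : IsUnit U.det) (X : Mat r ℂ) :
    slL r (U * X * U⁻¹) = U * slL r X * U⁻¹ := by
  rw [slL_apply, slL_apply, Matrix.trace_mul_cycle, Matrix.nonsing_inv_mul _ hU, one_mul, mul_sub,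
    sub_mul, Matrix.mul_smul, mul_one, Matrix.smul_mul, Matrix.mul_nonsing_inv _ hU]

/-- A derivation of the matrix algebra is inner. -/
theorem derivation_inner [NeZero r] (D : Mat r ℂ →ₗ[ℂ] Mat r ℂ)
    (hD : ∀ M N, D (M * N) = D M * N + M * D N) : ∃ Z, ∀ M, D M = Z * M - M * Z := by
  refine ⟨∑ i, D (single i 0 1) * single 0 i 1, fun M => ?_⟩
  have h1 : ∀ i : Fin r, M * single i (0 : Fin r) (1 : ℂ) =
      ∑ k, M k i • single k (0 : Fin r) (1 : ℂ) := fun i => by
    ext a b
    simp [Matrix.mul_apply, Matrix.sum_apply, Matrix.single_apply, Finset.sum_ite_eq,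
      ite_and, eq_comm]
  have h2 : ∑ i, D (M * single i 0 1) * single 0 i (1 : ℂ) =
      (∑ i, D (single i 0 1) * single 0 i 1) * M := by
    have h4 : ∀ i, D (M * single i 0 1) = ∑ k, M k i • D (single k 0 1) := fun i => by
      refine (congrArg D (h1 i)).trans ?_
      simp only [map_sum, map_smul]
    simp only [h4, Finset.sum_mul, Matrix.smul_mul]
    rw [Finset.sum_comm]
    refine Finset.sum_congr rfl fun k _ => ?_
    rw [mul_assoc]
    simp only [← Matrix.mul_smul, ← Finset.mul_sum]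
    congr 1
    ext a b
    simp [Matrix.mul_apply, Matrix.sum_apply, Matrix.single_apply, ite_and]
  have h3 : ∀ i : Fin r, single i (0 : Fin r) (1 : ℂ) * single (0 : Fin r) i (1 : ℂ) =
      single i i (1 : ℂ) := fun i => by
    rw [single_mul_single_same, mul_one]
  rw [← h2]
  simp only [hD, add_mul, Finset.sum_add_distrib, mul_assoc, h3, ← Finset.mul_sum]
  rw [show (∑ i, single i i (1 : ℂ) : Mat r ℂ) = 1 by rw [sum_single_eq_diagonal]; exact diagonal_one,
    mul_one, add_sub_cancel_right]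

variable {K : Fin s → Mat r ℂ}

/-- The span of the velocities of twist flows through words of slides and of scalings of
conjugators. -/
noncomputable def velSpan (K : Fin s → Mat r ℂ) (H : PTup k s r) :
    Submodule ℂ (Mat r ℂ × PTup k s r) :=
  Submodule.span ℂ (Set.range (fun w : List (GIdx k s) =>
    ((uW K H w * pw (uW K H w) 1 * (uW K H w)⁻¹, dW K H w (pw (uW K H w) 1)) :
      Mat r ℂ × PTup k s r)) ∪
    {z | ∃ c : Fin s → ℂ, z = (0, (0, fun l => c l • H.2 l))})

/-- Multiplication of pairs as dual numbers. -/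
def pmul (p q : Mat r ℂ × Mat r ℂ) : Mat r ℂ × Mat r ℂ := (p.1 * q.1, p.2 * q.1 + p.1 * q.2)

theorem mem_velSpan (hr : r ≠ 0) (hK : ∀ j, (K j).det = 1) {H : PTup k s r} (hH : GoodH H)
    (hirr : IrredF (famP (theta K H))) (Lr : PTup k s r →ₗ[ℂ] Mat r ℂ)
    (hL : ∀ (γ : GIdx k s) (X : Mat r ℂ), X.trace = 0 → Lr (dSlide γ H.1 H.2 X) =
      uVal K γ H * X * (uVal K γ H)⁻¹ - X)
    (hL0 : ∀ c : Fin s → ℂ, Lr (0, fun l => c l • H.2 l) = 0)
    {β : Mat r ℂ} {η : PTup k s r} (hβ : β.trace = 0)
    (h1 : ∀ i, ((H.1.1 i)⁻¹ * η.1.1 i).trace = 0) (h2 : ∀ i, ((H.1.2 i)⁻¹ * η.1.2 i).trace = 0)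
    (hη : Lr η = 0) : (β, η) ∈ velSpan K H := by
  by_contra hmem
  have : NeZero r := ⟨hr⟩
  obtain ⟨ℓ, hℓ, hℓ0⟩ := Submodule.exists_dual_map_eq_bot_of_notMem hmem inferInstance
  have hkill : ∀ z ∈ velSpan K H, ℓ z = 0 := fun z hz => by
    have : ℓ z ∈ (velSpan K H).map ℓ := Submodule.mem_map_of_mem hz
    rwa [hℓ0, Submodule.mem_bot] at this
  let ℓb : Mat r ℂ →ₗ[ℂ] ℂ := ℓ.comp ((LinearMap.inl ℂ (Mat r ℂ) (PTup k s r)).comp (slL r))
  let ℓh : PTup k s r →ₗ[ℂ] ℂ := ℓ.comp (LinearMap.inr ℂ (Mat r ℂ) (PTup k s r))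
  let Ω : List (GIdx k s) → Mat r ℂ := fun w => dualMat (ℓh.comp ((dW K H w).comp (slL r)))
  set κ := dualMat ℓb with hκ
  set U : List (GIdx k s) → Mat r ℂ := uW K H with hUdef
  have hUu : ∀ w, IsUnit (U w).det := fun w => by
    rw [hUdef, det_uW hK hH w]; exact isUnit_one
  let δ : List (GIdx k s) → Mat r ℂ := fun w => U w * Ω w
  have hvel : ∀ w, (κ * U w).trace + (δ w).trace = 0 := fun w => by
    have h := hkill _ (Submodule.subset_span (Or.inl ⟨w, rfl⟩))
    have e : U w * pw (U w) 1 * (U w)⁻¹ = slL r (U w) := by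
      rw [← slL_eq_pw, ← slL_conj hr (hUu w), Matrix.mul_nonsing_inv_cancel_right _ _ (hUu w)]
    simp only at h
    rw [show ((uW K H w * pw (uW K H w) 1 * (uW K H w)⁻¹, dW K H w (pw (uW K H w) 1)) :
        Mat r ℂ × PTup k s r) = (slL r (U w), 0) + (0, dW K H w (slL r (U w))) by
      rw [Prod.mk_add_mk, add_zero, zero_add, e, slL_eq_pw], map_add] at h
    rw [hκ, trace_dualMat, show δ w = U w * Ω w from rfl, trace_mul_comm, trace_dualMat]
    exact h
  have hΩ : ∀ v w, Ω (v ++ w) = Ω w + (U w)⁻¹ * Ω v * U w := fun v w => by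
    refine Matrix.ext_iff_trace_mul_right.2 fun X => ?_
    rw [trace_dualMat, add_mul, trace_add, trace_dualMat, mul_assoc, mul_assoc,
      trace_mul_comm (U w)⁻¹, mul_assoc, trace_dualMat]
    simp only [LinearMap.comp_apply, dW_append, map_add, conjL_apply, hUdef]
    rw [slL_conj hr (hUu w)]
  have hδ : ∀ v w, δ (v ++ w) = δ v * U w + U v * δ w := fun v w => by
    simp only [δ, hΩ, hUdef, uW_append, mul_add]
    rw [add_comm, mul_assoc (uW K H v), mul_assoc (uW K H v) (uW K H w),
      mul_assoc (uW K H w)⁻¹, Matrix.mul_nonsing_inv_cancel_left _ _ (hUu w)]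
    simp only [mul_assoc]
  -- the algebra of pairs
  let P : List (GIdx k s) → Mat r ℂ × Mat r ℂ := fun w => (U w, δ w)
  set S := Submodule.span ℂ (Set.range P) with hS
  have hmul : ∀ p ∈ S, ∀ q ∈ S, pmul p q ∈ S := by
    intro p hp q hq
    induction hp using Submodule.span_induction with
    | mem p hp =>
      obtain ⟨v, rfl⟩ := hp
      induction hq using Submodule.span_induction with
      | mem q hq =>
        obtain ⟨w, rfl⟩ := hq
        exact Submodule.subset_span ⟨v ++ w, by simp [P, pmul, hδ, hUdef, uW_append]⟩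
      | zero => simp [pmul]; exact S.zero_mem
      | add a b _ _ ha hb =>
        have e : pmul (P v) (a + b) = pmul (P v) a + pmul (P v) b := by
          simp only [pmul, Prod.fst_add, Prod.snd_add, mul_add, Prod.mk_add_mk]
          congr 1
          abel
        rw [e]
        exact add_mem ha hb
      | smul c a _ ha =>
        have e : pmul (P v) (c • a) = c • pmul (P v) a := by simp [pmul, smul_add]
        rw [e]
        exact S.smul_mem c ha
    | zero => simp [pmul]; exact S.zero_mem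
    | add a b _ _ ha hb =>
      have e : pmul (a + b) q = pmul a q + pmul b q := by
        simp only [pmul, Prod.fst_add, Prod.snd_add, add_mul, Prod.mk_add_mk]
        congr 1
        abel
      rw [e]
      exact add_mem ha hb
    | smul c a _ ha =>
      have e : pmul (c • a) q = c • pmul a q := by simp [pmul, smul_add]
      rw [e]
      exact S.smul_mem c ha
  have hfst : ∀ M : Mat r ℂ, ∃ d, (M, d) ∈ S := by
    intro M
    have hM : M ∈ Algebra.adjoin ℂ (Set.range fun γ : GIdx k s =>
        gU (fun a : Mat r ℂ => a⁻¹) γ (theta K H).1 (theta K H).2) := by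
      rw [adjoin_gU (H := theta K H) ⟨good_of_detOne hH.1,
        fun j => by rw [hH.det_theta hK j]; exact one_ne_zero⟩ hirr]
      trivial
    induction hM using Algebra.adjoin_induction with
    | mem M hM =>
      obtain ⟨γ, rfl⟩ := hM
      exact ⟨δ [γ], Submodule.subset_span ⟨[γ], Prod.ext
        (by simp [P, hUdef, uW, uVal, theta]) rfl⟩⟩
    | algebraMap c =>
      refine ⟨c • δ [], ?_⟩
      have h := S.smul_mem c (Submodule.subset_span ⟨[], rfl⟩ : P [] ∈ S)
      simpa [P, hUdef, uW, Algebra.algebraMap_eq_smul_one] using h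
    | add a b _ _ ha hb =>
      obtain ⟨d, hd⟩ := ha
      obtain ⟨e, he⟩ := hb
      exact ⟨d + e, by simpa using add_mem hd he⟩
    | mul a b _ _ ha hb =>
      obtain ⟨d, hd⟩ := ha
      obtain ⟨e, he⟩ := hb
      exact ⟨d * b + a * e, hmul _ hd _ he⟩
  let T : Mat r ℂ × Mat r ℂ →ₗ[ℂ] ℂ := (Matrix.traceLinearMap (Fin r) ℂ ℂ).comp
    ((LinearMap.mulLeft ℂ κ).comp (LinearMap.fst ℂ _ _) + LinearMap.snd ℂ _ _)
  have hTval : ∀ p : Mat r ℂ × Mat r ℂ, T p = (κ * p.1 + p.2).trace := fun p => rfl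
  have hT : ∀ p ∈ S, T p = 0 := by
    intro p hp
    induction hp using Submodule.span_induction with
    | mem p hp =>
      obtain ⟨w, rfl⟩ := hp
      rw [hTval, trace_add]
      exact hvel w
    | zero => exact map_zero T
    | add a b _ _ ha hb => rw [map_add, ha, hb, add_zero]
    | smul c a _ ha => rw [map_smul, ha, smul_zero]
  have hY : ∀ y, ((0 : Mat r ℂ), y) ∈ S → y = 0 := fun y hy => by
    refine Matrix.ext_iff_trace_mul_right.2 fun M => ?_
    obtain ⟨d, hd⟩ := hfst M
    have h := hT _ (hmul _ hd _ hy)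
    simp only [hTval, pmul, mul_zero, zero_add] at h
    rw [zero_mul, trace_zero, trace_mul_comm]
    exact h
  choose D hD using hfst
  have huniq : ∀ {M d}, (M, d) ∈ S → d = D M := fun {M d} h => by
    have h' := S.sub_mem h (hD M)
    rw [Prod.mk_sub_mk, sub_self] at h'
    exact sub_eq_zero.1 (hY _ h')
  let DL : Mat r ℂ →ₗ[ℂ] Mat r ℂ :=
    { toFun := D
      map_add' := fun a b => (huniq (by simpa using add_mem (hD a) (hD b))).symm
      map_smul' := fun c a => (huniq (by simpa using S.smul_mem c (hD a))).symm }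
  obtain ⟨Z, hZ⟩ := derivation_inner DL fun M N => (huniq (hmul _ (hD M) _ (hD N))).symm
  have hκ0 : κ = 0 := by
    refine Matrix.ext_iff_trace_mul_right.2 fun M => ?_
    have h := hT _ (hD M)
    rw [hTval, show D M = Z * M - M * Z from hZ M, trace_add, trace_sub, trace_mul_comm Z M,
      sub_self, add_zero] at h
    rw [zero_mul, trace_zero]
    exact h
  have hb : ℓ (β, 0) = 0 := by
    have h := trace_dualMat ℓb β
    rw [← hκ, hκ0, zero_mul, trace_zero] at h
    simpa [ℓb, slL_of_trace hβ] using h.symm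
  let μ : PTup k s r →ₗ[ℂ] ℂ := ℓh - (Matrix.traceLinearMap (Fin r) ℂ ℂ).comp
    ((LinearMap.mulLeft ℂ Z).comp Lr)
  have hμ : η ∈ LinearMap.ker μ := by
    refine Submodule.span_le.2 ?_ (mem_span_dSlide hH.good η h1 h2)
    rintro z (⟨γ, X, hX, rfl⟩ | ⟨c, rfl⟩)
    · rw [SetLike.mem_coe, LinearMap.mem_ker]
      have e1 : ℓh (dSlide γ H.1 H.2 X) = (Ω [γ] * X).trace := by
        rw [trace_dualMat]
        simp [dW, uW, conjL_apply, slL_of_trace hX]
      have e2 : U [γ] * Ω [γ] = Z * U [γ] - U [γ] * Z := by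
        have h := huniq (Submodule.subset_span ⟨[γ], rfl⟩ : P [γ] ∈ S)
        exact h.trans (hZ _)
      have eU : U [γ] = uVal K γ H := by simp [hUdef, uW]
      have hu : IsUnit (uVal K γ H).det := by rw [det_uVal hK γ hH]; exact isUnit_one
      rw [eU] at e2
      have e3 : Ω [γ] = (uVal K γ H)⁻¹ * Z * uVal K γ H - Z := by
        have h := congrArg (fun M => (uVal K γ H)⁻¹ * M) e2
        simp only [mul_sub, Matrix.nonsing_inv_mul_cancel_left _ _ hu] at h
        rw [h, mul_assoc]
      simp only [μ, LinearMap.sub_apply, LinearMap.comp_apply, LinearMap.mulLeft_apply,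
        Matrix.traceLinearMap_apply]
      rw [e1, e3, hL γ X hX, sub_mul, mul_sub, trace_sub, trace_sub, sub_eq_zero]
      congr 1
      simp only [mul_assoc]
      rw [trace_mul_comm]
      simp only [mul_assoc]
    · rw [SetLike.mem_coe, LinearMap.mem_ker]
      have h : ℓh (0, fun l => c l • H.2 l) = 0 :=
        hkill _ (Submodule.subset_span (Or.inr ⟨c, rfl⟩))
      simp [μ, h, hL0]
  rw [LinearMap.mem_ker] at hμ
  simp only [μ, LinearMap.sub_apply, LinearMap.comp_apply, hη, map_zero, sub_zero] at hμ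
  refine hℓ ?_
  rw [show ((β, η) : Mat r ℂ × PTup k s r) = (β, 0) + (0, η) by simp, map_add, hb, zero_add]
  exact hμ

end Vale.Agent.P002
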