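import Vale.Agent.P002.Punct.Inv

/-!
Composites of twist flows seen through words of slides, applied to deformations of a point with
trivial `b`, stay in the closure of the integral representations.
-/

namespace Vale.Agent.P002

open Matrix Filter Topology Complex
open scoped Matrix.Norms.Operator

variable {k s r N : ℕ} {K : Fin s → Mat r ℂ} {L : IntermediateField ℚ ℂ}

theorem contDiff_det : ContDiff ℂ 1 (fun a : Mat r ℂ => a.det) := by
  simp only [Matrix.det_apply]
  refine ContDiff.sum fun σ _ => ContDiff.const_smul _ (contDiff_prod fun i _ => ?_)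
  exact (Matrix.entryLinearMap ℂ ℂ (σ i) i).toContinuousLinearMap.contDiff

/-- The deformed base point. -/
noncomputable def baseP (H : PTup k s r) (α : Mat r ℂ) (c : Fin s → ℂ) : PTup (k + 1) s r :=
  consA (NormedSpace.exp (pw α 1)) (H.1, fun j => cexp (c j) • H.2 j)

/-- The parameters. -/
abbrev PrmP (s r N : ℕ) : Type := (Mat r ℂ × (Fin s → ℂ)) × (Fin N → ℂ)

variable (K) in
/-- The composite of the first `i` flows. -/
noncomputable def psiP (H : PTup k s r) (ws : Fin N → List (GIdx k s)) :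
    ℕ → PrmP s r N → PTup (k + 1) s r
  | 0, x => baseP H x.1.1 x.1.2
  | i + 1, x => if h : i < N then stpW K (ws ⟨i, h⟩) (x.2 ⟨i, h⟩) (psiP H ws i x)
      else psiP H ws i x

theorem det_exp_pw (hr : r ≠ 0) (α : Mat r ℂ) : (NormedSpace.exp (pw α 1)).det = 1 := by
  rw [det_exp, trace_pw hr, Complex.exp_zero]

theorem goodH_scale {H : PTup k s r} (hH : GoodH H) (c : Fin s → ℂ) :
    GoodH ((H.1, fun j => cexp (c j) • H.2 j) : PTup k s r) :=
  ⟨hH.1, fun j => by
    rw [det_smul]; exact mul_ne_zero (pow_ne_zero _ (Complex.exp_ne_zero _)) (hH.2 j)⟩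

theorem theta_baseP {H : PTup k s r} (hH : GoodH H) (α : Mat r ℂ) (c : Fin s → ℂ) :
    theta K (baseP H α c) = consA (NormedSpace.exp (pw α 1)) (theta K H) := by
  have h := theta_smul_conjugators (K := K) (fun j => cexp (c j))
    (fun j => Complex.exp_ne_zero _) hH.2
  rw [← h]
  rfl

theorem goodH_psiP (hK : ∀ j, (K j).det = 1) (hr : r ≠ 0) {H : PTup k s r} (hH : GoodH H)
    (ws : Fin N → List (GIdx k s)) : ∀ i x, GoodH (psiP K H ws i x)
  | 0, x => goodH_consA (det_exp_pw hr x.1.1) (goodH_scale hH x.1.2)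
  | i + 1, x => by
    have ih := goodH_psiP hK hr hH ws i x
    unfold psiP
    split_ifs with h
    · exact goodH_stpW hK hr _ _ ih
    · exact ih

theorem contDiff_psiP (hK : ∀ j, (K j).det = 1) (hr : r ≠ 0) {H : PTup k s r} (hH : GoodH H)
    (ws : Fin N → List (GIdx k s)) : ∀ i, ContDiff ℂ 1 (psiP K H ws i)
  | 0 => by
    have hc : ∀ j, ContDiff ℂ 1 (fun x : PrmP s r N => cexp (x.1.2 j) • H.2 j) := fun j =>
      (Complex.contDiff_exp.comp ((contDiff_apply ℂ ℂ j).comp contDiff_fst.snd)).smul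
        contDiff_const
    have ha : ContDiff ℂ 1 (fun x : PrmP s r N => NormedSpace.exp (pw x.1.1 1)) :=
      contDiff_exp.comp ((contDiff_pw 1).comp contDiff_fst.fst)
    refine ((contDiff_pi.2 fun i => ?_).prodMk (contDiff_pi.2 fun i => ?_)).prodMk
      (contDiff_pi.2 hc)
    · refine Fin.cases ?_ (fun i => ?_) i
      · simpa [consA] using ha
      · simpa [consA] using contDiff_const
    · refine Fin.cases ?_ (fun i => ?_) i <;> simpa [consA] using contDiff_const
  | i + 1 => by
    have ih := contDiff_psiP hK hr hH ws i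
    by_cases h : i < N
    · have e : psiP K H ws (i + 1) =
          fun x => stpW K (ws ⟨i, h⟩) (x.2 ⟨i, h⟩) (psiP K H ws i x) := by
        funext x; simp [psiP, h]
      rw [e, contDiff_iff_contDiffAt]
      intro x
      exact ContDiffAt.comp (g := fun p : ℂ × PTup (k + 1) s r => stpW K (ws ⟨i, h⟩) p.1 p.2) x
        (contDiffAt_stpW hK hr _ _ (goodH_psiP hK hr hH ws i x))
        (((contDiff_apply ℂ ℂ (⟨i, h⟩ : Fin N)).comp contDiff_snd).prodMk ih).contDiffAt
    · have e : psiP K H ws (i + 1) = psiP K H ws i := by funext x; simp [psiP, h]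
      rw [e]
      exact ih

theorem psiP_line (hK : ∀ j, (K j).det = 1) (hr : r ≠ 0) {H : PTup k s r} (hH : GoodH H)
    (ws : Fin N → List (GIdx k s)) (α : Mat r ℂ) (c : Fin s → ℂ) :
    ∀ i, psiP K H ws i ((α, c), 0) = baseP H α c
  | 0 => rfl
  | i + 1 => by
    have ih := psiP_line hK hr hH ws α c i
    unfold psiP
    split_ifs with h
    · rw [ih]
      simp only [Pi.zero_apply]
      exact stpW_zero hK _ (goodH_consA (det_exp_pw hr α) (goodH_scale hH c))
    · exact ih

theorem psiP_single (hK : ∀ j, (K j).det = 1) (hr : r ≠ 0) {H : PTup k s r} (hH : GoodH H)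
    (ws : Fin N → List (GIdx k s)) (j : Fin N) (t : ℂ) :
    ∀ i, psiP K H ws i ((0, 0), Pi.single j t) =
      if (j : ℕ) < i then stpW K (ws j) t (consA 1 H) else consA 1 H
  | 0 => by simp [psiP, baseP, pw]
  | i + 1 => by
    have ih := psiP_single hK hr hH ws j t i
    have hg : GoodH (consA (1 : Mat r ℂ) H) := goodH_consA det_one hH
    have hs : GoodH (stpW K (ws j) t (consA 1 H)) := goodH_stpW hK hr _ _ hg
    unfold psiP
    by_cases h : i < N
    · rw [dif_pos h, ih]
      by_cases hj : (j : ℕ) = i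
      · subst hj
        rw [if_neg (lt_irrefl _), if_pos (Nat.lt_succ_self _)]
        simp
      · have hne : (⟨i, h⟩ : Fin N) ≠ j := fun e => hj (by rw [← e])
        simp only [Pi.single_eq_of_ne hne]
        by_cases h' : (j : ℕ) < i
        · rw [if_pos h', if_pos (by omega), stpW_zero hK _ hs]
        · rw [if_neg h', if_neg (by omega), stpW_zero hK _ hg]
    · rw [dif_neg h, ih, if_pos (lt_of_lt_of_le j.2 (not_lt.1 h)),
        if_pos (lt_of_lt_of_le j.2 ((not_lt.1 h).trans i.le_succ))]

theorem prodP_theta_psiP (hK : ∀ j, (K j).det = 1) (hr : r ≠ 0) {H : PTup k s r} (hH : GoodH H)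
    (hp : prodP (theta K H) = 1) (ws : Fin N → List (GIdx k s)) :
    ∀ i x, prodP (theta K (psiP K H ws i x)) = 1
  | 0, x => by
    have hR : RepK K (theta K H) := repK_theta ⟨hH.1, hH.2, hp⟩
    rw [show psiP K H ws 0 x = baseP H x.1.1 x.1.2 from rfl, theta_baseP hH]
    exact (repK_consA hR (det_exp_pw hr _)).2.2
  | i + 1, x => by
    have ih := prodP_theta_psiP hK hr hH hp ws i x
    unfold psiP
    split_ifs with h
    · rw [prodP_theta_stpW hK hr _ _ (goodH_psiP hK hr hH ws i x), ih]
    · exact ih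

theorem contDiffAt_theta {x : PTup k s r} (hx : ∀ j, (x.2 j).det ≠ 0) :
    ContDiffAt ℂ 1 (theta K) x :=
  contDiffAt_fst.prodMk (contDiffAt_pi.2 fun j =>
    have h : ContDiffAt ℂ 1 (fun y : PTup k s r => y.2 j) x :=
      ((contDiff_apply ℂ (Mat r ℂ) j).comp contDiff_snd).contDiffAt
    (h.mul contDiffAt_const).mul (contDiffAt_inv_comp h (hx j)))

/-- The rescaled slot of the next flow has surjective differential at the origin. -/
theorem surjective_slotP (hK : ∀ j, (K j).det = 1) (hr : r ≠ 0) {H : PTup k s r} (hH : GoodH H)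
    (ws : Fin N → List (GIdx k s)) (w : List (GIdx k s)) (i : ℕ) :
    ContDiff ℂ 1 (fun y : PrmP s r N × ℂ =>
        cexp y.2 • (phiW K w (psiP K H ws i y.1)).1.1 0) ∧
      Function.Surjective (fderiv ℂ (fun y : PrmP s r N × ℂ =>
        cexp y.2 • (phiW K w (psiP K H ws i y.1)).1.1 0) 0) := by
  set G := fun y : PrmP s r N × ℂ => cexp y.2 • (phiW K w (psiP K H ws i y.1)).1.1 0 with hG
  have hGd : ContDiff ℂ 1 G := by
    refine contDiff_iff_contDiffAt.2 fun y => ?_
    have h1 : ContDiffAt ℂ 1 (fun y : PrmP s r N × ℂ => phiW K w (psiP K H ws i y.1)) y :=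
      ContDiffAt.comp (g := phiW K w) y
        (contDiffAt_phiW hK w (goodH_psiP hK hr hH ws i y.1))
        ((contDiff_psiP hK hr hH ws i).comp contDiff_fst).contDiffAt
    exact (Complex.contDiff_exp.comp contDiff_snd).contDiffAt.smul
      (ContDiffAt.comp (g := fun z : PTup (k + 1) s r => z.1.1 0) y
        ((contDiff_apply ℂ (Mat r ℂ) 0).comp contDiff_fst.fst).contDiffAt h1)
  refine ⟨hGd, fun Y => ?_⟩
  set U := uW K H w
  have hU : IsUnit U.det := by rw [det_uW hK hH w]; exact isUnit_one
  set a := (Y * U⁻¹).trace / (r : ℂ) with ha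
  set α := Y * U⁻¹ - a • (1 : Mat r ℂ) with hα
  have hαt : α.trace = 0 := by simp [hα, ha, trace_one, hr]
  let v : PrmP s r N × ℂ := (((α, 0), 0), a)
  refine ⟨v, ?_⟩
  have h1 : HasDerivAt (fun t : ℂ => G (t • v)) (fderiv ℂ G 0 v) 0 := by
    have h := (hasDerivAt_id (0 : ℂ)).smul_const v
    rw [one_smul] at h
    have hd : HasFDerivAt G (fderiv ℂ G 0) ((0 : ℂ) • v) := by
      rw [zero_smul]; exact (hGd.differentiable one_ne_zero 0).hasFDerivAt
    exact (hd.comp_hasDerivAt 0 h :)
  have h2 : HasDerivAt (fun t : ℂ => G (t • v)) Y 0 := by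
    have e : (fun t : ℂ => G (t • v)) =
        fun t => cexp (t * a) • (NormedSpace.exp (t • α) * U) := by
      funext t
      have e1 : (t • v).1 = ((t • α, 0), 0) := by simp [v]
      simp only [hG, e1, psiP_line hK hr hH]
      rw [show (t • v).2 = t * a from rfl]
      simp only [baseP, Pi.zero_apply, Complex.exp_zero, one_smul]
      rw [show ((H.1, fun j => H.2 j) : PTup k s r) = H from rfl, phiW_consA hK hH]
      simp only [consA, Fin.cons_zero]
      rw [pw_one_of_trace (by simp [hαt])]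
    rw [e]
    have hc : HasDerivAt (fun t : ℂ => cexp (t * a)) a 0 := by
      simpa using ((hasDerivAt_id (0 : ℂ)).mul_const a).cexp
    refine (hc.smul ((hasDerivAt_exp_smul α).mul_const U)).congr_deriv ?_
    simp [hα, sub_mul, Matrix.nonsing_inv_mul_cancel_right _ _ hU]
  exact h1.unique h2

/-- Near the origin every composite of flows lies in the closure. -/
theorem eventually_psiP_mem (hK : ∀ j, (K j).det = 1) (hr : r ≠ 0) {H : PTup k s r}
    (hH : GoodH H) (hp : prodP (theta K H) = 1) (hi : IntP L (theta K H))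
    (ws : Fin N → List (GIdx k s)) :
    ∀ i, ∀ᶠ x in 𝓝 (0 : PrmP s r N), psiP K H ws i x ∈ ZH K L (k + 1)
  | 0 => Eventually.of_forall fun x => by
    refine ⟨goodH_psiP hK hr hH ws 0 x, ?_⟩
    rw [show psiP K H ws 0 x = baseP H x.1.1 x.1.2 from rfl, theta_baseP hH]
    exact consA_mem_zsetP (repK_theta ⟨hH.1, hH.2, hp⟩) hi (det_exp_pw hr _)
  | i + 1 => by
    have ih := eventually_psiP_mem hK hr hH hp hi ws i
    by_cases h : i < N
    swap
    · simpa [psiP, dif_neg h] using ih
    set w := ws ⟨i, h⟩ with hw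
    set G : PrmP s r N × ℂ → Mat r ℂ := fun y =>
      cexp y.2 • (phiW K w (psiP K H ws i y.1)).1.1 0
    obtain ⟨hGd, hDs⟩ := surjective_slotP hK hr hH ws w i
    obtain ⟨Rinv, hRinv⟩ := (fderiv ℂ G 0).exists_rightInverse_of_surjective
      (LinearMap.range_eq_top.2 hDs)
    have hev : ∀ᶠ y in 𝓝 (0 : PrmP s r N × ℂ), Function.Surjective (fderiv ℂ G y) := by
      have hc : Continuous fun y => (fderiv ℂ G y).comp Rinv :=
        ((ContinuousLinearMap.compL ℂ (Mat r ℂ) (PrmP s r N × ℂ) (Mat r ℂ)).flip Rinv).continuous.comp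
          (hGd.continuous_fderiv one_ne_zero)
      let bas := Module.finBasis ℂ (Mat r ℂ)
      let M : PrmP s r N × ℂ → Matrix (Fin (Module.finrank ℂ (Mat r ℂ)))
          (Fin (Module.finrank ℂ (Mat r ℂ))) ℂ := fun y =>
        LinearMap.toMatrix bas bas ((fderiv ℂ G y).comp Rinv).toLinearMap
      have hM : Continuous M := continuous_pi fun a => continuous_pi fun b => by
        have h1 : Continuous fun y => ((fderiv ℂ G y).comp Rinv) (bas b) :=
          hc.clm_apply continuous_const
        exact ((bas.coord a).continuous_of_finiteDimensional.comp h1).congr fun y => by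
          simp [M, LinearMap.toMatrix_apply]
      have h1 : (M 0).det ≠ 0 := by
        simp only [M]
        rw [hRinv, LinearMap.det_toMatrix]
        simp
      filter_upwards [hM.matrix_det.continuousAt.eventually_ne h1] with y hy
      simp only [M, LinearMap.det_toMatrix] at hy
      intro Y
      obtain ⟨v, hv⟩ := ((LinearMap.isUnit_iff_range_eq_top _).1
        ((LinearMap.isUnit_iff_isUnit_det _).2 (isUnit_iff_ne_zero.2 hy)) ▸
          Submodule.mem_top : Y ∈ ((fderiv ℂ G y).comp Rinv).toLinearMap.range)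
      exact ⟨Rinv v, hv⟩
    have hev' : ∀ᶠ x in 𝓝 (0 : PrmP s r N), Function.Surjective (fderiv ℂ G (x, 0)) :=
      (Continuous.tendsto (by fun_prop : Continuous fun x : PrmP s r N => (x, (0 : ℂ))) 0).eventually
        hev
    obtain ⟨V, hV, hVo, hV0⟩ := eventually_nhds_iff.1 (ih.and hev')
    refine eventually_nhds_iff.2 ⟨V, fun x hx => ?_, hVo, hV0⟩
    have hdense : x ∈ closure {x' | x' ∈ V ∧ Gen ((phiW K w (psiP K H ws i x')).1.1 0)} := by
      rw [mem_closure_iff]
      intro W hW hxW
      have hsur : Function.Surjective (fderiv ℂ G (x, 0)) := (hV x hx).2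
      have hmap := HasStrictFDerivAt.map_nhds_eq_of_surj
        (hGd.contDiffAt.hasStrictFDerivAt (x := (x, (0 : ℂ))) one_ne_zero)
        (LinearMap.range_eq_top.2 hsur)
      have hnb : G '' (Prod.fst ⁻¹' (W ∩ V)) ∈ 𝓝 (G (x, 0)) := by
        have hm : G '' (Prod.fst ⁻¹' (W ∩ V)) ∈ Filter.map G (𝓝 (x, (0 : ℂ))) :=
          image_mem_map (((hW.inter hVo).preimage continuous_fst).mem_nhds ⟨hxW, hx⟩)
        exact hmap ▸ hm
      obtain ⟨_, hgen, y, hy, rfl⟩ :=
        mem_closure_iff_nhds.1 (dense_gen (r := r) (G (x, 0))) _ hnb |>.imp fun _ hh =>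
          And.intro hh.2 hh.1
      refine ⟨y.1, hy.1, hy.2, ?_⟩
      have := Gen.smul hgen (inv_ne_zero (Complex.exp_ne_zero y.2))
      rwa [smul_smul, inv_mul_cancel₀ (Complex.exp_ne_zero _), one_smul] at this
    have hcont : Continuous fun x => theta K (psiP K H ws (i + 1) x) :=
      continuous_iff_continuousAt.2 fun z =>
        ContinuousAt.comp (g := theta K)
          (contDiffAt_theta (goodH_psiP hK hr hH ws (i + 1) z).2).continuousAt
          (contDiff_psiP hK hr hH ws (i + 1)).continuous.continuousAt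
    have hcl : IsClosed ((fun x => theta K (psiP K H ws (i + 1) x)) ⁻¹' ZsetP K L (k + 1)) :=
      isClosed_zsetP.preimage hcont
    refine ⟨goodH_psiP hK hr hH ws (i + 1) x, hcl.closure_subset_iff.2 ?_ hdense⟩
    rintro x' ⟨hx', hg⟩
    have e : psiP K H ws (i + 1) x' = stpW K w (x'.2 ⟨i, h⟩) (psiP K H ws i x') := by
      simp [psiP, h, hw]
    change theta K (psiP K H ws (i + 1) x') ∈ ZsetP K L (k + 1)
    rw [e]
    exact (zH_psiW hK w (zH_flow _ hr (zH_phiW hK w (hV x' hx').1) hg)).2

end Vale.Agent.P002
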