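import Vale.Agent.P002.Punct.Zar
import Vale.Agent.P002.Full.Lin

/-!
The slides in conjugator coordinates, and their derivatives where the second matrix of the first
handle is trivial.
-/

namespace Vale.Agent.P002

open Matrix Filter Topology
open scoped Matrix.Norms.Operator

variable {k s r : ℕ} (K : Fin s → Mat r ℂ)

/-- The other handles and the puncture matrices. -/
noncomputable def uVal (γ : GIdx k s) (H : PTup k s r) : Mat r ℂ :=
  gU (fun a : Mat r ℂ => a⁻¹) γ H.1 (theta K H).2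

/-- The slide in conjugator coordinates. -/
noncomputable def slideH (γ : GIdx k s) (x : PTup (k + 1) s r) : PTup (k + 1) s r :=
  let u := uVal K γ (tailP x)
  let B := gB (fun a : Mat r ℂ => a⁻¹) γ (tailP x).1 (u⁻¹ * x.1.2 0 * u)
  ((Fin.cons (x.1.1 0 * u) (updT γ B B⁻¹ (tailP x).1).1,
    Fin.cons (u⁻¹ * x.1.2 0 * u) (updT γ B B⁻¹ (tailP x).1).2), updH γ B x.2)

/-- The inverse slide in conjugator coordinates. -/
noncomputable def unslideH (γ : GIdx k s) (x : PTup (k + 1) s r) : PTup (k + 1) s r :=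
  let B := gB (fun a : Mat r ℂ => a⁻¹) γ (tailP x).1 (x.1.2 0)
  let H : PTup k s r := (updT γ B⁻¹ B (tailP x).1, updH γ B⁻¹ x.2)
  let u := uVal K γ H
  ((Fin.cons (x.1.1 0 * u⁻¹) H.1.1, Fin.cons (u * x.1.2 0 * u⁻¹) H.1.2), H.2)

/-- Determinant one on handles and invertible conjugators. -/
def GoodH {n : ℕ} (x : PTup n s r) : Prop := DetOne x.1 ∧ ∀ j, (x.2 j).det ≠ 0

variable {K}

theorem GoodH.good {n : ℕ} {x : PTup n s r} (hx : GoodH x) : GoodP x :=
  ⟨good_of_detOne hx.1, hx.2⟩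

theorem GoodH.det_theta {n : ℕ} (hK : ∀ j, (K j).det = 1) {x : PTup n s r} (hx : GoodH x) :
    ∀ j, ((theta K x).2 j).det = 1 := fun j =>
  det_puncture hK (x := theta K x)
    (fun i => ⟨x.2 i, isUnit_iff_ne_zero.2 (hx.2 i), rfl⟩) j

theorem slCoe_nonsing_inv (a : Matrix.SpecialLinearGroup (Fin r) ℂ) :
    slCoe r ℂ a⁻¹ = (slCoe r ℂ a)⁻¹ :=
  (slCoe_inv a).trans (adjugate_eq_inv a.2).symm

theorem slideX_inv_eq (γ : GIdx k s) {x : PTup (k + 1) s r} (hd : DetOne x.1)
    (hc : ∀ j, (x.2 j).det = 1) :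
    slideX (fun a : Mat r ℂ => a⁻¹) γ x = slideX adjugate γ x ∧
    unslideX (fun a : Mat r ℂ => a⁻¹) γ x = unslideX adjugate γ x := by
  obtain ⟨q, rfl⟩ := exists_lift hd hc
  refine ⟨(slideX_map (slCoe r ℂ) (fun a => a⁻¹) _ slCoe_nonsing_inv γ q).trans
      (slideX_map (slCoe r ℂ) (fun a => a⁻¹) _ slCoe_inv γ q).symm,
    (unslideX_map (slCoe r ℂ) (fun a => a⁻¹) _ slCoe_nonsing_inv γ q).trans
      (unslideX_map (slCoe r ℂ) (fun a => a⁻¹) _ slCoe_inv γ q).symm⟩

theorem theta_updH (γ : GIdx k s) (B : Mat r ℂ) (h : Fin s → Mat r ℂ) :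
    (fun l => updH γ B h l * K l * (updH γ B h l)⁻¹) =
      updC γ B B⁻¹ (fun l => h l * K l * (h l)⁻¹) :=
  (updC_conj γ B h K (fun a : Mat r ℂ => a⁻¹) fun a => Matrix.mul_inv_rev B a).symm

theorem theta_slideH (γ : GIdx k s) (x : PTup (k + 1) s r) :
    theta K (slideH K γ x) = slideX (fun a : Mat r ℂ => a⁻¹) γ (theta K x) := by
  refine Prod.ext rfl ?_
  exact theta_updH γ _ x.2

theorem det_preS {t : Tup k (Mat r ℂ)} (ht : Good t) (i : Fin k) :
    (preS (fun a : Mat r ℂ => a⁻¹) t i).det = 1 := by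
  have h : ∀ l : List (Mat r ℂ), (∀ m ∈ l, m.det = 1) → l.prod.det = 1 := fun l => by
    induction l with
    | nil => simp
    | cons a l ih =>
      intro hl
      rw [List.prod_cons, det_mul, hl a (by simp), ih (fun m hm => hl m (by simp [hm])), one_mul]
  refine h _ fun m hm => ?_
  obtain ⟨l, rfl⟩ := List.mem_ofFn.1 (List.mem_of_mem_take hm)
  rw [cmt, det_mul, det_mul, det_mul, det_nonsing_inv, det_nonsing_inv, Ring.inverse_eq_inv,
    Ring.inverse_eq_inv]
  field_simp [ht.1 l, ht.2 l]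

theorem det_gS (γ : GIdx k s) {t : Tup k (Mat r ℂ)} (ht : Good t) :
    (gS (fun a : Mat r ℂ => a⁻¹) γ t).det = 1 := by
  rcases γ with (i | i) | j
  · exact det_preS ht i
  · exact det_preS ht i
  · exact det_prodC ht

theorem det_gB (γ : GIdx k s) {t : Tup k (Mat r ℂ)} (ht : Good t) (b : Mat r ℂ) :
    (gB (fun a : Mat r ℂ => a⁻¹) γ t b).det = b.det := by
  rw [gB, det_mul, det_mul, det_nonsing_inv, det_gS γ ht, Ring.inverse_one, one_mul, mul_one]

theorem theta_unslideH (γ : GIdx k s) {x : PTup (k + 1) s r} (hx : GoodH x) :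
    theta K (unslideH K γ x) = unslideX (fun a : Mat r ℂ => a⁻¹) γ (theta K x) := by
  set B := gB (fun a : Mat r ℂ => a⁻¹) γ (tailP x).1 (x.1.2 0) with hBdef
  have hB : IsUnit B.det := by
    rw [hBdef, det_gB γ (show Good (tailP x).1 from Good.tailT (good_of_detOne hx.1)), hx.1.2 0]
    exact isUnit_one
  have h : (fun l => updH γ B⁻¹ x.2 l * K l * (updH γ B⁻¹ x.2 l)⁻¹) =
      updC γ B⁻¹ B (fun l => x.2 l * K l * (x.2 l)⁻¹) := by
    have h := theta_updH (K := K) γ B⁻¹ x.2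
    rwa [Matrix.nonsing_inv_nonsing_inv _ hB] at h
  refine Prod.ext ?_ h
  simp only [theta, unslideH, unslideX, uVal]
  rw [← hBdef, h]
  rfl

/-- The closure in conjugator coordinates. -/
def ZH (K : Fin s → Mat r ℂ) (L : IntermediateField ℚ ℂ) (n : ℕ) : Set (PTup n s r) :=
  {x | GoodH x ∧ theta K x ∈ ZsetP K L n}

variable {L : IntermediateField ℚ ℂ}

theorem goodH_slideH (hK : ∀ j, (K j).det = 1) (γ : GIdx k s) {x : PTup (k + 1) s r}
    (hx : GoodH x) : GoodH (slideH K γ x) ∧ GoodH (unslideH K γ x) := by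
  have hc := hx.det_theta hK
  obtain ⟨q, hq⟩ := exists_lift (x := theta K x) hx.1 hc
  have h1 : theta K (slideH K γ x) = slideX adjugate γ (theta K x) :=
    (theta_slideH γ x).trans (slideX_inv_eq γ (x := theta K x) hx.1 hc).1
  have h2 : theta K (unslideH K γ x) = unslideX adjugate γ (theta K x) :=
    (theta_unslideH γ hx).trans (slideX_inv_eq γ (x := theta K x) hx.1 hc).2
  rw [← hq, slideX_map (slCoe r ℂ) _ adjugate slCoe_inv γ q] at h1
  rw [← hq, unslideX_map (slCoe r ℂ) _ adjugate slCoe_inv γ q] at h2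
  have hd : ∀ q' : Tup (k + 1) (Matrix.SpecialLinearGroup (Fin r) ℂ) ×
      (Fin s → Matrix.SpecialLinearGroup (Fin r) ℂ), DetOne (mapCX (slCoe r ℂ) q').1 :=
    fun q' => ⟨fun i => (q'.1.1 i).2, fun i => (q'.1.2 i).2⟩
  have hg : Good (tailP x).1 := Good.tailT (good_of_detOne hx.1)
  refine ⟨⟨?_, fun j => ?_⟩, ⟨?_, fun j => ?_⟩⟩
  · have h := hd (slideX (fun a => a⁻¹) γ q)
    rw [← h1] at h
    exact h
  · rcases γ with γ | i
    · exact hx.2 j
    · simp only [slideH, updH, Sum.elim_inr]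
      split_ifs
      · rw [det_mul, det_gB _ hg]
        refine mul_ne_zero ?_ (hx.2 j)
        rw [det_mul, det_mul, hx.1.2 0, mul_one, det_nonsing_inv, Ring.inverse_eq_inv]
        refine inv_mul_cancel₀ ?_ |> fun h => h.trans_ne one_ne_zero
        intro h0
        have hu : ((slideH K (Sum.inr i) x).1.1 0).det = 0 := by
          simp [slideH, h0]
        have h := (hd (slideX (fun a => a⁻¹) (Sum.inr i) q)).1 0
        rw [← h1] at h
        exact one_ne_zero (h.symm.trans hu)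
      · exact hx.2 j
  · have h := hd (unslideX (fun a => a⁻¹) γ q)
    rw [← h2] at h
    exact h
  · rcases γ with γ | i
    · exact hx.2 j
    · simp only [unslideH, updH, Sum.elim_inr]
      split_ifs
      · rw [det_mul, det_nonsing_inv, det_gB _ hg, hx.1.2 0, Ring.inverse_one, one_mul]
        exact hx.2 j
      · exact hx.2 j

theorem zH_slideH (hK : ∀ j, (K j).det = 1) (γ : GIdx k s) {x : PTup (k + 1) s r}
    (hx : x ∈ ZH K L (k + 1)) : slideH K γ x ∈ ZH K L (k + 1) := by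
  refine ⟨(goodH_slideH hK γ hx.1).1, ?_⟩
  rw [theta_slideH, (slideX_inv_eq γ (x := theta K x) hx.1.1 (hx.1.det_theta hK)).1]
  exact zsetP_slideX hK γ hx.2

theorem zH_unslideH (hK : ∀ j, (K j).det = 1) (γ : GIdx k s) {x : PTup (k + 1) s r}
    (hx : x ∈ ZH K L (k + 1)) : unslideH K γ x ∈ ZH K L (k + 1) := by
  refine ⟨(goodH_slideH hK γ hx.1).2, ?_⟩
  rw [theta_unslideH γ hx.1, (slideX_inv_eq γ (x := theta K x) hx.1.1 (hx.1.det_theta hK)).2]
  exact zsetP_unslideX hK γ hx.2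

theorem zH_flow (t : ℂ) {x : PTup (k + 1) s r} (hr : r ≠ 0) (hx : x ∈ ZH K L (k + 1))
    (hg : Gen (x.1.1 0)) : flowP t x ∈ ZH K L (k + 1) := by
  refine ⟨⟨⟨hx.1.1.1, fun i => ?_⟩, hx.1.2⟩, ?_⟩
  · by_cases h : i = 0
    · subst h
      simp [flowP, hx.1.1.2 0, det_exp, trace_smul, trace_pw hr]
    · simp [flowP, h, hx.1.1.2 i]
  · have e : theta K (flowP t x) = flowP t (theta K x) := rfl
    rw [e]
    exact zsetP_flow t hx.2 hg

end Vale.Agent.P002
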