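import Vale.Agent.P002.Punct.Dual
import Vale.Agent.P002.Punct.Open

/-!
Slides and twist flows preserve the equation; the derivative of the equation where the second
matrix of the first handle is trivial.
-/

namespace Vale.Agent.P002

open Matrix Filter Topology
open scoped Matrix.Norms.Operator

variable {k s r : ℕ} {K : Fin s → Mat r ℂ}

theorem prodP_theta_slideH (hK : ∀ j, (K j).det = 1) (γ : GIdx k s) {x : PTup (k + 1) s r}
    (hx : GoodH x) :
    prodP (theta K (slideH K γ x)) = prodP (theta K x) ∧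
      prodP (theta K (unslideH K γ x)) = prodP (theta K x) := by
  obtain ⟨q, hq⟩ := exists_lift (x := theta K x) hx.1 (hx.det_theta hK)
  refine ⟨?_, ?_⟩
  · rw [theta_slideH, ← hq, slideX_map (slCoe r ℂ) (fun a => a⁻¹) _ slCoe_nonsing_inv,
      prodP_mapCX, prodP_mapCX, relG_slideX]
  · rw [theta_unslideH γ hx, ← hq, unslideX_map (slCoe r ℂ) (fun a => a⁻¹) _ slCoe_nonsing_inv,
      prodP_mapCX, prodP_mapCX, relG_unslideX]

theorem prodP_theta_phiW (hK : ∀ j, (K j).det = 1) : ∀ (w : List (GIdx k s))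
    {x : PTup (k + 1) s r}, GoodH x → prodP (theta K (phiW K w x)) = prodP (theta K x)
  | [], _, _ => rfl
  | γ :: w, _, h => by
    rw [phiW, prodP_theta_phiW hK w (goodH_slideH hK γ h).1, (prodP_theta_slideH hK γ h).1]

theorem prodP_theta_psiW (hK : ∀ j, (K j).det = 1) : ∀ (w : List (GIdx k s))
    {x : PTup (k + 1) s r}, GoodH x → prodP (theta K (psiW K w x)) = prodP (theta K x)
  | [], _, _ => rfl
  | γ :: w, _, h => by
    rw [psiW, (prodP_theta_slideH hK γ (goodH_psiW hK w h)).2, prodP_theta_psiW hK w h]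

theorem prodP_theta_flowP (hr : r ≠ 0) (t : ℂ) {x : PTup (k + 1) s r} (hx : GoodH x) :
    prodP (theta K (flowP t x)) = prodP (theta K x) := by
  have ha : IsUnit (x.1.1 0).det := by rw [hx.1.1 0]; exact isUnit_one
  set E := NormedSpace.exp (t • pw (x.1.1 0) 1) with hE
  have hEd : IsUnit E.det := by
    rw [hE, det_exp, trace_smul, trace_pw hr, smul_zero, Complex.exp_zero]
    exact isUnit_one
  have hc : Commute (x.1.1 0) E :=
    Commute.exp_right (Commute.smul_right
      ((Commute.pow_right (Commute.refl _) 1).sub_right ((Commute.one_right _).smul_right _)) t)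
  have et : tailP (theta K (flowP t x)) = tailP (theta K x) := by
    simp [tailP, tailT, theta, flowP]
  rw [prodP_succ, prodP_succ (theta K x), et]
  congr 1
  simp only [theta, flowP, Function.update_self, ← hE]
  rw [Matrix.mul_inv_rev]
  have h : E * (x.1.1 0)⁻¹ * E⁻¹ = (x.1.1 0)⁻¹ := by
    have h1 : (x.1.1 0)⁻¹ * E = E * (x.1.1 0)⁻¹ := by
      have h2 := congrArg (fun M => (x.1.1 0)⁻¹ * M * (x.1.1 0)⁻¹) hc.eq
      simp only [Matrix.nonsing_inv_mul_cancel_left _ _ ha, ← mul_assoc,
        Matrix.mul_nonsing_inv_cancel_right _ _ ha] at h2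
      exact h2.symm
    rw [← h1, Matrix.mul_nonsing_inv_cancel_right _ _ hEd]
  rw [← mul_assoc (x.1.1 0) (x.1.2 0) E, mul_assoc (x.1.1 0 * x.1.2 0) E (x.1.1 0)⁻¹, ← mul_assoc,
    mul_assoc (x.1.1 0 * x.1.2 0) (E * (x.1.1 0)⁻¹) E⁻¹, h]

theorem prodP_theta_stpW (hK : ∀ j, (K j).det = 1) (hr : r ≠ 0) (w : List (GIdx k s)) (t : ℂ)
    {x : PTup (k + 1) s r} (hx : GoodH x) :
    prodP (theta K (stpW K w t x)) = prodP (theta K x) := by
  rw [stpW, prodP_theta_psiW hK w (goodH_flowP hr t (goodH_phiW hK w hx)),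
    prodP_theta_flowP hr t (goodH_phiW hK w hx), prodP_theta_phiW hK w hx]

variable (K) in
/-- The differential of the equation at a point. -/
noncomputable def dEq (H : PTup k s r) : PTup k s r →ₗ[ℂ] Mat r ℂ :=
  (fderiv ℂ (fun y : PTup k s r => prodP (theta K y)) H).toLinearMap

theorem hasDerivAt_prodP_theta {H : PTup k s r} (hH : GoodP H) {c : ℂ → PTup k s r}
    {v : PTup k s r} (hc : HasDerivAt c v 0) (h0 : c 0 = H) :
    HasDerivAt (fun t => prodP (theta K (c t))) (dEq K H v) 0 := by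
  have h : HasFDerivAt (fun y : PTup k s r => prodP (theta K y))
      (fderiv ℂ (fun y : PTup k s r => prodP (theta K y)) H) (c 0) := by
    rw [h0]
    exact ((contDiffAt_prodP_theta hH).differentiableAt one_ne_zero).hasFDerivAt
  exact (h.comp_hasDerivAt 0 hc :)

/-- The derivative of the equation along a curve through a point with trivial `b`. -/
theorem hasDerivAt_prodP_consA {A : Mat r ℂ} (hA : IsUnit A.det) {H : PTup k s r} (hH : GoodP H)
    (hp : prodP (theta K H) = 1) {c : ℂ → PTup (k + 1) s r} {v : PTup (k + 1) s r}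
    (hc : HasDerivAt c v 0) (h0 : c 0 = consA A H) :
    HasDerivAt (fun t => prodP (theta K (c t)))
      (A * v.1.2 0 * A⁻¹ - v.1.2 0 + dEq K H (tailP v)) 0 := by
  obtain ⟨h1, h2, h3⟩ := hasDerivAt_coord hc
  have ht : HasDerivAt (fun t => tailP (c t)) (tailP v) 0 :=
    ((hasDerivAt_pi.2 fun i : Fin k => h1 i.succ).prodMk
      (hasDerivAt_pi.2 fun i : Fin k => h2 i.succ)).prodMk (hasDerivAt_pi.2 h3)
  have hT := hasDerivAt_prodP_theta (K := K) hH ht (by rw [h0, tailP_consA])
  have ea : (c 0).1.1 0 = A := by simp [h0, consA]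
  have eb : (c 0).1.2 0 = 1 := by simp [h0, consA]
  have hai := hasDerivAt_inv' (h1 0) (by rw [ea]; exact hA.ne_zero)
  have hbi := hasDerivAt_inv' (h2 0) (by rw [eb, det_one]; exact one_ne_zero)
  have h := ((((h1 0).mul (h2 0)).mul hai).mul hbi).mul hT
  refine HasDerivAt.congr_of_eventuallyEq (h.congr_deriv ?_)
    (Eventually.of_forall fun t => prodP_succ (theta K (c t)))
  simp only [Pi.mul_apply, ea, eb]
  simp only [h0, tailP_consA, hp, mul_one, inv_one, one_mul, add_mul,
    mul_neg, Matrix.mul_nonsing_inv _ hA, ← mul_assoc]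
  abel

/-- The differential of the equation on the velocity of a slide. -/
theorem dEq_dSlide (hK : ∀ j, (K j).det = 1) {H : PTup k s r} (hH : GoodH H)
    (hp : prodP (theta K H) = 1) (γ : GIdx k s) (X : Mat r ℂ) (hX : X.trace = 0) :
    dEq K H (dSlide γ H.1 H.2 X) =
      uVal K γ H * X * (uVal K γ H)⁻¹ - X := by
  let c : ℂ → PTup (k + 1) s r := fun t =>
    ((Fin.cons 1 H.1.1, Fin.cons (NormedSpace.exp (t • X)) H.1.2), H.2)
  let v : PTup (k + 1) s r := ((Fin.cons 0 0, Fin.cons X 0), 0)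
  have hc : HasDerivAt c v 0 := by
    refine (HasDerivAt.prodMk (hasDerivAt_pi.2 fun i => ?_) (hasDerivAt_pi.2 fun i => ?_)).prodMk
      (hasDerivAt_const _ _)
    · refine Fin.cases ?_ (fun i => ?_) i <;> simpa [v] using hasDerivAt_const _ _
    · refine Fin.cases ?_ (fun i => ?_) i
      · simp only [c, v, Fin.cons_zero]
        exact hasDerivAt_exp_smul X
      · simpa [c, v] using hasDerivAt_const _ _
  have h0 : c 0 = consA 1 H := by simp [c, consA]
  have hg : ∀ t, GoodH (c t) := fun t => by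
    refine ⟨⟨fun i => ?_, fun i => ?_⟩, hH.2⟩
    · refine Fin.cases ?_ (fun i => ?_) i <;> simp [c, hH.1.1]
    · refine Fin.cases ?_ (fun i => ?_) i
      · simp [c, det_exp, trace_smul, hX]
      · simp [c, hH.1.2]
  have hpc : ∀ t, prodP (theta K (c t)) = 1 := fun t => by
    rw [prodP_succ, show tailP (theta K (c t)) = theta K H by
      simp [c, tailP, tailT, theta], hp, mul_one]
    have hb : IsUnit (NormedSpace.exp (t • X)).det := by
      rw [det_exp, trace_smul, hX, smul_zero, Complex.exp_zero]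
      exact isUnit_one
    simp [c, theta, Matrix.mul_nonsing_inv _ hb]
  obtain ⟨w, hw, hwb, hwt⟩ := hasDerivAt_unslideH hK γ det_one hH hc h0
  set u := uVal K γ H
  have hu : IsUnit u.det := by rw [det_uVal hK γ hH]; exact isUnit_one
  have hw0 : unslideH K γ (c 0) = consA u⁻¹ H := by
    rw [h0, unslideH_consA γ 1 hH hu, one_mul]
  have h1 := hasDerivAt_prodP_consA (K := K) (A := u⁻¹)
    (by rw [Matrix.isUnit_nonsing_inv_det_iff]; exact hu) hH.good hp hw hw0
  have h2 : HasDerivAt (fun t => prodP (theta K (unslideH K γ (c t)))) 0 0 := by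
    simp only [(prodP_theta_slideH hK γ (hg _)).2, hpc]
    exact hasDerivAt_const _ _
  have h := h1.unique h2
  have hv : tailP v = 0 := by simp [v, tailP, tailT]
  have hvb : v.1.2 0 = X := by simp [v]
  rw [hwt, hwb, hv, zero_add, hvb, Matrix.nonsing_inv_nonsing_inv _ hu] at h
  simp only [mul_assoc, Matrix.nonsing_inv_mul _ hu, mul_one,
    Matrix.nonsing_inv_mul_cancel_left _ _ hu] at h
  rw [add_eq_zero_iff_eq_neg] at h
  rw [← neg_neg (dEq K H _), ← h, neg_sub]
  simp only [mul_assoc]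

theorem hasDerivAt_cexp_smul (a : ℂ) (h : Mat r ℂ) :
    HasDerivAt (fun t : ℂ => Complex.exp (t * a) • h) (a • h) 0 := by
  have h1 : HasDerivAt (fun t : ℂ => Complex.exp (t * a)) a 0 := by
    simpa using ((hasDerivAt_id (0 : ℂ)).mul_const a).cexp
  exact h1.smul_const h

theorem theta_smul_conjugators (c : Fin s → ℂ) (hc : ∀ j, c j ≠ 0) {H : PTup k s r}
    (hH : ∀ j, (H.2 j).det ≠ 0) : theta K (H.1, fun j => c j • H.2 j) = theta K H := by
  refine Prod.ext rfl (funext fun j => ?_)
  have hu : IsUnit (H.2 j).det := isUnit_iff_ne_zero.2 (hH j)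
  have hi : (c j • H.2 j)⁻¹ = (c j)⁻¹ • (H.2 j)⁻¹ := by
    refine Matrix.inv_eq_right_inv ?_
    rw [smul_mul_smul_comm, mul_inv_cancel₀ (hc j), Matrix.mul_nonsing_inv _ hu, one_smul]
  simp only [theta, hi, Matrix.smul_mul, Matrix.mul_smul, smul_smul,
    mul_inv_cancel₀ (hc j), one_smul]

theorem dEq_scale {H : PTup k s r} (hH : GoodP H) (c : Fin s → ℂ) :
    dEq K H (0, fun l => c l • H.2 l) = 0 := by
  have hc : HasDerivAt (fun t : ℂ => ((H.1, fun l => Complex.exp (t * c l) • H.2 l) : PTup k s r))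
      (0, fun l => c l • H.2 l) 0 :=
    (hasDerivAt_const _ _).prodMk (hasDerivAt_pi.2 fun l => hasDerivAt_cexp_smul _ _)
  have h := hasDerivAt_prodP_theta (K := K) hH hc (by simp)
  simp only [theta_smul_conjugators _ (fun j => Complex.exp_ne_zero _) hH.2] at h
  exact h.unique (hasDerivAt_const _ _)

end Vale.Agent.P002
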