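import Vale.Agent.P002.Full.Open
import Vale.Agent.P002.Punct.Basic

/-!
The differential of the product of commutators and conjugates of fixed matrices, as a function of
the handles and the conjugators; the annihilator of its range is the commutant.
-/

namespace Vale.Agent.P002

open Matrix Module Filter Topology
open scoped Matrix.Norms.Operator

variable {n g s r : ℕ}

/-- The product of the puncture matrices, as a function of the conjugators. -/
noncomputable def prodK (K h : Fin s → Mat r ℂ) : Mat r ℂ :=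
  (List.ofFn fun j => h j * K j * (h j)⁻¹).prod

theorem prodP_theta (K : Fin s → Mat r ℂ) (x : PTup n s r) :
    prodP (theta K x) = prodC x.1 * prodK K x.2 := rfl

theorem prodK_succ (K h : Fin (s + 1) → Mat r ℂ) :
    prodK K h = h 0 * K 0 * (h 0)⁻¹ * prodK (Fin.tail K) (Fin.tail h) := by
  simp [prodK, List.ofFn_succ, Fin.tail]

theorem contDiffAt_prodK : ∀ {s : ℕ} {K h : Fin s → Mat r ℂ},
    (∀ j, (h j).det ≠ 0) → ContDiffAt ℂ 1 (prodK K) h
  | 0, K, h, _ => by
    have e : (prodK K : (Fin 0 → Mat r ℂ) → _) = fun _ => 1 := funext fun y => by simp [prodK]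
    rw [e]; exact contDiffAt_const
  | s + 1, K, h, hh => by
    have e : (prodK K : (Fin (s + 1) → Mat r ℂ) → _) = fun y =>
        y 0 * K 0 * (y 0)⁻¹ * prodK (Fin.tail K) (Fin.tail y) := funext (prodK_succ K)
    rw [e]
    have ha : ContDiff ℂ 1 (fun y : Fin (s + 1) → Mat r ℂ => y 0) := contDiff_apply ℂ (Mat r ℂ) 0
    have ht : ContDiff ℂ 1 (fun y : Fin (s + 1) → Mat r ℂ => Fin.tail y) :=
      contDiff_pi.2 fun i : Fin s => contDiff_apply ℂ (Mat r ℂ) i.succ
    exact ((ha.contDiffAt.mul contDiffAt_const).mul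
      ((contDiffAt_inv (hh 0)).comp h ha.contDiffAt)).mul
      (ContDiffAt.comp (g := prodK (Fin.tail K)) h
        (contDiffAt_prodK (h := Fin.tail h) fun j => hh j.succ) ht.contDiffAt)

theorem det_prodK : ∀ {s : ℕ} {K h : Fin s → Mat r ℂ},
    (∀ j, (K j).det = 1) → (∀ j, (h j).det ≠ 0) → (prodK K h).det = 1
  | 0, K, h, _, _ => by simp [prodK]
  | s + 1, K, h, hK, hh => by
    rw [prodK_succ, det_mul,
      det_prodK (K := Fin.tail K) (h := Fin.tail h) (fun j => hK j.succ) (fun j => hh j.succ),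
      mul_one, det_mul, det_mul, hK 0, mul_one, det_nonsing_inv, Ring.inverse_eq_inv,
      mul_inv_cancel₀ (hh 0)]

theorem isUnit_det_prodK {K h : Fin s → Mat r ℂ} (hK : ∀ j, (K j).det = 1)
    (hh : ∀ j, (h j).det ≠ 0) : IsUnit (prodK K h).det := by
  rw [det_prodK hK hh]; exact isUnit_one

/-- The differential of `prodK`, moved to the identity. -/
noncomputable def linB (K h : Fin s → Mat r ℂ) : (Fin s → Mat r ℂ) →ₗ[ℂ] Mat r ℂ :=
  (LinearMap.mulRight ℂ (prodK K h)⁻¹).comp (fderiv ℂ (prodK K) h).toLinearMap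

theorem linB_apply (K h w : Fin s → Mat r ℂ) :
    linB K h w = fderiv ℂ (prodK K) h w * (prodK K h)⁻¹ := rfl

theorem hasDerivAt_prodK_line {K h : Fin s → Mat r ℂ} (hh : ∀ j, (h j).det ≠ 0)
    (w : Fin s → Mat r ℂ) :
    HasDerivAt (fun t : ℂ => prodK K (h + t • w)) (fderiv ℂ (prodK K) h w) 0 := by
  have hline : HasDerivAt (fun t : ℂ => h + t • w) w 0 := by
    have h' := ((hasDerivAt_id (0 : ℂ)).smul_const w).const_add h
    rwa [one_smul] at h'
  have h' : HasFDerivAt (prodK K) (fderiv ℂ (prodK K) h) (h + (0 : ℂ) • w) := by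
    rw [zero_smul, add_zero]
    exact ((contDiffAt_prodK hh).differentiableAt one_ne_zero).hasFDerivAt
  exact (h'.comp_hasDerivAt 0 hline :)

theorem linB_succ {K h : Fin (s + 1) → Mat r ℂ} (hK : ∀ j, (K j).det = 1)
    (hh : ∀ j, (h j).det ≠ 0) (w : Fin (s + 1) → Mat r ℂ) :
    linB K h w = w 0 * (h 0)⁻¹ - h 0 * K 0 * (h 0)⁻¹ * (w 0 * (h 0)⁻¹) * (h 0 * K 0 * (h 0)⁻¹)⁻¹ +
      h 0 * K 0 * (h 0)⁻¹ * linB (Fin.tail K) (Fin.tail h) (Fin.tail w) *
        (h 0 * K 0 * (h 0)⁻¹)⁻¹ := by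
  have hd : ∀ j, (Fin.tail h j).det ≠ 0 := fun j => hh j.succ
  have ha : HasDerivAt (fun t : ℂ => h 0 + t • w 0) (w 0) 0 := by
    have h' := ((hasDerivAt_id (0 : ℂ)).smul_const (w 0)).const_add (h 0)
    rwa [one_smul] at h'
  have hai := hasDerivAt_inv' ha (by simpa using hh 0)
  have h1 := ((ha.mul_const (K 0)).mul hai).mul
    (hasDerivAt_prodK_line (K := Fin.tail K) hd (Fin.tail w))
  have e : (fun t : ℂ => prodK K (h + t • w)) = fun t => (h 0 + t • w 0) * K 0 *
      (h 0 + t • w 0)⁻¹ * prodK (Fin.tail K) (Fin.tail h + t • Fin.tail w) :=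
    funext fun t => prodK_succ _ _
  have h' := hasDerivAt_prodK_line (K := K) hh w
  rw [e] at h'
  have hD := h'.unique h1
  simp only [zero_smul, add_zero, Pi.mul_apply] at hD
  rw [linB_apply, hD, linB_apply, prodK_succ K h, Matrix.mul_inv_rev]
  obtain ⟨A, hA⟩ := (Matrix.isUnit_iff_isUnit_det _).2 (isUnit_iff_ne_zero.2 (hh 0))
  obtain ⟨L, hL⟩ := (Matrix.isUnit_iff_isUnit_det _).2 (by rw [hK 0]; exact isUnit_one :
    IsUnit (K 0).det)
  obtain ⟨P, hP⟩ := (Matrix.isUnit_iff_isUnit_det _).2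
    (isUnit_det_prodK (K := Fin.tail K) (fun j => hK j.succ) hd)
  rw [← hA, ← hL, ← hP]
  simp only [← Matrix.coe_units_inv, ← Units.val_mul, _root_.mul_inv_rev, inv_inv]
  simp only [Units.val_mul, add_mul, sub_eq_add_neg, mul_neg, neg_mul, mul_assoc,
    Units.mul_inv_cancel_left, Units.inv_mul_cancel_left]

theorem trace_linB : ∀ {s : ℕ} {K h : Fin s → Mat r ℂ},
    (∀ j, (K j).det = 1) → (∀ j, (h j).det ≠ 0) → ∀ w, (linB K h w).trace = 0
  | 0, K, h, _, _, w => by
    rw [show w = 0 from Subsingleton.elim _ _, map_zero, trace_zero]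
  | s + 1, K, h, hK, hh, w => by
    have hc : IsUnit (h 0 * K 0 * (h 0)⁻¹).det := by
      rw [det_mul, det_mul, hK 0, det_nonsing_inv, Ring.inverse_eq_inv, mul_one,
        mul_inv_cancel₀ (hh 0)]
      exact isUnit_one
    rw [linB_succ hK hh, trace_add, trace_sub, trace_mul_cycle (h 0 * K 0 * (h 0)⁻¹),
      trace_mul_cycle (h 0 * K 0 * (h 0)⁻¹), Matrix.nonsing_inv_mul _ hc, one_mul, one_mul,
      sub_self, zero_add]
    exact trace_linB (K := Fin.tail K) (fun j => hK j.succ) (fun j => hh j.succ) _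

/-- The annihilator of the range of `linB` commutes with every puncture matrix. -/
theorem linB_ann : ∀ {s : ℕ} {K h : Fin s → Mat r ℂ},
    (∀ j, (K j).det = 1) → (∀ j, (h j).det ≠ 0) → ∀ Y : Mat r ℂ,
    (∀ w, (Y * linB K h w).trace = 0) →
    ∀ j, Y * (h j * K j * (h j)⁻¹) = h j * K j * (h j)⁻¹ * Y
  | 0, _, _, _, _, _, _ => fun j => j.elim0
  | s + 1, K, h, hK, hh, Y, hY => by
    obtain ⟨c, hcdef⟩ : ∃ c, c = h 0 * K 0 * (h 0)⁻¹ := ⟨_, rfl⟩
    have hc : IsUnit c.det := by
      rw [hcdef, det_mul, det_mul, hK 0, det_nonsing_inv, Ring.inverse_eq_inv, mul_one,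
        mul_inv_cancel₀ (hh 0)]
      exact isUnit_one
    have h0 : ∀ u : Mat r ℂ, (Y * (u - c * u * c⁻¹)).trace = 0 := fun u => by
      have h' := hY (Fin.cons (u * h 0) 0)
      rw [linB_succ hK hh, ← hcdef, show Fin.tail (Fin.cons (u * h 0) 0 : Fin (s + 1) → Mat r ℂ) = 0 from
        Fin.tail_cons _ _, map_zero, mul_zero, zero_mul, add_zero, Fin.cons_zero,
        Matrix.mul_nonsing_inv_cancel_right _ _ (isUnit_iff_ne_zero.2 (hh 0))] at h'
      exact h'
    have hY' : Y = c⁻¹ * Y * c := by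
      refine Matrix.ext_iff_trace_mul_right.2 fun u => ?_
      have h' := h0 u
      rw [mul_sub, trace_sub, sub_eq_zero] at h'
      rw [h', ← mul_assoc, ← mul_assoc, trace_mul_comm]
      simp only [mul_assoc]
    have hYc : Y * c = c * Y := by
      have h' := congrArg (fun M => c * M) hY'
      rw [← mul_assoc c (c⁻¹ * Y), ← mul_assoc c, Matrix.mul_nonsing_inv _ hc, one_mul] at h'
      exact h'.symm
    refine Fin.cases (hcdef ▸ hYc) ?_
    refine linB_ann (K := Fin.tail K) (h := Fin.tail h) (fun j => hK j.succ) (fun j => hh j.succ) Y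
      fun w => ?_
    have h' := hY (Fin.cons 0 w)
    rw [linB_succ hK hh, ← hcdef, Fin.cons_zero, zero_mul, mul_zero, zero_mul, sub_zero, zero_add,
      Fin.tail_cons, ← mul_assoc, ← mul_assoc, hYc, mul_assoc c, trace_mul_cycle,
      Matrix.nonsing_inv_mul _ hc, one_mul] at h'
    exact h'

theorem commute_prodC : ∀ {n : ℕ} {x : Tup n (Mat r ℂ)}, Good x → ∀ Y : Mat r ℂ,
    Y ∈ commA (fam x) → Commute Y (prodC x)
  | 0, x, _, Y, _ => by simp [prodC, rel]
  | n + 1, x, hx, Y, hY => by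
    rw [mem_commA] at hY
    obtain ⟨A, hA⟩ := (Matrix.isUnit_iff_isUnit_det _).2 (isUnit_iff_ne_zero.2 (hx.1 0))
    obtain ⟨B, hB⟩ := (Matrix.isUnit_iff_isUnit_det _).2 (isUnit_iff_ne_zero.2 (hx.2 0))
    have cA : Commute Y (A : Mat r ℂ) := by rw [hA]; exact hY (Sum.inl 0)
    have cB : Commute Y (B : Mat r ℂ) := by rw [hB]; exact hY (Sum.inr 0)
    have ct : Commute Y (prodC (tailT x)) := commute_prodC hx.tailT Y (mem_commA.2 fun j => by
      rcases j with i | i
      · exact hY (Sum.inl i.succ)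
      · exact hY (Sum.inr i.succ))
    rw [prodC_succ, ← hA, ← hB, ← Matrix.coe_units_inv, ← Matrix.coe_units_inv]
    exact (((cA.mul_right cB).mul_right cA.units_inv_right).mul_right
      cB.units_inv_right).mul_right ct

/-- The differential of the whole equation, moved to the identity. -/
noncomputable def linP (K : Fin s → Mat r ℂ) (x : PTup n s r) : PTup n s r →ₗ[ℂ] Mat r ℂ :=
  (lin x.1).comp (LinearMap.fst ℂ _ _) +
    ((LinearMap.mulRight ℂ (prodC x.1)⁻¹).comp
      ((LinearMap.mulLeft ℂ (prodC x.1)).comp (linB K x.2))).comp (LinearMap.snd ℂ _ _)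

theorem linP_apply (K : Fin s → Mat r ℂ) (x v : PTup n s r) :
    linP K x v = lin x.1 v.1 + prodC x.1 * linB K x.2 v.2 * (prodC x.1)⁻¹ := rfl

theorem trace_linP {K : Fin s → Mat r ℂ} (hK : ∀ j, (K j).det = 1) {x : PTup n s r}
    (hx : GoodP x) (v : PTup n s r) : (linP K x v).trace = 0 := by
  rw [linP_apply, trace_add, trace_lin hx.1, zero_add, trace_mul_cycle,
    Matrix.nonsing_inv_mul _ (isUnit_det_prodC hx.1), one_mul]
  exact trace_linB hK hx.2 _

/-- The annihilator of the range of `linP` lies in the commutant. -/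
theorem linP_ann {K : Fin s → Mat r ℂ} (hK : ∀ j, (K j).det = 1) {x : PTup n s r}
    (hx : GoodP x) (Y : Mat r ℂ) (hY : ∀ v, (Y * linP K x v).trace = 0) :
    Y ∈ commA (famP (theta K x)) := by
  have h1 : Y ∈ commA (fam x.1) := lin_ann hx.1 Y fun v => by
    have h := hY (v, 0)
    rwa [linP_apply, map_zero, mul_zero, zero_mul, add_zero] at h
  have hC := commute_prodC hx.1 Y h1
  have h2 := linB_ann hK hx.2 Y fun w => by
    have h := hY (0, w)
    rwa [linP_apply, map_zero, zero_add, ← mul_assoc, ← mul_assoc, hC.eq, mul_assoc (prodC x.1),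
      trace_mul_cycle, Matrix.nonsing_inv_mul _ (isUnit_det_prodC hx.1), one_mul] at h
  rw [mem_commA] at h1 ⊢
  rintro (j | j)
  · exact h1 j
  · exact h2 j

theorem le_finrank_range_linP {K : Fin s → Mat r ℂ} (hK : ∀ j, (K j).det = 1) {x : PTup n s r}
    (hx : GoodP x) :
    r * r ≤ finrank ℂ (LinearMap.range (linP K x)) + finrank ℂ (commA (famP (theta K x))) := by
  have h := finrank_le_of_ann (linP K x)
    (LinearMap.mk₂ ℂ (fun Y Z => (Y * Z).trace) (fun _ _ _ => by rw [add_mul, trace_add])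
      (fun _ _ _ => by rw [Matrix.smul_mul, trace_smul]) (fun _ _ _ => by rw [mul_add, trace_add])
      (fun _ _ _ => by rw [Matrix.mul_smul, trace_smul]))
    (commA (famP (theta K x))) (linP_ann hK hx)
  rwa [Module.finrank_matrix, Fintype.card_fin, Module.finrank_self, mul_one] at h

theorem range_linP_eq (hr : r ≠ 0) {K : Fin s → Mat r ℂ} (hK : ∀ j, (K j).det = 1)
    {x : PTup n s r} (hx : GoodP x) (hs : SchurP (theta K x)) :
    LinearMap.range (linP K x) = slM r := by
  refine Submodule.eq_of_le_of_finrank_le ?_ ?_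
  · rintro _ ⟨v, rfl⟩
    exact trace_linP hK hx v
  have h1 := le_finrank_range_linP hK hx
  have h2 := (schurF_iff_finrank hr _).1 hs
  have h3 := finrank_slM hr
  omega

end Vale.Agent.P002
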