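import Vale.Agent.P002.Punct.HSpace

/-!
The slides are smooth at invertible tuples.
-/

namespace Vale.Agent.P002

open Matrix Filter Topology
open scoped Matrix.Norms.Operator

variable {k s r : ℕ} {K : Fin s → Mat r ℂ} {E : Type*} [NormedAddCommGroup E] [NormedSpace ℂ E]
  {x : E}

theorem contDiffAt_inv_comp {f : E → Mat r ℂ} (hf : ContDiffAt ℂ 1 f x) (h0 : (f x).det ≠ 0) :
    ContDiffAt ℂ 1 (fun e => (f e)⁻¹) x :=
  (contDiffAt_inv h0).comp x hf

theorem contDiffAt_list_prod : ∀ l : List (E → Mat r ℂ), (∀ f ∈ l, ContDiffAt ℂ 1 f x) →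
    ContDiffAt ℂ 1 (fun e => (l.map fun f => f e).prod) x
  | [], _ => by simpa using contDiffAt_const
  | f :: l, h => by
    simp only [List.map_cons, List.prod_cons]
    exact (h f (by simp)).mul (contDiffAt_list_prod l fun g hg => h g (by simp [hg]))

theorem contDiffAt_take_prod {m : ℕ} (f : Fin m → E → Mat r ℂ)
    (hf : ∀ i, ContDiffAt ℂ 1 (f i) x) (N : ℕ) :
    ContDiffAt ℂ 1 (fun e => ((List.ofFn fun i => f i e).take N).prod) x := by
  have e : (fun e => ((List.ofFn fun i => f i e).take N).prod) =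
      fun e => (((List.ofFn f).take N).map fun g => g e).prod := by
    funext e
    rw [List.map_take, List.map_ofFn]
    rfl
  rw [e]
  exact contDiffAt_list_prod _ fun g hg => by
    obtain ⟨i, rfl⟩ := List.mem_ofFn.1 (List.mem_of_mem_take hg)
    exact hf i

variable {t : E → Tup k (Mat r ℂ)}

theorem contDiffAt_gS (γ : GIdx k s) (h1 : ∀ i, ContDiffAt ℂ 1 (fun e => (t e).1 i) x)
    (h2 : ∀ i, ContDiffAt ℂ 1 (fun e => (t e).2 i) x) (hg : Good (t x)) :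
    ContDiffAt ℂ 1 (fun e => gS (fun a : Mat r ℂ => a⁻¹) γ (t e)) x := by
  have hc : ∀ i, ContDiffAt ℂ 1 (fun e => cmt (fun a : Mat r ℂ => a⁻¹) (t e) i) x := fun i =>
    (((h1 i).mul (h2 i)).mul (contDiffAt_inv_comp (h1 i) (hg.1 i))).mul
      (contDiffAt_inv_comp (h2 i) (hg.2 i))
  rcases γ with (i | i) | j
  · exact contDiffAt_take_prod _ hc i
  · exact contDiffAt_take_prod _ hc i
  · have h := contDiffAt_take_prod _ hc k
    simp only [List.take_of_length_le (List.length_ofFn).le] at h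
    exact h

theorem contDiffAt_gB (γ : GIdx k s) (h1 : ∀ i, ContDiffAt ℂ 1 (fun e => (t e).1 i) x)
    (h2 : ∀ i, ContDiffAt ℂ 1 (fun e => (t e).2 i) x) (hg : Good (t x)) {b : E → Mat r ℂ}
    (hb : ContDiffAt ℂ 1 b x) :
    ContDiffAt ℂ 1 (fun e => gB (fun a : Mat r ℂ => a⁻¹) γ (t e) (b e)) x := by
  have hS := contDiffAt_gS γ h1 h2 hg
  exact ((contDiffAt_inv_comp hS (by rw [det_gS γ hg]; exact one_ne_zero)).mul hb).mul hS

theorem contDiffAt_uVal (γ : GIdx k s) {H : E → PTup k s r}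
    (h1 : ∀ i, ContDiffAt ℂ 1 (fun e => (H e).1.1 i) x)
    (h2 : ∀ i, ContDiffAt ℂ 1 (fun e => (H e).1.2 i) x)
    (h3 : ∀ j, ContDiffAt ℂ 1 (fun e => (H e).2 j) x) (hg : GoodP (H x)) :
    ContDiffAt ℂ 1 (fun e => uVal K γ (H e)) x := by
  have hS := contDiffAt_gS γ h1 h2 hg.1
  refine (hS.mul ?_).mul (contDiffAt_inv_comp hS (by rw [det_gS γ hg.1]; exact one_ne_zero))
  rcases γ with (i | i) | j
  · exact h1 i
  · exact ((h1 i).mul (h2 i)).mul (contDiffAt_inv_comp (h1 i) (hg.1.1 i))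
  · exact contDiffAt_take_prod _
      (fun l => ((h3 l).mul contDiffAt_const).mul (contDiffAt_inv_comp (h3 l) (hg.2 l))) _

theorem contDiffAt_cons {m : ℕ} {a : E → Mat r ℂ} {f : E → Fin m → Mat r ℂ}
    (ha : ContDiffAt ℂ 1 a x) (hf : ∀ i, ContDiffAt ℂ 1 (fun e => f e i) x) :
    ContDiffAt ℂ 1 (fun e => (Fin.cons (a e) (f e) : Fin (m + 1) → Mat r ℂ)) x :=
  contDiffAt_pi.2 fun i => by
    refine Fin.cases ?_ (fun i => ?_) i
    · simpa using ha
    · simpa using hf i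

theorem contDiffAt_updT (γ : GIdx k s) {B Bi : E → Mat r ℂ} (hB : ContDiffAt ℂ 1 B x)
    (hBi : ContDiffAt ℂ 1 Bi x) (h1 : ∀ i, ContDiffAt ℂ 1 (fun e => (t e).1 i) x)
    (h2 : ∀ i, ContDiffAt ℂ 1 (fun e => (t e).2 i) x) :
    (∀ l, ContDiffAt ℂ 1 (fun e => (updT γ (B e) (Bi e) (t e)).1 l) x) ∧
      ∀ l, ContDiffAt ℂ 1 (fun e => (updT γ (B e) (Bi e) (t e)).2 l) x := by
  rcases γ with (i | i) | j
  · refine ⟨fun l => ?_, fun l => ?_⟩ <;> by_cases h : l = i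
    · subst h
      simpa [updT] using (hB.mul (h1 l)).mul hBi
    · simpa [updT, h] using h1 l
    · subst h
      simpa [updT] using (h2 l).mul hBi
    · simpa [updT, h] using h2 l
  · refine ⟨fun l => ?_, fun l => h2 l⟩
    by_cases h : l = i
    · subst h
      simpa [updT] using hB.mul (h1 l)
    · simpa [updT, h] using h1 l
  · exact ⟨h1, h2⟩

theorem contDiffAt_updH (γ : GIdx k s) {B : E → Mat r ℂ} {h : E → Fin s → Mat r ℂ}
    (hB : ContDiffAt ℂ 1 B x) (h3 : ∀ j, ContDiffAt ℂ 1 (fun e => h e j) x) (l : Fin s) :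
    ContDiffAt ℂ 1 (fun e => updH γ (B e) (h e) l) x := by
  rcases γ with γ | j
  · exact h3 l
  · simp only [updH, Sum.elim_inr]
    split_ifs
    · exact hB.mul (h3 l)
    · exact h3 l

theorem contDiffAt_coord (x : PTup (k + 1) s r) :
    (∀ i, ContDiffAt ℂ 1 (fun e : PTup (k + 1) s r => e.1.1 i) x) ∧
      (∀ i, ContDiffAt ℂ 1 (fun e : PTup (k + 1) s r => e.1.2 i) x) ∧
      ∀ j, ContDiffAt ℂ 1 (fun e : PTup (k + 1) s r => e.2 j) x :=
  ⟨fun i => ((contDiff_apply ℂ (Mat r ℂ) i).comp contDiff_fst.fst).contDiffAt,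
    fun i => ((contDiff_apply ℂ (Mat r ℂ) i).comp contDiff_fst.snd).contDiffAt,
    fun j => ((contDiff_apply ℂ (Mat r ℂ) j).comp contDiff_snd).contDiffAt⟩

theorem contDiffAt_slideH (γ : GIdx k s) {x : PTup (k + 1) s r} (hx : GoodP x)
    (hu : (uVal K γ (tailP x)).det ≠ 0) : ContDiffAt ℂ 1 (slideH K γ) x := by
  obtain ⟨c1, c2, c3⟩ := contDiffAt_coord x
  have hg : Good (tailP x).1 := Good.tailT hx.1
  have h1 : ∀ i, ContDiffAt ℂ 1 (fun e : PTup (k + 1) s r => (tailP e).1.1 i) x := fun i => c1 i.succ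
  have h2 : ∀ i, ContDiffAt ℂ 1 (fun e : PTup (k + 1) s r => (tailP e).1.2 i) x := fun i => c2 i.succ
  have hU := contDiffAt_uVal (K := K) γ (H := fun e : PTup (k + 1) s r => tailP e) h1 h2
    c3 ⟨hg, hx.2⟩
  have hb := ((contDiffAt_inv_comp hU hu).mul (c2 0)).mul hU
  have hB := contDiffAt_gB γ (t := fun e : PTup (k + 1) s r => (tailP e).1) h1 h2 hg hb
  have hB0 : (gB (fun a : Mat r ℂ => a⁻¹) γ (tailP x).1
      ((uVal K γ (tailP x))⁻¹ * x.1.2 0 * uVal K γ (tailP x))).det ≠ 0 := by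
    rw [det_gB γ hg, det_mul, det_mul, det_nonsing_inv, Ring.inverse_eq_inv]
    exact mul_ne_zero (mul_ne_zero (inv_ne_zero hu) (hx.1.2 0)) hu
  obtain ⟨hT1, hT2⟩ := contDiffAt_updT γ hB (contDiffAt_inv_comp hB hB0) h1 h2
  exact ((contDiffAt_cons ((c1 0).mul hU) hT1).prodMk (contDiffAt_cons hb hT2)).prodMk
    (contDiffAt_pi.2 (contDiffAt_updH γ hB c3))

theorem contDiffAt_unslideH (γ : GIdx k s) {x : PTup (k + 1) s r} (hx : GoodP x)
    (hy : GoodP (unslideH K γ x)) (hu : (uVal K γ (tailP (unslideH K γ x))).det ≠ 0) :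
    ContDiffAt ℂ 1 (unslideH K γ) x := by
  obtain ⟨c1, c2, c3⟩ := contDiffAt_coord x
  have hg : Good (tailP x).1 := Good.tailT hx.1
  have h1 : ∀ i, ContDiffAt ℂ 1 (fun e : PTup (k + 1) s r => (tailP e).1.1 i) x := fun i => c1 i.succ
  have h2 : ∀ i, ContDiffAt ℂ 1 (fun e : PTup (k + 1) s r => (tailP e).1.2 i) x := fun i => c2 i.succ
  have hB := contDiffAt_gB γ (t := fun e : PTup (k + 1) s r => (tailP e).1) h1 h2 hg (c2 0)
  have hB0 : (gB (fun a : Mat r ℂ => a⁻¹) γ (tailP x).1 (x.1.2 0)).det ≠ 0 := by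
    rw [det_gB γ hg]; exact hx.1.2 0
  have hBi := contDiffAt_inv_comp hB hB0
  obtain ⟨hT1, hT2⟩ := contDiffAt_updT γ hBi hB h1 h2
  have hH := contDiffAt_updH γ hBi c3
  let H : PTup (k + 1) s r → PTup k s r := fun e =>
    (updT γ (gB (fun a : Mat r ℂ => a⁻¹) γ (tailP e).1 (e.1.2 0))⁻¹
      (gB (fun a : Mat r ℂ => a⁻¹) γ (tailP e).1 (e.1.2 0)) (tailP e).1,
      updH γ (gB (fun a : Mat r ℂ => a⁻¹) γ (tailP e).1 (e.1.2 0))⁻¹ e.2)
  have et : tailP (unslideH K γ x) = H x := rfl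
  rw [et] at hu
  have hU := contDiffAt_uVal (K := K) γ (H := H) hT1 hT2 hH
    ⟨show Good (H x).1 from et ▸ Good.tailT hy.1, fun j => hy.2 j⟩
  have hUi := contDiffAt_inv_comp hU hu
  exact ((contDiffAt_cons ((c1 0).mul hUi) hT1).prodMk
    (contDiffAt_cons ((hU.mul (c2 0)).mul hUi) hT2)).prodMk (contDiffAt_pi.2 hH)

end Vale.Agent.P002
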