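import Vale.Agent.P002.Punct.Deriv

/-!
Composites of slides along words, and a composite of twist flows seen through them.
-/

namespace Vale.Agent.P002

open Matrix Filter Topology
open scoped Matrix.Norms.Operator

variable {k s r : ℕ} (K : Fin s → Mat r ℂ)

/-- The product of the loops of a word of slides. -/
noncomputable def uW (H : PTup k s r) : List (GIdx k s) → Mat r ℂ
  | [] => 1
  | γ :: w => uVal K γ H * uW H w

/-- Conjugation, linearly. -/
noncomputable def conjL (U : Mat r ℂ) : Mat r ℂ →ₗ[ℂ] Mat r ℂ :=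
  (LinearMap.mulRight ℂ U⁻¹).comp (LinearMap.mulLeft ℂ U)

theorem conjL_apply (U X : Mat r ℂ) : conjL U X = U * X * U⁻¹ := rfl

/-- The velocity of the inverse of a word of slides. -/
noncomputable def dW (H : PTup k s r) : List (GIdx k s) → Mat r ℂ →ₗ[ℂ] PTup k s r
  | [] => 0
  | γ :: w => dW H w + (dSlide γ H.1 H.2).comp (conjL (uW K H w))

/-- A word of slides. -/
noncomputable def phiW : List (GIdx k s) → PTup (k + 1) s r → PTup (k + 1) s r
  | [], x => x
  | γ :: w, x => phiW w (slideH K γ x)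

/-- Its inverse. -/
noncomputable def psiW : List (GIdx k s) → PTup (k + 1) s r → PTup (k + 1) s r
  | [], x => x
  | γ :: w, x => unslideH K γ (psiW w x)

/-- A twist flow seen through a word of slides. -/
noncomputable def stpW (w : List (GIdx k s)) (t : ℂ) (x : PTup (k + 1) s r) :
    PTup (k + 1) s r :=
  psiW K w (flowP t (phiW K w x))

variable {K} {L : IntermediateField ℚ ℂ}

theorem gS_upd_eq (γ : GIdx k s) (B Bi : Mat r ℂ) (t : Tup k (Mat r ℂ)) :
    gS (fun a : Mat r ℂ => a⁻¹) γ (updT γ B Bi t) = gS (fun a : Mat r ℂ => a⁻¹) γ t := by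
  have h : ∀ (t' : Tup k (Mat r ℂ)) (i : Fin k), (∀ l, l ≠ i → t'.1 l = t.1 l ∧ t'.2 l = t.2 l) →
      preS (fun a : Mat r ℂ => a⁻¹) t' i = preS (fun a : Mat r ℂ => a⁻¹) t i := fun t' i ht => by
    simp only [preS]
    congr 1
    refine List.ext_getElem (by simp) fun l h1 h2 => ?_
    have hl : l < (i : ℕ) := by simp at h1; omega
    have hne : (⟨l, hl.trans i.isLt⟩ : Fin k) ≠ i := fun e => hl.ne (congrArg Fin.val e)
    simp [cmt, (ht _ hne).1, (ht _ hne).2]
  rcases γ with (i | i) | j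
  · exact h _ i fun l hl => by simp [updT, hl]
  · exact h _ i fun l hl => by simp [updT, hl]
  · rfl

theorem unslideH_slideH (hK : ∀ j, (K j).det = 1) (γ : GIdx k s) {x : PTup (k + 1) s r}
    (hx : GoodH x) : unslideH K γ (slideH K γ x) = x := by
  have hy := (goodH_slideH hK γ hx).1
  have hθ : theta K (unslideH K γ (slideH K γ x)) = theta K x := by
    rw [theta_unslideH γ hy, theta_slideH]
    obtain ⟨q, hq⟩ := exists_lift (x := theta K x) hx.1 (hx.det_theta hK)
    rw [← hq, slideX_map (slCoe r ℂ) (fun a => a⁻¹) _ slCoe_nonsing_inv,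
      unslideX_map (slCoe r ℂ) (fun a => a⁻¹) _ slCoe_nonsing_inv, unslideX_slideX]
  refine Prod.ext (show (theta K (unslideH K γ (slideH K γ x))).1 = (theta K x).1 by rw [hθ]) ?_
  set u := uVal K γ (tailP x)
  set B := gB (fun a : Mat r ℂ => a⁻¹) γ (tailP x).1 (u⁻¹ * x.1.2 0 * u) with hBdef
  have hBu : IsUnit B.det := by
    have hu : u.det = 1 := det_uVal hK γ hx.tail
    rw [hBdef, det_gB γ (good_of_detOne hx.tail.1), det_mul, det_mul, det_nonsing_inv, hu,
      hx.1.2 0, Ring.inverse_one, one_mul, one_mul]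
    exact isUnit_one
  have e : gB (fun a : Mat r ℂ => a⁻¹) γ (tailP (slideH K γ x)).1 ((slideH K γ x).1.2 0) = B := by
    have et : (tailP (slideH K γ x)).1 = updT γ B B⁻¹ (tailP x).1 := by
      simp [tailP, tailT, slideH, B, u]
    rw [et, gB, gS_upd_eq]
    simp [slideH, hBdef, gB, u]
  change updH γ (gB (fun a : Mat r ℂ => a⁻¹) γ (tailP (slideH K γ x)).1
    ((slideH K γ x).1.2 0))⁻¹ (updH γ B x.2) = x.2
  rw [e]
  rcases γ with γ | j
  · rfl
  · funext l
    by_cases h : l ≤ j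
    · simp [updH, h, Matrix.nonsing_inv_mul_cancel_left _ _ hBu]
    · simp [updH, h]

theorem det_uW (hK : ∀ j, (K j).det = 1) {H : PTup k s r} (hH : GoodH H) :
    ∀ w, (uW K H w).det = 1
  | [] => det_one
  | γ :: w => by rw [uW, det_mul, det_uVal hK γ hH, det_uW hK hH w, one_mul]

theorem uW_append (H : PTup k s r) : ∀ v w, uW K H (v ++ w) = uW K H v * uW K H w
  | [], w => by rw [List.nil_append, uW, one_mul]
  | γ :: v, w => by rw [List.cons_append, uW, uW_append H v w, uW, mul_assoc]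

theorem dW_append (H : PTup k s r) (X : Mat r ℂ) : ∀ v w,
    dW K H (v ++ w) X = dW K H w X + dW K H v (conjL (uW K H w) X)
  | [], w => by simp [dW]
  | γ :: v, w => by
    rw [List.cons_append, dW, LinearMap.add_apply, dW_append H X v w, dW, LinearMap.add_apply,
      add_assoc]
    congr 2
    simp only [LinearMap.comp_apply, conjL_apply, uW_append, Matrix.mul_inv_rev, mul_assoc]

theorem goodH_phiW (hK : ∀ j, (K j).det = 1) : ∀ (w : List (GIdx k s)) {x : PTup (k + 1) s r},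
    GoodH x → GoodH (phiW K w x)
  | [], _, h => h
  | γ :: w, _, h => goodH_phiW hK w (goodH_slideH hK γ h).1

theorem goodH_psiW (hK : ∀ j, (K j).det = 1) : ∀ (w : List (GIdx k s)) {x : PTup (k + 1) s r},
    GoodH x → GoodH (psiW K w x)
  | [], _, h => h
  | γ :: w, _, h => (goodH_slideH hK γ (goodH_psiW hK w h)).2

theorem psiW_phiW (hK : ∀ j, (K j).det = 1) : ∀ (w : List (GIdx k s)) {x : PTup (k + 1) s r},
    GoodH x → psiW K w (phiW K w x) = x
  | [], _, _ => rfl
  | γ :: w, x, h => by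
    rw [phiW, psiW, psiW_phiW hK w (goodH_slideH hK γ h).1, unslideH_slideH hK γ h]

theorem phiW_consA (hK : ∀ j, (K j).det = 1) {H : PTup k s r} (hH : GoodH H) : ∀ w A,
    phiW K w (consA A H) = consA (A * uW K H w) H
  | [], A => by rw [phiW, uW, mul_one]
  | γ :: w, A => by rw [phiW, slideH_consA hK γ A hH, phiW_consA hK hH w, uW, mul_assoc]

theorem psiW_consA (hK : ∀ j, (K j).det = 1) {H : PTup k s r} (hH : GoodH H) : ∀ w A,
    psiW K w (consA A H) = consA (A * (uW K H w)⁻¹) H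
  | [], A => by rw [psiW, uW, inv_one, mul_one]
  | γ :: w, A => by
    rw [psiW, psiW_consA hK hH w, unslideH_consA γ _ hH
      (by rw [det_uVal hK γ hH]; exact isUnit_one), uW, Matrix.mul_inv_rev, mul_assoc]

theorem zH_phiW (hK : ∀ j, (K j).det = 1) : ∀ (w : List (GIdx k s)) {x : PTup (k + 1) s r},
    x ∈ ZH K L (k + 1) → phiW K w x ∈ ZH K L (k + 1)
  | [], _, h => h
  | γ :: w, _, h => zH_phiW hK w (zH_slideH hK γ h)

theorem zH_psiW (hK : ∀ j, (K j).det = 1) : ∀ (w : List (GIdx k s)) {x : PTup (k + 1) s r},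
    x ∈ ZH K L (k + 1) → psiW K w x ∈ ZH K L (k + 1)
  | [], _, h => h
  | γ :: w, _, h => zH_unslideH hK γ (zH_psiW hK w h)

theorem contDiffAt_phiW (hK : ∀ j, (K j).det = 1) : ∀ (w : List (GIdx k s))
    {x : PTup (k + 1) s r}, GoodH x → ContDiffAt ℂ 1 (phiW K w) x
  | [], _, _ => contDiffAt_id
  | γ :: w, x, h =>
    ContDiffAt.comp (g := phiW K w) x (contDiffAt_phiW hK w (goodH_slideH hK γ h).1)
      (contDiffAt_slideH γ h.good (by rw [det_uVal hK γ h.tail]; exact one_ne_zero))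

theorem contDiffAt_psiW (hK : ∀ j, (K j).det = 1) : ∀ (w : List (GIdx k s))
    {x : PTup (k + 1) s r}, GoodH x → ContDiffAt ℂ 1 (psiW K w) x
  | [], _, _ => contDiffAt_id
  | γ :: w, x, h => by
    have hg := (goodH_slideH hK γ (goodH_psiW hK w h)).2
    exact ContDiffAt.comp (g := unslideH K γ) x
      (contDiffAt_unslideH γ (goodH_psiW hK w h).good hg.good
        (by rw [det_uVal hK γ hg.tail]; exact one_ne_zero)) (contDiffAt_psiW hK w h)

theorem goodH_flowP (hr : r ≠ 0) (t : ℂ) {x : PTup (k + 1) s r} (h : GoodH x) :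
    GoodH (flowP t x) := by
  refine ⟨⟨h.1.1, fun i => ?_⟩, h.2⟩
  by_cases hi : i = 0
  · subst hi
    simp [flowP, h.1.2 0, det_exp, trace_smul, trace_pw hr]
  · simp [flowP, hi, h.1.2 i]

theorem contDiff_flowP : ContDiff ℂ 1 (fun p : ℂ × PTup (k + 1) s r => flowP p.1 p.2) :=
  ((contDiff_flow (0 : Fin (k + 1)) 1).comp (contDiff_fst.prodMk contDiff_snd.fst)).prodMk
    contDiff_snd.snd

theorem contDiffAt_stpW (hK : ∀ j, (K j).det = 1) (hr : r ≠ 0) (w : List (GIdx k s)) (t : ℂ)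
    {x : PTup (k + 1) s r} (h : GoodH x) :
    ContDiffAt ℂ 1 (fun p : ℂ × PTup (k + 1) s r => stpW K w p.1 p.2) (t, x) := by
  have h1 : ContDiffAt ℂ 1 (fun p : ℂ × PTup (k + 1) s r => flowP p.1 (phiW K w p.2)) (t, x) :=
    ContDiffAt.comp (g := fun p : ℂ × PTup (k + 1) s r => flowP p.1 p.2) (t, x)
      contDiff_flowP.contDiffAt (contDiffAt_fst.prodMk
        (ContDiffAt.comp (g := phiW K w) (t, x) (contDiffAt_phiW hK w h) contDiffAt_snd))
  exact ContDiffAt.comp (g := psiW K w) (t, x)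
    (contDiffAt_psiW hK w (goodH_flowP hr t (goodH_phiW hK w h))) h1

theorem goodH_stpW (hK : ∀ j, (K j).det = 1) (hr : r ≠ 0) (w : List (GIdx k s)) (t : ℂ)
    {x : PTup (k + 1) s r} (h : GoodH x) : GoodH (stpW K w t x) :=
  goodH_psiW hK w (goodH_flowP hr t (goodH_phiW hK w h))

theorem stpW_zero (hK : ∀ j, (K j).det = 1) (w : List (GIdx k s)) {x : PTup (k + 1) s r}
    (h : GoodH x) : stpW K w 0 x = x := by
  have e : flowP 0 (phiW K w x) = phiW K w x := by simp [flowP]
  rw [stpW, e, psiW_phiW hK w h]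

theorem hasDerivAt_psiW (hK : ∀ j, (K j).det = 1) {H : PTup k s r} (hH : GoodH H) :
    ∀ (w : List (GIdx k s)) {A : Mat r ℂ}, A.det = 1 → ∀ {c : ℂ → PTup (k + 1) s r}
      {v : PTup (k + 1) s r}, HasDerivAt c v 0 → c 0 = consA A H →
      ∃ z, HasDerivAt (fun t => psiW K w (c t)) z 0 ∧
        z.1.2 0 = uW K H w * v.1.2 0 * (uW K H w)⁻¹ ∧
        tailP z = tailP v + dW K H w (v.1.2 0)
  | [], A, _, c, v, hc, _ => ⟨v, hc, by simp [uW], by simp [dW]⟩
  | γ :: w, A, hA, c, v, hc, h0 => by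
    obtain ⟨z, hz, hzb, hzt⟩ := hasDerivAt_psiW hK hH w hA hc h0
    have hA' : (A * (uW K H w)⁻¹).det = 1 := by
      rw [det_mul, det_nonsing_inv, hA, det_uW hK hH w, Ring.inverse_one, mul_one]
    obtain ⟨z', hz', hzb', hzt'⟩ := hasDerivAt_unslideH hK γ hA' hH hz
      (by rw [h0, psiW_consA hK hH w])
    refine ⟨z', hz', ?_, ?_⟩
    · rw [hzb', hzb, uW, Matrix.mul_inv_rev]
      simp only [mul_assoc]
    · rw [hzt', hzt, hzb, dW, LinearMap.add_apply, LinearMap.comp_apply, conjL_apply, add_assoc]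

end Vale.Agent.P002
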